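import Vale.Agent.P146.R3.H453.Upper
import Vale.Agent.P146.R3.H924.Low6

set_option linter.all false

/-!
# P146: the end assembly

`TMx β a c k`: the rate `C (1 + log n)^k n^a r^(-c)` of one small exponential moment, at the
constrained Parisi value.  With `θ (5 + c) = 1 - a`, from it: the mean at the rate `n^(1 - 5θ)`,
the variance at `n^(1 - 4θ)`, and everything which follows.
-/

open MeasureTheory ProbabilityTheory Filter Topology

namespace Vale.Agent.P146.H260.Asm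

open Vale.Agent.P146 Vale.Agent.P146.Sx Vale.Agent.P146.Ub.Cv Vale.Agent.P146.H605
open Vale.Agent.P146.Ce Vale.Agent.P146.Tb

/-- The rate of one exponential moment, at the Parisi value with exponents at least `r`. -/
def TMx (β a c : ℝ) (k : ℕ) : Prop := ∃ D : ℝ, 0 ≤ D ∧ ∀ n : ℕ, 1 ≤ n → ∀ r : ℝ, 0 < r →
  r ≤ 1 → 1 ≤ r ^ 6 * n → n * (Real.log 2 + Sh.Vx β r) ≤
    1 / r * Real.log (∫ g, Real.exp (r * freeEnergy n β g) ∂(disorder n)) +
      D * (1 + Real.log n) ^ k * ((n : ℝ) ^ a * r ^ (-c))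

/-- The same at the Parisi value. -/
def TM (β a c : ℝ) (k : ℕ) : Prop := ∃ D : ℝ, 0 ≤ D ∧ ∀ n : ℕ, 1 ≤ n → ∀ r : ℝ, 0 < r →
  r ≤ 1 → 1 ≤ r ^ 6 * n → n * pv β ≤
    1 / r * Real.log (∫ g, Real.exp (r * freeEnergy n β g) ∂(disorder n)) +
      D * (1 + Real.log n) ^ k * ((n : ℝ) ^ a * r ^ (-c))

lemma P0_le_Vx {β r : ℝ} (hβ : 1 ≤ β) (hr1 : r ≤ 1) : Sh.P0 β ≤ Sh.Vx β r := by
  unfold Sh.P0 Sh.Vx
  refine csInf_le_csInf (Ld.cor_bdd hβ) (Sh.shfin_ne hr1) ?_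
  rintro y ⟨K, m, q, h1, h2, -, h4, -, h6⟩
  exact ⟨K, m, q, h1, h2, h4, h6⟩

theorem TMx.tm {β a c : ℝ} {k : ℕ} (hβ : 1 ≤ β) (h : TMx β a c k) : TM β a c k := by
  obtain ⟨D, hD, h1⟩ := h
  refine ⟨D, hD, fun n hn r hr hr1 hr6 => le_trans ?_ (h1 n hn r hr hr1 hr6)⟩
  rw [Sh.shfin_pv]
  have := P0_le_Vx hβ hr1
  gcongr

/-- The rate of the mean, `θ` the gain. -/
def MRg (β θ : ℝ) (j : ℕ) : Prop := ∃ C : ℝ, 1 ≤ C ∧ ∀ n : ℕ, 1 ≤ n →
    n * pv β ≤ ∫ g, freeEnergy n β g ∂(disorder n) +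
      C * (n : ℝ) ^ (1 - 5 * θ) * (1 + Real.log n) ^ j

/-- **The rate of the mean from one small exponential moment.** -/
theorem mean_rate_g {β a c θ : ℝ} {k : ℕ} (hβ : 1 ≤ β) (hc0 : 0 ≤ c) (hc1 : c ≤ 1)
    (hθ : θ * (5 + c) = 1 - a) (hθ0 : 0 ≤ θ) (hθ6 : θ < 1 / 6) (hT : TM β a c k) :
    MRg β θ (k + 1) := by
  obtain ⟨D, hD, h⟩ := hT
  obtain ⟨C₁, hC₁, hmom, hup, -⟩ := rt_moment hβ
  have hev := Vale.Agent.P146.R3.H924.Low5.log_pow_le (16 ^ 6) 6 (δ := 1 - 6 * θ) (by linarith)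
  obtain ⟨N₀, hN₀⟩ := eventually_atTop.1 hev
  obtain ⟨C', hC'0, hC'⟩ := small_n N₀
    (fun n => n * pv β - ∫ g, freeEnergy n β g ∂(disorder n))
  obtain ⟨E, hE⟩ : ∃ E, E = 32 * D + C₁ + β ^ 2 / 2 + C' := ⟨_, rfl⟩
  have hb0 : 0 ≤ β ^ 2 := sq_nonneg β
  refine ⟨E, by linarith, fun n hn => ?_⟩
  have hn1 : (1 : ℝ) ≤ n := by exact_mod_cast hn
  have hn0 : (0 : ℝ) < n := by linarith
  have hlog : 0 ≤ Real.log n := Real.log_nonneg hn1
  obtain ⟨L, hL⟩ : ∃ L, L = 1 + Real.log n := ⟨_, rfl⟩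
  have hL1 : 1 ≤ L := by linarith
  have hL0 : 0 < L := by linarith
  obtain ⟨Y, hY⟩ : ∃ Y, Y = (n : ℝ) ^ (1 - 5 * θ) := ⟨_, rfl⟩
  have hY1 : 1 ≤ Y := by rw [hY]; exact Real.one_le_rpow hn1 (by linarith)
  have hY0 : 0 < Y := by linarith
  have hLk : 1 ≤ L ^ (k + 1) := one_le_pow₀ hL1
  have hT1 : 1 ≤ Y * L ^ (k + 1) := one_le_mul_of_one_le_of_one_le hY1 hLk
  rw [← hY, ← hL]
  rcases lt_or_ge n N₀ with hlt | hge
  · have h1 := (le_abs_self _).trans (hC' n hlt)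
    have h2 : C' * 1 ≤ E * (Y * L ^ (k + 1)) := by
      refine mul_le_mul (by linarith) hT1 zero_le_one (by linarith)
    rw [mul_assoc]
    linarith
  · have hev1 := hN₀ n hge
    rw [← hL] at hev1
    obtain ⟨r, hr⟩ : ∃ r, r = (n : ℝ) ^ (-θ) / (16 * L) := ⟨_, rfl⟩
    have hnθ : (n : ℝ) ^ (-θ) ≤ 1 := Real.rpow_le_one_of_one_le_of_nonpos hn1 (by linarith)
    have hnθ0 : 0 < (n : ℝ) ^ (-θ) := by positivity
    have hr0 : 0 < r := by rw [hr]; positivity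
    have hr16 : r ≤ 1 / (16 * (1 + Real.log n)) := by
      rw [hr, ← hL]
      exact div_le_div_of_nonneg_right hnθ (by positivity)
    have hr1 : r ≤ 1 := by
      refine hr16.trans ?_
      rw [← hL, div_le_one (by positivity)]
      linarith
    have hr6 : 1 ≤ r ^ 6 * n := by
      have e1 : r ^ 6 * n = (n : ℝ) ^ (1 - 6 * θ) / (16 ^ 6 * L ^ 6) := by
        have e2 : ((n : ℝ) ^ (-θ)) ^ 6 = (n : ℝ) ^ (-(6 * θ)) := by
          rw [← Real.rpow_natCast, ← Real.rpow_mul hn0.le]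
          congr 1
          push_cast
          ring
        have e3 : (n : ℝ) ^ (1 - 6 * θ) = (n : ℝ) ^ (-(6 * θ)) * n := by
          rw [← Real.rpow_add_one hn0.ne']
          congr 1
          ring
        rw [hr, div_pow, e2, e3, mul_pow]
        ring
      rw [e1, le_div_iff₀ (by positivity), one_mul]
      exact hev1
    have h1 := h n hn r hr0 hr1 hr6
    have hB := mean_le hn β (P := n * pv β) (C := C₁) (by linarith) (hmom n hn) (hup n hn)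
      hr0 hr16
    rw [← hL] at h1 hB
    -- the first error
    have e1 : (n : ℝ) ^ a * r ^ (-c) ≤ 16 * L * Y := by
      have e2 : r ^ (-c) = (n : ℝ) ^ (θ * c) * (16 * L) ^ c := by
        rw [hr, Real.div_rpow hnθ0.le (by positivity), ← Real.rpow_mul hn0.le,
          Real.rpow_neg (by positivity : 0 ≤ 16 * L), div_inv_eq_mul]
        congr 2
        ring
      have e3 : (16 * L) ^ c ≤ 16 * L := by
        calc (16 * L) ^ c ≤ (16 * L) ^ (1 : ℝ) :=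
              Real.rpow_le_rpow_of_exponent_le (by linarith) hc1
          _ = 16 * L := Real.rpow_one _
      rw [e2, ← mul_assoc, ← Real.rpow_add hn0]
      have e4 : a + θ * c = 1 - 5 * θ := by linarith
      rw [e4, ← hY, mul_comm]
      exact mul_le_mul_of_nonneg_right e3 hY0.le
    have e5 : D * L ^ k * ((n : ℝ) ^ a * r ^ (-c)) ≤ 16 * D * (Y * L ^ (k + 1)) := by
      calc D * L ^ k * ((n : ℝ) ^ a * r ^ (-c)) ≤ D * L ^ k * (16 * L * Y) :=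
            mul_le_mul_of_nonneg_left e1 (by positivity)
        _ = 16 * D * (Y * L ^ (k + 1)) := by ring
    -- the second error
    have e6 : 33216 * C₁ * n * r ^ 5 * L ^ 5 ≤ C₁ * (Y * L ^ (k + 1)) := by
      have e7 : (n : ℝ) * r ^ 5 * L ^ 5 = Y / 16 ^ 5 := by
        have e8 : ((n : ℝ) ^ (-θ)) ^ 5 = (n : ℝ) ^ (-(5 * θ)) := by
          rw [← Real.rpow_natCast, ← Real.rpow_mul hn0.le]
          congr 1
          push_cast
          ring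
        have e9 : Y = (n : ℝ) ^ (-(5 * θ)) * n := by
          rw [hY, ← Real.rpow_add_one hn0.ne']
          congr 1
          ring
        rw [hr, div_pow, e8, e9, mul_pow]
        field_simp
      have e10 : 33216 * C₁ * n * r ^ 5 * L ^ 5 = 33216 * C₁ * (Y / 16 ^ 5) := by
        rw [← e7]; ring
      rw [e10]
      have e11 : 33216 * C₁ * (Y / 16 ^ 5) ≤ C₁ * Y := by
        have : 0 ≤ C₁ * Y := by positivity
        have e12 : 33216 * C₁ * (Y / 16 ^ 5) = 33216 / 16 ^ 5 * (C₁ * Y) := by ring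
        rw [e12]
        norm_num
        linarith
      refine e11.trans ?_
      have e12 : Y ≤ Y * L ^ (k + 1) := le_mul_of_one_le_right hY0.le hLk
      exact mul_le_mul_of_nonneg_left e12 (by linarith)
    have e13 : β ^ 2 / 2 ≤ β ^ 2 / 2 * (Y * L ^ (k + 1)) :=
      le_mul_of_one_le_right (by positivity) hT1
    have e14 : 0 ≤ C' * (Y * L ^ (k + 1)) := by positivity
    have e15 : E * Y * L ^ (k + 1) = 2 * (16 * D * (Y * L ^ (k + 1))) + C₁ * (Y * L ^ (k + 1)) +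
        β ^ 2 / 2 * (Y * L ^ (k + 1)) + C' * (Y * L ^ (k + 1)) := by
      rw [hE]; ring
    rw [e15]
    linarith

/-! ### The variance and the chaos profile -/

lemma rpow_bound_g {n L θ : ℝ} {j : ℕ} (hn : 1 ≤ n) (hL : 1 ≤ L) :
    n ^ (1 / 5 : ℝ) * (n ^ (1 - 5 * θ) * L ^ j) ^ (4 / 5 : ℝ) ≤ n ^ (1 - 4 * θ) * L ^ j := by
  have hn0 : 0 < n := by linarith
  have hL2 : 1 ≤ L ^ j := one_le_pow₀ hL
  rw [Real.mul_rpow (by positivity) (by positivity), ← Real.rpow_mul hn0.le, ← mul_assoc,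
    ← Real.rpow_add hn0]
  have e : (1 / 5 : ℝ) + (1 - 5 * θ) * (4 / 5) = 1 - 4 * θ := by ring
  rw [e]
  refine mul_le_mul_of_nonneg_left ?_ (by positivity)
  calc (L ^ j) ^ (4 / 5 : ℝ) ≤ (L ^ j) ^ (1 : ℝ) :=
        Real.rpow_le_rpow_of_exponent_le hL2 (by norm_num)
    _ = L ^ j := Real.rpow_one _

/-- all the constants together -/
lemma basis_g {β θ : ℝ} {j : ℕ} (hβ : 1 ≤ β) (hθ0 : 0 ≤ θ) (hθ6 : θ ≤ 1 / 6)
    (hR : MRg β θ j) : ∃ C : ℝ, 1 ≤ C ∧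
    (∀ n : ℕ, 1 ≤ n → ∀ x : ℝ, 0 < x → x ≤ 1 →
      Real.log (∫ g, Real.exp (x * freeEnergy n β g) ∂(disorder n)) ≤
        x * (n * pv β) + C * n * x ^ 6) ∧
    ∀ n : ℕ, 1 ≤ n → ∃ A : ℝ, 1 ≤ A ∧ (n : ℝ) ^ (1 / 6 : ℝ) ≤ A ∧ A ≤ n ∧
      n * pv β - ∫ g, freeEnergy n β g ∂(disorder n) ≤ C * A ∧
      A ≤ (n : ℝ) ^ (1 - 5 * θ) * (1 + Real.log n) ^ j := by
  obtain ⟨C₁, hC₁, hmom, hup, hlow⟩ := rt_moment hβ
  obtain ⟨C₂, hC₂, h2⟩ := hR
  refine ⟨max C₁ C₂, hC₁.trans (le_max_left _ _), fun n hn x hx hx1 => ?_, fun n hn => ?_⟩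
  · refine (hmom n hn x hx hx1).trans ?_
    have : C₁ * n * x ^ 6 ≤ max C₁ C₂ * n * x ^ 6 := by
      gcongr
      exact le_max_left _ _
    linarith
  · have hn1 : (1 : ℝ) ≤ n := by exact_mod_cast hn
    have hn0 : (0 : ℝ) < n := by linarith
    have hl0 : 0 ≤ Real.log n := Real.log_nonneg hn1
    have hC0 : 1 ≤ max C₁ C₂ := hC₁.trans (le_max_left _ _)
    obtain ⟨Z, hZ⟩ : ∃ Z, Z = (n : ℝ) ^ (1 - 5 * θ) * (1 + Real.log n) ^ j := ⟨_, rfl⟩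
    have hL2 : 1 ≤ (1 + Real.log n) ^ j := one_le_pow₀ (by linarith)
    have h6 : (n : ℝ) ^ (1 / 6 : ℝ) ≤ n := by
      nth_rewrite 2 [← Real.rpow_one (n : ℝ)]
      exact Real.rpow_le_rpow_of_exponent_le hn1 (by norm_num)
    have h6' : (n : ℝ) ^ (1 / 6 : ℝ) ≤ Z := by
      rw [hZ]
      calc (n : ℝ) ^ (1 / 6 : ℝ) ≤ (n : ℝ) ^ (1 - 5 * θ) :=
            Real.rpow_le_rpow_of_exponent_le hn1 (by linarith)
        _ ≤ _ := le_mul_of_one_le_right (by positivity) hL2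
    have h61 : 1 ≤ (n : ℝ) ^ (1 / 6 : ℝ) := Real.one_le_rpow hn1 (by norm_num)
    have k1 := h2 n hn
    rw [← hZ]
    rw [mul_assoc, ← hZ] at k1
    refine ⟨min n Z, le_min hn1 (h61.trans h6'), le_min h6 h6', min_le_left _ _, ?_,
      min_le_right _ _⟩
    rcases le_total (n : ℝ) Z with h | h
    · rw [min_eq_left h]
      have h1 := hlow n hn
      have h3 : (n : ℝ) ^ (7 / 8 : ℝ) ≤ n := by
        nth_rewrite 2 [← Real.rpow_one (n : ℝ)]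
        exact Real.rpow_le_rpow_of_exponent_le hn1 (by norm_num)
      have h4 : C₁ * (n : ℝ) ^ (7 / 8 : ℝ) ≤ max C₁ C₂ * n :=
        mul_le_mul (le_max_left _ _) h3 (by positivity) (by linarith)
      linarith
    · rw [min_eq_right h]
      have h4 : C₂ * Z ≤ max C₁ C₂ * Z := by
        have : 0 ≤ Z := by rw [hZ]; positivity
        gcongr
        exact le_max_right _ _
      linarith

/-- The chaos profile at the rate `θ`. -/
def Prof (β θ : ℝ) (j : ℕ) (C : ℝ) : Prop := ∀ n : ℕ, 1 ≤ n → ∀ a : ℝ, 0 ≤ a → a < 1 →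
  (1 - a) * (β ^ 2 / 2 * (n * crossOverlap n β a - 1)) ≤
    C * (n : ℝ) ^ (1 - 4 * θ) * (1 + Real.log n) ^ j

theorem prof_g {β θ : ℝ} {j : ℕ} (hβ : 1 ≤ β) (hθ0 : 0 ≤ θ) (hθ6 : θ ≤ 1 / 6)
    (hR : MRg β θ j) : ∃ C : ℝ, 1 ≤ C ∧ Prof β θ j C := by
  obtain ⟨C₀, hC₀, hmom, hA⟩ := basis_g hβ hθ0 hθ6 hR
  refine ⟨4 * C₀, by linarith, fun n hn a ha ha1 => ?_⟩
  have hn1 : (1 : ℝ) ≤ n := by exact_mod_cast hn
  have hl0 : 0 ≤ Real.log n := Real.log_nonneg hn1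
  obtain ⟨A, hA1, -, hAn, hMA, hA2⟩ := hA n hn
  refine (prof_A hn (fun θ => phi_A hn hC₀ (by linarith : (0 : ℝ) ≤ C₀) (hmom n hn) hA1 hAn
      hMA θ) ha ha1).trans ?_
  have h2 : A ^ (4 / 5 : ℝ) ≤
      ((n : ℝ) ^ (1 - 5 * θ) * (1 + Real.log n) ^ j) ^ (4 / 5 : ℝ) :=
    Real.rpow_le_rpow (by linarith) hA2 (by norm_num)
  have h3 := rpow_bound_g (θ := θ) (j := j) hn1 (show 1 ≤ 1 + Real.log n by linarith)
  have e : 2 * (C₀ + C₀) = 4 * C₀ := by ring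
  rw [e, mul_assoc (4 * C₀)]
  refine mul_le_mul_of_nonneg_left (le_trans ?_ h3) (by linarith)
  exact mul_le_mul_of_nonneg_left h2 (by positivity)

/-- **The chaos rate and the variance from the profile.** -/
theorem var_of_prof_g {β v C : ℝ} {j : ℕ} (hβ : 1 ≤ β) (hv : 0 ≤ v) (hC1 : 1 ≤ C)
    (hP : ∀ n : ℕ, 1 ≤ n → ∀ a : ℝ, 0 ≤ a → a < 1 →
      (1 - a) * (β ^ 2 / 2 * (n * crossOverlap n β a - 1)) ≤
        C * (n : ℝ) ^ v * (1 + Real.log n) ^ j) (n : ℕ) (hn : 1 ≤ n) :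
    (∀ a : ℝ, 0 ≤ a → a < 1 → crossOverlap n β a ≤
      (1 + 2 * C + β ^ 2) * (n : ℝ) ^ (v - 1) * (1 + Real.log n) ^ j / (1 - a)) ∧
    Var[freeEnergy n β; disorder n] ≤
      (1 + 2 * C + β ^ 2) * (n : ℝ) ^ v * (1 + Real.log n) ^ (j + 1) := by
  have hb : 1 ≤ β ^ 2 := one_le_pow₀ hβ
  have hn1 : (1 : ℝ) ≤ n := by exact_mod_cast hn
  have hn0 : (0 : ℝ) < n := by linarith
  have hl0 : 0 ≤ Real.log n := Real.log_nonneg hn1
  have hprof := hP n hn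
  obtain ⟨L, hL⟩ : ∃ L, L = 1 + Real.log n := ⟨_, rfl⟩
  have hL1 : 1 ≤ L := by linarith
  have hLj : 1 ≤ L ^ j := one_le_pow₀ hL1
  obtain ⟨Y, hY⟩ : ∃ Y, Y = (n : ℝ) ^ v := ⟨_, rfl⟩
  have hY1 : 1 ≤ Y := by rw [hY]; exact Real.one_le_rpow hn1 hv
  obtain ⟨Z, hZ⟩ : ∃ Z, Z = (n : ℝ) ^ (v - 1) := ⟨_, rfl⟩
  have hZY : Z * n = Y := by
    rw [hZ, hY, ← Real.rpow_add_one hn0.ne']
    congr 1
    ring
  rw [← hL, ← hY] at hprof ⊢
  rw [← hZ]
  constructor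
  · intro a ha ha1
    have h1 := hprof a ha ha1
    have ha' : 0 < 1 - a := by linarith
    rw [le_div_iff₀ ha']
    have h2 : (1 - a) * (n * crossOverlap n β a - 1) ≤ 2 * C * Y * L ^ j := by
      have h3 : 0 ≤ C * Y * L ^ j := by positivity
      have h4 : β ^ 2 * ((1 - a) * (n * crossOverlap n β a - 1)) ≤
          β ^ 2 * (2 * C * Y * L ^ j) := by
        nlinarith
      exact le_of_mul_le_mul_left h4 (by linarith)
    have h5 : n * (crossOverlap n β a * (1 - a)) ≤ n * ((1 + 2 * C + β ^ 2) * Z * L ^ j) := by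
      have e1 : n * ((1 + 2 * C + β ^ 2) * Z * L ^ j) =
          (1 + 2 * C + β ^ 2) * (Z * n) * L ^ j := by
        ring
      rw [e1, hZY]
      have h6 : 1 ≤ Y * L ^ j := one_le_mul_of_one_le_of_one_le hY1 hLj
      have h7 : (1 + 2 * C) * (Y * L ^ j) ≤ (1 + 2 * C + β ^ 2) * (Y * L ^ j) :=
        mul_le_mul_of_nonneg_right (by linarith) (by linarith)
      nlinarith
    exact le_of_mul_le_mul_left h5 hn0
  · have h1 := var_le_of_prof n β hn hprof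
    have hYL : 1 ≤ Y * L ^ (j + 1) :=
      one_le_mul_of_one_le_of_one_le hY1 (one_le_pow₀ hL1)
    have h2 : C * Y * L ^ j * Real.log n ≤ C * Y * L ^ j * L :=
      mul_le_mul_of_nonneg_left (by linarith) (by positivity)
    have e : C * Y * L ^ j * L = C * (Y * L ^ (j + 1)) := by ring
    have h3 : β ^ 2 / 2 ≤ β ^ 2 * (Y * L ^ (j + 1)) := by nlinarith
    have h4 : C * (Y * L ^ (j + 1)) ≤ (1 + 2 * C) * (Y * L ^ (j + 1)) :=
      mul_le_mul_of_nonneg_right (by linarith) (by linarith)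
    have e2 : (1 + 2 * C + β ^ 2) * Y * L ^ (j + 1) =
        (1 + 2 * C) * (Y * L ^ (j + 1)) + β ^ 2 * (Y * L ^ (j + 1)) := by
      ring
    rw [e2]
    linarith

/-- **The profile, the chaos rate and the variance.** -/
theorem var_rate_g {β θ : ℝ} {j : ℕ} (hβ : 1 ≤ β) (hθ0 : 0 ≤ θ) (hθ6 : θ ≤ 1 / 6)
    (hR : MRg β θ j) : ∃ C : ℝ, 1 ≤ C ∧ ∀ n : ℕ, 1 ≤ n →
    (∀ a : ℝ, 0 ≤ a → a < 1 →
      crossOverlap n β a ≤ C * (n : ℝ) ^ (-(4 * θ)) * (1 + Real.log n) ^ j / (1 - a)) ∧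
    Var[freeEnergy n β; disorder n] ≤
      C * (n : ℝ) ^ (1 - 4 * θ) * (1 + Real.log n) ^ (j + 1) := by
  obtain ⟨C, hC1, hP⟩ := prof_g hβ hθ0 hθ6 hR
  have hb : 1 ≤ β ^ 2 := one_le_pow₀ hβ
  refine ⟨1 + 2 * C + β ^ 2, by linarith, fun n hn => ?_⟩
  have h := var_of_prof_g hβ (by linarith : (0 : ℝ) ≤ 1 - 4 * θ) hC1 hP n hn
  have e : 1 - 4 * θ - 1 = -(4 * θ) := by ring
  rw [e] at h
  exact h

end Vale.Agent.P146.H260.Asm
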