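import Vale.Agent.P146.H260.Asm

set_option linter.all false

/-!
# P146: the end assembly: the concentration, the lower tail and the order
-/

open MeasureTheory ProbabilityTheory Filter Topology

namespace Vale.Agent.P146.H260.Asm

open Vale.Agent.P146 Vale.Agent.P146.Sx Vale.Agent.P146.Ub.Cv Vale.Agent.P146.H605
open Vale.Agent.P146.Ce Vale.Agent.P146.Tb

lemma sqrt_pow_g {n L v : ℝ} {j : ℕ} (hn : 0 < n) (hL : 0 < L) :
    √(n ^ v * L ^ j) = n ^ (v / 2) * L ^ ((j : ℝ) / 2) := by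
  rw [Real.sqrt_eq_rpow, Real.mul_rpow (by positivity) (by positivity),
    ← Real.rpow_mul hn.le, ← Real.rpow_natCast, ← Real.rpow_mul hL.le]
  congr 2 <;> ring

/-- **Exponential concentration at the scale `n^((1 - 4 θ)/2) (1 + log n)^((j + 1)/2)`.** -/
theorem conc_rate_g {β θ : ℝ} {j : ℕ} (hβ : 1 ≤ β) (hθ0 : 0 ≤ θ) (hθ6 : θ ≤ 1 / 6)
    (hR : MRg β θ j) : ∃ C k : ℝ, 1 ≤ C ∧ 0 < k ∧
    ∀ n : ℕ, 1 ≤ n → ∀ t : ℝ, 0 ≤ t →
      (disorder n).real {g | t * ((n : ℝ) ^ ((1 - 4 * θ) / 2) *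
        (1 + Real.log n) ^ (((j : ℝ) + 1) / 2)) ≤
        |freeEnergy n β g - ∫ g, freeEnergy n β g ∂(disorder n)|} ≤ C * Real.exp (-(k * t)) := by
  obtain ⟨C₀, hC₀, hmom, hA⟩ := basis_g hβ hθ0 hθ6 hR
  obtain ⟨C₁, hC₁, hvar⟩ := var_rate_g hβ hθ0 hθ6 hR
  obtain ⟨D, hD⟩ : ∃ D, D = (β ^ 2 / 2 + 18 * C₀) + C₁ := ⟨_, rfl⟩
  have hD0 : 0 < D := by rw [hD]; positivity
  have he : 0 < Real.exp 1 := Real.exp_pos 1
  refine ⟨Real.exp 1 + 2, 1 / (4 * √D), by linarith, by positivity, fun n hn t ht => ?_⟩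
  have hn1 : (1 : ℝ) ≤ n := by exact_mod_cast hn
  have hn0 : (0 : ℝ) < n := by linarith
  have hl0 : 0 ≤ Real.log n := Real.log_nonneg hn1
  obtain ⟨A, hA1, hA6, hAn, hMA, hA2⟩ := hA n hn
  obtain ⟨L, hL⟩ : ∃ L, L = 1 + Real.log n := ⟨_, rfl⟩
  have hL1 : 1 ≤ L := by linarith
  have hL0 : 0 < L := by linarith
  have hprob : IsProbabilityMeasure (disorder n) := by unfold disorder; infer_instance
  obtain ⟨T, hT⟩ : ∃ T, T = (n : ℝ) ^ (1 - 4 * θ) * L ^ (j + 1) := ⟨_, rfl⟩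
  have hT0 : 0 < T := by rw [hT]; positivity
  have hsT : √T = (n : ℝ) ^ ((1 - 4 * θ) / 2) * L ^ (((j : ℝ) + 1) / 2) := by
    rw [hT, sqrt_pow_g hn0 hL0]
    push_cast
    rfl
  have hV1 : (β ^ 2 / 2 + 18 * C₀) * ((n : ℝ) ^ (1 / 5 : ℝ) * A ^ (4 / 5 : ℝ)) *
      (1 + Real.log n) ≤ D * T := by
    have h2 : A ^ (4 / 5 : ℝ) ≤
        ((n : ℝ) ^ (1 - 5 * θ) * (1 + Real.log n) ^ j) ^ (4 / 5 : ℝ) :=
      Real.rpow_le_rpow (by linarith) hA2 (by norm_num)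
    have h3 := rpow_bound_g (θ := θ) (j := j) hn1 hL1
    rw [← hL] at h2 ⊢
    have h4 : (n : ℝ) ^ (1 / 5 : ℝ) * A ^ (4 / 5 : ℝ) ≤ (n : ℝ) ^ (1 - 4 * θ) * L ^ j :=
      (mul_le_mul_of_nonneg_left h2 (by positivity)).trans h3
    have hK0 : 0 ≤ β ^ 2 / 2 + 18 * C₀ := by positivity
    calc (β ^ 2 / 2 + 18 * C₀) * ((n : ℝ) ^ (1 / 5 : ℝ) * A ^ (4 / 5 : ℝ)) * L ≤
          (β ^ 2 / 2 + 18 * C₀) * ((n : ℝ) ^ (1 - 4 * θ) * L ^ j) * L := by gcongr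
      _ = (β ^ 2 / 2 + 18 * C₀) * T := by rw [hT]; ring
      _ ≤ D * T := mul_le_mul_of_nonneg_right (by rw [hD]; linarith) hT0.le
  have hV2 : Var[freeEnergy n β; disorder n] ≤ D * T := by
    refine (hvar n hn).2.trans ?_
    rw [← hL]
    calc C₁ * (n : ℝ) ^ (1 - 4 * θ) * L ^ (j + 1) = C₁ * T := by rw [hT]; ring
      _ ≤ D * T := mul_le_mul_of_nonneg_right (by rw [hD]; nlinarith [sq_nonneg β]) hT0.le
  have hDT : 0 < D * T := by positivity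
  have hsD : 0 < √D := Real.sqrt_pos.2 hD0
  have h3 := up_A hC₀ hn (hmom n hn) hA1 hA6 hAn hMA hV1 (t := t / √D) (by positivity)
  have h4 := dn_A hDT hV2 (t := t / √D) (by positivity)
  obtain ⟨U, hU⟩ : ∃ U, U = (n : ℝ) ^ ((1 - 4 * θ) / 2) * L ^ (((j : ℝ) + 1) / 2) := ⟨_, rfl⟩
  rw [← hL, ← hU]
  have e : t / √D * √(D * T) = t * U := by
    rw [Real.sqrt_mul hD0.le, hsT, hU]
    field_simp
  rw [e] at h3 h4
  obtain ⟨E, hE⟩ : ∃ E, E = ∫ g, freeEnergy n β g ∂(disorder n) := ⟨_, rfl⟩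
  rw [← hE] at h3 h4 ⊢
  obtain ⟨s, hs⟩ : ∃ s, s = t * U := ⟨_, rfl⟩
  rw [← hs] at h3 h4 ⊢
  have hsub : {g | s ≤ |freeEnergy n β g - E|} ⊆
      {g | E + s ≤ freeEnergy n β g} ∪ {g | freeEnergy n β g ≤ E - s} := by
    intro g hg
    have hg' : s ≤ |freeEnergy n β g - E| := hg
    rcases le_abs.1 hg' with h | h
    · left
      show E + s ≤ freeEnergy n β g
      linarith
    · right
      show freeEnergy n β g ≤ E - s
      linarith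
  refine (measureReal_mono hsub).trans ((measureReal_union_le _ _).trans ?_)
  have hk : 0 ≤ t / √D := by positivity
  have h5 : Real.exp (1 - t / √D) ≤ Real.exp 1 * Real.exp (-(1 / (4 * √D) * t)) := by
    rw [← Real.exp_add]
    refine Real.exp_le_exp.2 ?_
    have e1 : 1 / (4 * √D) * t = (t / √D) / 4 := by field_simp
    rw [e1]
    linarith
  have h6 : 2 * Real.exp (-(t / √D / 4)) = 2 * Real.exp (-(1 / (4 * √D) * t)) := by
    congr 3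
    field_simp
  calc _ ≤ Real.exp (1 - t / √D) + 2 * Real.exp (-(t / √D / 4)) := add_le_add h3 h4
    _ ≤ Real.exp 1 * Real.exp (-(1 / (4 * √D) * t)) + 2 * Real.exp (-(1 / (4 * √D) * t)) := by
        rw [h6]; exact add_le_add h5 le_rfl
    _ = _ := by ring

/-- **The lower tail from a bound of the variance.** -/
theorem low_dev_g {β v C : ℝ} {j : ℕ} (hβ : 1 ≤ β) (hC1 : 1 ≤ C)
    (hV : ∀ n : ℕ, 1 ≤ n → Var[freeEnergy n β; disorder n] ≤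
      C * (n : ℝ) ^ v * (1 + Real.log n) ^ j) : ∃ k : ℝ, 0 < k ∧ ∀ n : ℕ, 1 ≤ n →
    ∀ t : ℝ, 0 ≤ t →
    (disorder n).real {g | freeEnergy n β g ≤ ∫ g, freeEnergy n β g ∂(disorder n) - t} ≤
      Real.exp (-(k * t ^ 2 / ((n : ℝ) ^ ((v + 1) / 2) *
        (1 + Real.log n) ^ ((j : ℝ) / 2)))) := by
  have hβ0 : 0 < β := by linarith
  have hC0 : 0 < C := by linarith
  obtain ⟨D, hD⟩ : ∃ D, D = √(C * β ^ 2 / 2) := ⟨_, rfl⟩
  have hDpos : 0 < D := by rw [hD]; exact Real.sqrt_pos.2 (by positivity)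
  refine ⟨1 / (8 * D), by positivity, fun n hn t ht => ?_⟩
  have hn1 : (1 : ℝ) ≤ n := by exact_mod_cast hn
  have hn0 : (0 : ℝ) < n := by linarith
  have hl0 : 0 ≤ Real.log n := Real.log_nonneg hn1
  obtain ⟨L, hL⟩ : ∃ L, L = 1 + Real.log n := ⟨_, rfl⟩
  have hL0 : 0 < L := by linarith
  have hvar := hV n hn
  rw [← hL] at hvar ⊢
  have hVpos : 0 < C * (n : ℝ) ^ v * L ^ j := by positivity
  have h := Vale.Agent.P146.Lt.sk_low hβ0 hn hVpos hvar ht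
  refine h.trans (Real.exp_le_exp.2 (neg_le_neg ?_))
  obtain ⟨S, hS⟩ : ∃ S, S = (n : ℝ) ^ ((v + 1) / 2) * L ^ ((j : ℝ) / 2) := ⟨_, rfl⟩
  have hS0 : 0 < S := by rw [hS]; positivity
  have hSS : √((n : ℝ) ^ (v + 1) * L ^ j) = S := by rw [hS, sqrt_pow_g hn0 hL0]
  have hsq : √(C * (n : ℝ) ^ v * L ^ j * (β ^ 2 * n / 2)) = D * S := by
    have e2 : C * (n : ℝ) ^ v * L ^ j * (β ^ 2 * n / 2) =
        (C * β ^ 2 / 2) * ((n : ℝ) ^ (v + 1) * L ^ j) := by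
      rw [Real.rpow_add_one hn0.ne']
      ring
    rw [e2, Real.sqrt_mul (by positivity), hSS, hD]
  rw [hsq, ← hS]
  refine le_of_eq ?_
  field_simp

/-- **Order.** -/
theorem order_rate_g {β θ : ℝ} {j : ℕ} (hβ : 1 < β) (hR : MRg β θ j) :
    ∃ C : ℝ, 1 ≤ C ∧ ∀ n : ℕ, 1 ≤ n →
    (1 - 1 / β) ^ 2 - C * (n : ℝ) ^ (-(5 * θ / 2)) * (1 + Real.log n) ^ ((j : ℝ) / 2) ≤
      crossOverlap n β 1 := by
  obtain ⟨C₂, hC₂, hlo⟩ := hR
  refine ⟨4 + 2 * C₂, by linarith, fun n hn => ?_⟩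
  have hβ0 : 0 < β := by linarith
  have hn1 : (1 : ℝ) ≤ n := by exact_mod_cast hn
  have hn0 : (0 : ℝ) < n := by linarith
  have hl0 : 0 ≤ Real.log n := Real.log_nonneg hn1
  obtain ⟨L, hL⟩ : ∃ L, L = 1 + Real.log n := ⟨_, rfl⟩
  have hL1 : 1 ≤ L := by linarith
  have hL0 : 0 < L := by linarith
  obtain ⟨δ, hδ⟩ : ∃ δ, δ = (n : ℝ) ^ (-(5 * θ / 2)) * L ^ ((j : ℝ) / 2) := ⟨_, rfl⟩
  have hδ0 : 0 < δ := by rw [hδ]; positivity
  have hδn : (n : ℝ) ^ (1 - 5 * θ) * L ^ j = n * δ ^ 2 := by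
    rw [hδ, mul_pow, ← Real.rpow_natCast ((n : ℝ) ^ (-(5 * θ / 2))), ← Real.rpow_mul hn0.le,
      ← Real.rpow_natCast (L ^ ((j : ℝ) / 2)), ← Real.rpow_mul hL0.le, ← mul_assoc]
    have e1 : (n : ℝ) ^ (1 - 5 * θ) = n * (n : ℝ) ^ (-(5 * θ / 2) * ((2 : ℕ) : ℝ)) := by
      rw [mul_comm (n : ℝ), ← Real.rpow_add_one hn0.ne']
      congr 1
      push_cast
      ring
    have e2 : L ^ j = L ^ ((j : ℝ) / 2 * ((2 : ℕ) : ℝ)) := by
      rw [← Real.rpow_natCast L j]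
      congr 1
      push_cast
      ring
    rw [← e1, ← e2]
  obtain ⟨-, -, -, hup, -⟩ := Sx.rt_moment (show 1 ≤ β + δ by linarith)
  have h1 := mean_tangent n β hn hβ0 (β + δ)
  have h2 := hup n hn
  have h3 := hlo n hn
  have h4 := parisi_incr hβ (show β ≤ β + δ by linarith)
  have h5 := order_alg hβ hδ0
  have h6 : Sx.pv (β + δ) ≤ Sx.pv β + δ * β / 2 * (1 - (1 - 1 / β) ^ 2 + 4 * δ) := by
    unfold Sx.pv
    linarith
  have h7 := mul_le_mul_of_nonneg_left h6 hn0.le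
  rw [← hL, mul_assoc C₂, hδn] at h3
  obtain ⟨R, hR⟩ : ∃ R, R = crossOverlap n β 1 := ⟨_, rfl⟩
  rw [← hL, mul_assoc (4 + 2 * C₂), ← hδ, ← hR]
  rw [← hR] at h1
  have h8 : (n * δ * β / 2) * (1 - R) ≤
      (n * δ * β / 2) * (1 - (1 - 1 / β) ^ 2 + 4 * δ + 2 * C₂ * δ) := by
    have h9 : C₂ * (n * δ ^ 2) ≤ (n * δ * β / 2) * (2 * C₂ * δ) := by
      have h10 : 0 ≤ n * δ * (C₂ * δ) := by positivity
      have e : (n * δ * β / 2) * (2 * C₂ * δ) = β * (n * δ * (C₂ * δ)) := by ring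
      have e' : C₂ * (n * δ ^ 2) = 1 * (n * δ * (C₂ * δ)) := by ring
      rw [e, e']
      exact mul_le_mul_of_nonneg_right hβ.le h10
    have e1 : (β + δ - β) * (β * n / 2) * (1 - R) = (n * δ * β / 2) * (1 - R) := by ring
    rw [e1] at h1
    have e2 : (n : ℝ) * (Sx.pv β + δ * β / 2 * (1 - (1 - 1 / β) ^ 2 + 4 * δ)) =
        n * Sx.pv β + (n * δ * β / 2) * (1 - (1 - 1 / β) ^ 2 + 4 * δ) := by ring
    rw [e2] at h7
    have e3 : (n * δ * β / 2) * (1 - (1 - 1 / β) ^ 2 + 4 * δ + 2 * C₂ * δ) =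
        (n * δ * β / 2) * (1 - (1 - 1 / β) ^ 2 + 4 * δ) +
          (n * δ * β / 2) * (2 * C₂ * δ) := by ring
    rw [e3]
    linarith
  have h11 := le_of_mul_le_mul_left h8 (by positivity)
  have e4 : (4 + 2 * C₂) * δ = 4 * δ + 2 * C₂ * δ := by ring
  rw [e4]
  linarith

end Vale.Agent.P146.H260.Asm
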