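import Vale.Agent.P146.H260.Asm2

set_option linter.all false

/-!
# P146: the end assembly: the sharp moment law and the sharp upper tail
-/

open MeasureTheory ProbabilityTheory Filter Topology Set

namespace Vale.Agent.P146.H260.Asm

open Vale.Agent.P157.Par
open Vale.Agent.P146.Gap
open Vale.Agent.P146.Pw2
open Vale.Agent.P146.Lb
open Vale.Agent.P146.Sh
open Vale.Agent.P367.Cl
open Vale.Agent.P146.Tb

/-- `TMx` with `r ≤ 1 / 2`. -/
def TMy (β a c : ℝ) (k : ℕ) : Prop := ∃ D : ℝ, 0 ≤ D ∧ ∀ n : ℕ, 1 ≤ n → ∀ r : ℝ, 0 < r →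
  r ≤ 1 / 2 → 1 ≤ r ^ 6 * n → n * (Real.log 2 + Vx β r) ≤
    1 / r * Real.log (∫ g, Real.exp (r * freeEnergy n β g) ∂(disorder n)) +
      D * (1 + Real.log n) ^ k * ((n : ℝ) ^ a * r ^ (-c))

theorem TMx.tmy {β a c : ℝ} {k : ℕ} (h : TMx β a c k) : TMy β a c k := by
  obtain ⟨D, hD, h1⟩ := h
  exact ⟨D, hD, fun n hn r hr hr2 hr6 => h1 n hn r hr (by linarith) hr6⟩

/-- **The sharp constant of the exponential moments, uniformly in `x ≥ n ^ (-κ)`, `κ < θ`.** -/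
theorem sharp_moment_g {β a c θ : ℝ} {k : ℕ} (hβ : 1 < β) (hc0 : 0 ≤ c) (hθ : θ * (5 + c) = 1 - a)
    (hθ6 : θ ≤ 1 / 6) (hT : TMy β a c k) {A : ℝ} (hA : 0 < A)
    (hlim : Tendsto (fun x => (Vx β x - P0 β) / x ^ 5) (𝓝[>] 0) (𝓝 A)) {κ : ℝ} (hκ0 : 0 ≤ κ)
    (hκ : κ < θ) {ε : ℝ} (hε : 0 < ε) :
    ∃ x₀ : ℝ, 0 < x₀ ∧ ∃ N : ℕ, ∀ n ≥ N, ∀ x : ℝ, (n : ℝ) ^ (-κ) ≤ x → x ≤ x₀ →
      |Real.log (∫ g, Real.exp (x * freeEnergy n β g) ∂(disorder n)) - x * (n * Sx.pv β) -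
        A * n * x ^ 6| ≤ ε * n * x ^ 6 := by
  obtain ⟨D, hD, hdn⟩ := hT
  have h1 : ∀ᶠ x in 𝓝[>] (0 : ℝ), |(Vx β x - P0 β) / x ^ 5 - A| < ε / 4 := by
    have := hlim.eventually (Metric.ball_mem_nhds A (by positivity : 0 < ε / 4))
    simpa [Real.dist_eq] using this
  obtain ⟨u, hu, h2⟩ := mem_nhdsGT_iff_exists_Ioo_subset.1 h1
  have hu0 : 0 < u := hu
  have hV : ∀ x, 0 < x → x < u → |Vx β x - P0 β - A * x ^ 5| ≤ ε / 4 * x ^ 5 := by
    intro x hx hxu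
    have h3 : |(Vx β x - P0 β) / x ^ 5 - A| < ε / 4 := h2 ⟨hx, hxu⟩
    have hx5 : 0 < x ^ 5 := by positivity
    have e : Vx β x - P0 β - A * x ^ 5 = ((Vx β x - P0 β) / x ^ 5 - A) * x ^ 5 := by
      field_simp
    rw [e, abs_mul, abs_of_pos hx5]
    exact mul_le_mul_of_nonneg_right h3.le hx5.le
  -- the exponent
  have hη0 : 0 < (θ - κ) * (5 + c) := by
    have : 0 < θ - κ := by linarith
    positivity
  obtain ⟨N, hN⟩ := eventually_atTop.1 ((eventually_ge_atTop 1).and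
    (Vale.Agent.P146.R3.H924.Low5.log_pow_le (2 * D / ε) k hη0))
  refine ⟨min (u / 2) (1 / 2), lt_min (by positivity) (by norm_num), N,
    fun n hn x hx hxx => ?_⟩
  obtain ⟨hn1, hlη⟩ := hN n hn
  have hn1' : (1 : ℝ) ≤ n := by exact_mod_cast hn1
  have hn0 : (0 : ℝ) < n := by linarith
  have hl0 : 0 ≤ Real.log n := Real.log_nonneg hn1'
  obtain ⟨L, hL⟩ : ∃ L, L = 1 + Real.log n := ⟨_, rfl⟩
  have hL1 : 1 ≤ L := by linarith
  have hL0 : 0 < L := by linarith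
  rw [← hL] at hlη
  have hnκ : 0 < (n : ℝ) ^ (-κ) := by positivity
  have hx0 : 0 < x := lt_of_lt_of_le hnκ hx
  have hxu : x < u := by
    have := hxx.trans (min_le_left _ _)
    linarith
  have hx2 : x ≤ 1 / 2 := hxx.trans (min_le_right _ _)
  have hx1 : x ≤ 1 := by linarith
  have hx5 : 0 < x ^ 5 := by positivity
  have hup := shfin_up (by linarith : 0 < β) hn1 hx0 hx1
  have hVx := abs_le.1 (hV x hx0 hxu)
  have h6 : 1 ≤ x ^ 6 * n := by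
    have e1 : ((n : ℝ) ^ (-κ)) ^ 6 ≤ x ^ 6 := pow_le_pow_left₀ hnκ.le hx 6
    have e2 : ((n : ℝ) ^ (-κ)) ^ 6 * n = (n : ℝ) ^ (1 - 6 * κ) := by
      rw [← Real.rpow_natCast, ← Real.rpow_mul hn0.le, ← Real.rpow_add_one hn0.ne']
      congr 1
      push_cast
      ring
    calc (1 : ℝ) ≤ (n : ℝ) ^ (1 - 6 * κ) := Real.one_le_rpow hn1' (by linarith)
      _ = ((n : ℝ) ^ (-κ)) ^ 6 * n := e2.symm
      _ ≤ x ^ 6 * n := mul_le_mul_of_nonneg_right e1 hn0.le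
  have h3 := hdn n hn1 x hx0 hx2 h6
  rw [← hL] at h3
  -- the error
  have herr : D * L ^ k * ((n : ℝ) ^ a * x ^ (-c)) ≤ ε / 2 * (n * x ^ 5) := by
    have e1 : (n : ℝ) ^ a * x ^ (-c) * (n : ℝ) ^ ((θ - κ) * (5 + c)) ≤ n * x ^ 5 := by
      have e2 : x ^ 5 = x ^ (-c) * x ^ (5 + c) := by
        rw [← Real.rpow_natCast, ← Real.rpow_add hx0]
        congr 1
        push_cast
        ring
      have e3 : (n : ℝ) ^ (-(κ * (5 + c))) ≤ x ^ (5 + c) := by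
        have : (n : ℝ) ^ (-(κ * (5 + c))) = ((n : ℝ) ^ (-κ)) ^ (5 + c) := by
          rw [← Real.rpow_mul hn0.le]
          congr 1
          ring
        rw [this]
        exact Real.rpow_le_rpow hnκ.le hx (by linarith)
      have e4 : (n : ℝ) ^ a * (n : ℝ) ^ ((θ - κ) * (5 + c)) =
          n * (n : ℝ) ^ (-(κ * (5 + c))) := by
        rw [← Real.rpow_add hn0, mul_comm (n : ℝ), ← Real.rpow_add_one hn0.ne']
        congr 1
        have : (θ - κ) * (5 + c) = (1 - a) - κ * (5 + c) := by rw [← hθ]; ring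
        rw [this]
        ring
      have hxc : 0 < x ^ (-c) := Real.rpow_pos_of_pos hx0 _
      calc (n : ℝ) ^ a * x ^ (-c) * (n : ℝ) ^ ((θ - κ) * (5 + c)) =
            x ^ (-c) * ((n : ℝ) ^ a * (n : ℝ) ^ ((θ - κ) * (5 + c))) := by ring
        _ = x ^ (-c) * (n * (n : ℝ) ^ (-(κ * (5 + c)))) := by rw [e4]
        _ ≤ x ^ (-c) * (n * x ^ (5 + c)) := by gcongr
        _ = n * x ^ 5 := by rw [e2]; ring
    have hxc : 0 < x ^ (-c) := Real.rpow_pos_of_pos hx0 _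
    have e5 : 0 < (n : ℝ) ^ a * x ^ (-c) := mul_pos (Real.rpow_pos_of_pos hn0 _) hxc
    have e6 : D * L ^ k ≤ ε / 2 * (n : ℝ) ^ ((θ - κ) * (5 + c)) := by
      have e7 := mul_le_mul_of_nonneg_left hlη (by positivity : 0 ≤ ε / 2)
      have e8 : ε / 2 * (2 * D / ε * L ^ k) = D * L ^ k := by field_simp
      rw [e8] at e7
      exact e7
    calc D * L ^ k * ((n : ℝ) ^ a * x ^ (-c)) ≤
          ε / 2 * (n : ℝ) ^ ((θ - κ) * (5 + c)) * ((n : ℝ) ^ a * x ^ (-c)) :=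
          mul_le_mul_of_nonneg_right e6 e5.le
      _ = ε / 2 * ((n : ℝ) ^ a * x ^ (-c) * (n : ℝ) ^ ((θ - κ) * (5 + c))) := by ring
      _ ≤ ε / 2 * (n * x ^ 5) := mul_le_mul_of_nonneg_left e1 (by positivity)
  rw [shfin_pv, abs_le]
  obtain ⟨I, hI⟩ : ∃ I, I = Real.log (∫ g, Real.exp (x * freeEnergy n β g) ∂(disorder n)) :=
    ⟨_, rfl⟩
  rw [← hI] at hup h3 ⊢
  have h10 : 0 ≤ ε * n * x ^ 6 := by positivity
  constructor
  · have h7 : (n : ℝ) * (Real.log 2 + (P0 β + A * x ^ 5 - ε / 4 * x ^ 5)) ≤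
        n * (Real.log 2 + Vx β x) := mul_le_mul_of_nonneg_left (by linarith) hn0.le
    have h8 := mul_le_mul_of_nonneg_left ((h7.trans h3).trans (add_le_add le_rfl herr)) hx0.le
    have e1 : x * (1 / x * I + ε / 2 * (n * x ^ 5)) = I + ε / 2 * (n * x ^ 6) := by
      field_simp
    have e2 : x * ((n : ℝ) * (Real.log 2 + (P0 β + A * x ^ 5 - ε / 4 * x ^ 5))) =
        x * (n * (Real.log 2 + P0 β)) + A * n * x ^ 6 - 1 / 4 * (ε * n * x ^ 6) := by ring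
    rw [e1, e2] at h8
    have e3 : ε / 2 * (n * x ^ 6) = 1 / 2 * (ε * n * x ^ 6) := by ring
    rw [e3] at h8
    linarith
  · have h7 : x * n * (Real.log 2 + Vx β x) ≤
        x * n * (Real.log 2 + (P0 β + A * x ^ 5 + ε / 4 * x ^ 5)) :=
      mul_le_mul_of_nonneg_left (by linarith) (by positivity)
    have e2 : x * n * (Real.log 2 + (P0 β + A * x ^ 5 + ε / 4 * x ^ 5)) =
        x * (n * (Real.log 2 + P0 β)) + A * n * x ^ 6 + 1 / 4 * (ε * n * x ^ 6) := by ring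
    rw [e2] at h7
    linarith

/-- **The sharp upper tail, uniformly for `s ≥ n ^ (-b)`, every `b < 5 θ`.** -/
theorem sharp_ldp_g {β a c θ : ℝ} {k : ℕ} (hβ : 1 < β) (hc0 : 0 ≤ c) (hθ : θ * (5 + c) = 1 - a)
    (hθ0 : 0 < θ) (hθ6 : θ ≤ 1 / 6) (hT : TMy β a c k) {A : ℝ} (hA : 0 < A)
    (hlim : Tendsto (fun x => (Vx β x - P0 β) / x ^ 5) (𝓝[>] 0) (𝓝 A)) {b : ℝ}
    (hb : b < 5 * θ) :
    ∀ ε : ℝ, 0 < ε → ∃ s₀ : ℝ, 0 < s₀ ∧ ∃ N : ℕ, ∀ n : ℕ, N ≤ n → ∀ s : ℝ,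
      (n : ℝ) ^ (-b) ≤ s → s ≤ s₀ →
      |Real.log ((disorder n).real {g | n * (Sx.pv β + s) ≤ freeEnergy n β g}) +
        5 / 6 * (6 * A) ^ (-(1 / 5) : ℝ) * n * s ^ (6 / 5 : ℝ)| ≤
          ε * n * s ^ (6 / 5 : ℝ) := by
  obtain ⟨b', hb'⟩ : ∃ b', b' = max b 0 := ⟨_, rfl⟩
  have hb0 : 0 ≤ b' := by rw [hb']; exact le_max_right _ _
  have hb1 : b' < 5 * θ := by rw [hb']; exact max_lt hb (by linarith)
  have hbb : b ≤ b' := by rw [hb']; exact le_max_left _ _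
  obtain ⟨a', ha⟩ : ∃ a', a' = (b' / 5 + θ) / 2 := ⟨_, rfl⟩
  intro ε hε
  obtain ⟨s₀, hs₀, N, h⟩ := ldp_abs_u (μ := fun n => disorder n)
    (X := fun n g => freeEnergy n β g) (a := a')
    (b := b') (fun _ => Ub.measurable_free β) (fun n x => Sx.integrable_exp n β x) hA
    (by rw [ha]; linarith) (by rw [ha]; linarith)
    (fun ε hε => sharp_moment_g hβ hc0 hθ hθ6 hT hA hlim (by rw [ha]; linarith)
      (by rw [ha]; linarith) hε) ε hε
  refine ⟨s₀, hs₀, max N 1, fun n hn s hs hss => h n ((le_max_left _ _).trans hn) s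
    (le_trans ?_ hs) hss⟩
  have hn1 : (1 : ℝ) ≤ n := by exact_mod_cast (le_max_right _ _).trans hn
  exact Real.rpow_le_rpow_of_exponent_le hn1 (by linarith)

/-- **The sharp moment law and the sharp upper tail together.** -/
theorem sharp_g {β a c θ : ℝ} {k : ℕ} (hβ : 1 < β) (hc0 : 0 ≤ c) (hθ : θ * (5 + c) = 1 - a)
    (hθ0 : 0 < θ) (hθ6 : θ ≤ 1 / 6) (hT : TMy β a c k) {A : ℝ} (hA : 0 < A)
    (hlim : Tendsto (fun x => (Vx β x - P0 β) / x ^ 5) (𝓝[>] 0) (𝓝 A)) (ε : ℝ) (hε : 0 < ε)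
    (a' : ℝ) (ha' : a' < θ) : ∃ δ : ℝ, 0 < δ ∧ ∀ᶠ n : ℕ in atTop,
      (∀ x : ℝ, (n : ℝ) ^ (-a') ≤ x → x ≤ δ →
        |Real.log (∫ g, Real.exp (x * (freeEnergy n β g - n * Sx.pv β)) ∂(disorder n)) -
          A * n * x ^ 6| ≤ ε * n * x ^ 6) ∧
      (∀ s : ℝ, (n : ℝ) ^ (-(5 * a')) ≤ s → s ≤ δ →
        |Real.log ((disorder n).real {g | n * (Sx.pv β + s) ≤ freeEnergy n β g}) +
          5 / 6 * (6 * A) ^ (-(1 / 5) : ℝ) * n * s ^ (6 / 5 : ℝ)| ≤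
            ε * n * s ^ (6 / 5 : ℝ)) := by
  obtain ⟨b', hb'⟩ : ∃ b', b' = max a' 0 := ⟨_, rfl⟩
  have hb0 : 0 ≤ b' := by rw [hb']; exact le_max_right _ _
  have hb1 : b' < θ := by rw [hb']; exact max_lt ha' (by linarith)
  have hbb : a' ≤ b' := by rw [hb']; exact le_max_left _ _
  obtain ⟨x₁, hx₁, N₁, h1⟩ := sharp_moment_g hβ hc0 hθ hθ6 hT hA hlim hb0 hb1 hε
  obtain ⟨s₁, hs₁, N₂, h2⟩ := sharp_ldp_g hβ hc0 hθ hθ0 hθ6 hT hA hlim (b := 5 * a')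
    (by linarith) ε hε
  refine ⟨min x₁ s₁, lt_min hx₁ hs₁, ?_⟩
  filter_upwards [eventually_ge_atTop (max (max N₁ N₂) 1)] with n hn
  have hn1 : (1 : ℝ) ≤ n := by exact_mod_cast (le_max_right _ _).trans hn
  have hn12 : max N₁ N₂ ≤ n := (le_max_left _ _).trans hn
  refine ⟨fun x hx hxx => ?_, fun s hs hss => h2 n ((le_max_right _ _).trans hn12) s hs
    (hss.trans (min_le_right _ _))⟩
  have hxx' : (n : ℝ) ^ (-b') ≤ x :=
    (Real.rpow_le_rpow_of_exponent_le hn1 (by linarith)).trans hx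
  have h3 := h1 n ((le_max_left _ _).trans hn12) x hxx' (hxx.trans (min_le_left _ _))
  have hint := Sx.integrable_exp n β x
  have hpos : 0 < ∫ g, Real.exp (x * freeEnergy n β g) ∂(disorder n) :=
    mgf_pos (μ := disorder n) (X := freeEnergy n β) hint
  have hcen : ∫ g, Real.exp (x * (freeEnergy n β g - n * Sx.pv β)) ∂(disorder n) =
      Real.exp (-(x * (n * Sx.pv β))) * ∫ g, Real.exp (x * freeEnergy n β g) ∂(disorder n) := by
    rw [← integral_const_mul]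
    congr 1
    funext g
    rw [← Real.exp_add]
    congr 1
    ring
  rw [hcen, Real.log_mul (Real.exp_pos _).ne' hpos.ne', Real.log_exp]
  have e : -(x * (n * Sx.pv β)) + Real.log (∫ g, Real.exp (x * freeEnergy n β g) ∂(disorder n)) =
      Real.log (∫ g, Real.exp (x * freeEnergy n β g) ∂(disorder n)) - x * (n * Sx.pv β) := by
    ring
  rw [e]
  exact h3

end Vale.Agent.P146.H260.Asm
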