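import Vale.Agent.P146.H260.Win

set_option linter.all false

/-!
# P146: the growth relation with exponents `9` and `12` in a larger window
-/

open MeasureTheory ProbabilityTheory Matrix Filter Topology

namespace Vale.Agent.P146.H260.XQ

open Vale.Agent.P157 (spin)
open Vale.Agent.P157.Lv
open Vale.Agent.P157.Lv.Sy
open Vale.Agent.P157.Par (Path Exponents topN lw spinPart incr incr_zero_def incr_succ_def)
open Vale.Agent.P146.Sk
open Vale.Agent.P146.Pw2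
open Vale.Agent.P166.F (Lam)
open Vale.Agent.P146.Sk.Gen (GI gz gl r0 gS gF gOb gIsOpt GD gV)
open Vale.Agent.P146.R3.H732.LB
open Vale.Agent.P146.R3.H729.TbLow
open Vale.Agent.P146.R3.H924.Tb9 (EQS tq_one)
open Vale.Agent.P146.R3.H732.LC (ParU2 num_Q9 num_X9 UpT upT_of LamMax win_up)
open Vale.Agent.P146.R3.H924
open Vale.Agent.P146.H260.Win (zeta_facts3)
open Vale.Agent.P146.H260.Low (XQF SpF)

/-- the error of the equations, when the form is small -/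
lemma err9w {C J Q b t n : ℝ} (hC : 1 ≤ C) (ht : 0 < t) (ht1 : t ≤ 1) (hJ0 : 0 ≤ J)
    (hJ : J ≤ 1 / (C * t ^ 3)) (hQ0 : 0 ≤ Q) (hQ : C ^ 2 * Q ≤ t ^ 7) (hb0 : 0 ≤ b)
    (hb : C * b ≤ t ^ 11) (hn : 0 < n) (hN : C ≤ n * t ^ 16) :
    √(J / t ^ 4) * (√Q + b / t ^ 4 * √(J / t ^ 4)) + 1 / (n * (t ^ 4) ^ 4) ≤ 3 / C := by
  have hC0 : 0 < C := by linarith
  have h1 : J / t ^ 4 ≤ 1 / (C * t ^ 7) := by
    rw [div_le_iff₀ (by positivity)]
    refine hJ.trans (le_of_eq ?_)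
    field_simp
  have h0 : 0 ≤ J / t ^ 4 := by positivity
  have h2 : √(J / t ^ 4) * √Q ≤ 1 / C := by
    rw [← Real.sqrt_mul h0]
    refine Real.sqrt_le_iff.2 ⟨by positivity, ?_⟩
    have e1 : Q ≤ t ^ 7 / C ^ 2 := by
      rw [le_div_iff₀ (by positivity)]
      linarith
    calc J / t ^ 4 * Q ≤ 1 / (C * t ^ 7) * (t ^ 7 / C ^ 2) :=
          mul_le_mul h1 e1 hQ0 (by positivity)
      _ = (1 / C) ^ 2 * (1 / C) := by field_simp
      _ ≤ (1 / C) ^ 2 * 1 := by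
          refine mul_le_mul_of_nonneg_left ?_ (by positivity)
          rw [div_le_one hC0]
          exact hC
      _ = (1 / C) ^ 2 := mul_one _
  have h3 : √(J / t ^ 4) * (b / t ^ 4 * √(J / t ^ 4)) ≤ 1 / C := by
    have e1 : √(J / t ^ 4) * (b / t ^ 4 * √(J / t ^ 4)) = b / t ^ 4 * (J / t ^ 4) := by
      have := Real.mul_self_sqrt h0
      calc √(J / t ^ 4) * (b / t ^ 4 * √(J / t ^ 4)) =
          b / t ^ 4 * (√(J / t ^ 4) * √(J / t ^ 4)) := by ring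
        _ = _ := by rw [this]
    have e2 : b ≤ t ^ 11 / C := by
      rw [le_div_iff₀ hC0]
      linarith
    rw [e1]
    calc b / t ^ 4 * (J / t ^ 4) ≤ t ^ 11 / C / t ^ 4 * (1 / (C * t ^ 7)) := by
          gcongr
      _ = 1 / C * (1 / C) := by field_simp
      _ ≤ 1 / C * 1 := by
          refine mul_le_mul_of_nonneg_left ?_ (by positivity)
          rw [div_le_one hC0]
          exact hC
      _ = 1 / C := mul_one _
  have h4 : 1 / (n * (t ^ 4) ^ 4) ≤ 1 / C := by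
    refine one_div_le_one_div_of_le hC0 (hN.trans (le_of_eq ?_))
    ring
  rw [mul_add]
  have e : 3 / C = 1 / C + 1 / C + 1 / C := by ring
  linarith

/-- **The quadratic form of the resolvent is large.** -/
theorem tb9w {β : ℝ} (hβ : 0 < β) (hE : EQS β) (C0 : ℝ) (hC0 : 1 ≤ C0) : ∃ C : ℝ, 1 ≤ C ∧
    ∀ (N K : ℕ) (m q : ℕ → ℝ) (t a b : ℝ) (s : ℕ → ℝ), 0 < N → Exponents K m → Path K q →
      q K ≤ 1 → 0 < t → t ≤ 1 / C → C ≤ N * t ^ 16 →
      (∀ u ∈ Set.Icc (0 : ℝ) 1, 1 - C0 * u ^ 2 - t ^ 3 ≤ β * Lam K m q u ∧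
        β * Lam K m q u ≤ 1 - u ^ 2 / C0 + t ^ 3) →
      a ∈ Set.Icc (0 : ℝ) 1 → C * (1 - a) ≤ t ^ 2 → b ∈ Set.Icc (0 : ℝ) 1 → C * b ≤ t ^ 11 →
      (∀ l ≤ K, 0 ≤ s l) → C ^ 2 * Qd K m q (sy N K m β (t ^ 4) a b s) ≤ t ^ 7 →
      1 / (C * t ^ 3) ≤ Tb (t ^ 4) (sy N K m β (t ^ 4) a b s) := by
  obtain ⟨Ce, hCe1, he⟩ := hE
  obtain ⟨Cz, hCz1, hz⟩ := zeta_facts3
  obtain ⟨C, hC⟩ : ∃ C : ℝ, C = 64 + 64 * β + Cz +
    (24 * (1 + 8 * β * C0) * Ce + 1) * (10 ^ 6 * C0) := ⟨_, rfl⟩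
  have pβ : 0 ≤ β * C0 := mul_nonneg hβ.le (by linarith)
  have p1 : 0 ≤ (24 * (1 + 8 * β * C0) * Ce + 1) * (10 ^ 6 * C0) := by positivity
  have c64 : 64 ≤ C := by rw [hC]; linarith only [p1, hβ, hCz1]
  have cβ : 64 * β ≤ C := by rw [hC]; linarith only [p1, hβ, hCz1]
  have cz : Cz ≤ C := by rw [hC]; linarith only [p1, hβ, hCz1]
  have cb : (24 * (1 + 8 * β * C0) * Ce + 1) * (10 ^ 6 * C0) ≤ C := by
    rw [hC]; linarith only [hβ, hCz1]
  clear hC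
  have hC0' : 0 < C := by linarith only [c64]
  refine ⟨C, by linarith only [c64], ?_⟩
  intro N K m q t a b s hN hm hq hq1 ht htC hNt hcon ha hat hb hbt hs hQ
  have hN' : (0 : ℝ) < N := by exact_mod_cast hN
  have ht64 : t ≤ 1 / 64 := htC.trans (one_div_le_one_div_of_le (by norm_num) c64)
  have ht1 : t ≤ 1 := ht64.trans (by norm_num)
  have hsq : √(t ^ 4) = t ^ 2 := by
    rw [show t ^ 4 = (t ^ 2) ^ 2 by ring, Real.sqrt_sq (by positivity)]
  have hy0 : 0 < t ^ 4 := by positivity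
  have hyt : t ^ 4 ≤ t := by
    calc t ^ 4 ≤ t ^ 1 := pow_le_pow_of_le_one ht.le ht1 (by norm_num)
      _ = t := pow_one t
  have hyz : t ^ 4 ≤ 1 / Cz :=
    (hyt.trans htC).trans (one_div_le_one_div_of_le (by linarith only [hCz1]) cz)
  have hN6 : C ≤ N * (t ^ 4) ^ 3 := by
    rw [← pow_mul]
    exact hNt.trans (mul_le_mul_of_nonneg_left (pow_le_pow_of_le_one ht.le ht1 (by norm_num))
      hN'.le)
  obtain ⟨-, -, -, -, -, -, z1, z2, z3, z4⟩ := hz N (t ^ 4) hN hy0 hyz (cz.trans hN6)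
  rw [hsq] at z1 z2 z3 z4
  by_contra hneg
  have hJ := (not_le.1 hneg).le
  obtain ⟨hJ0, -⟩ := tb_bounds β hy0 hN hm a b s
  obtain ⟨D, B, h, hB, hBe, hBw⟩ := gdq (K := K) β hy0 hN hm a b
  have F := Gen.gS_fld h hs
  have hRp : Path K (fun l => (sy N K m β (t ^ 4) a b s).Rl spin l) := om_path h hs
  have hRK : (fun l => (sy N K m β (t ^ 4) a b s).Rl spin l) K ≤ 1 := F.Rl_le_one le_rfl
  have hqd := qd_eq h hs q
  have heq := he N K m (t ^ 4) a b s hN hm hy0 (hyt.trans ht1) ha hb hs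
  have htq := tq_one (t ^ 4) (sy N K m β (t ^ 4) a b s) rfl
  obtain ⟨R, hR⟩ : ∃ R : ℕ → ℝ, R = fun l => (sy N K m β (t ^ 4) a b s).Rl spin l := ⟨_, rfl⟩
  rw [← hR] at hRp hRK heq
  have hVd0 : 0 ≤ Vd m (sy N K m β (t ^ 4) a b s) := by
    unfold Vd
    refine Finset.sum_nonneg fun l hl => mul_nonneg ?_ ?_
    · exact (sub_pos.2 (hm.2.2 l (Nat.lt_succ_iff.1 (Finset.mem_range.1 hl)))).le
    · have hl' : l ≤ K := Nat.lt_succ_iff.1 (Finset.mem_range.1 hl)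
      exact F.hreg.pairEx_nonneg (l := l) hl' fun x x' => sq_nonneg _
  obtain ⟨M2, hM2⟩ : ∃ M2 : ℝ, M2 = ∑ l ∈ Finset.range (K + 1), (m (l + 1) - m l) *
      (R l - q l) ^ 2 := ⟨_, rfl⟩
  have hqd' : Qd K m q (sy N K m β (t ^ 4) a b s) = Vd m (sy N K m β (t ^ 4) a b s) + M2 := by
    rw [hM2, hR]
    exact hqd
  have hM20 : 0 ≤ M2 := by
    rw [hM2]
    refine Finset.sum_nonneg fun l hl => mul_nonneg ?_ (sq_nonneg _)
    exact (sub_pos.2 (hm.2.2 l (Nat.lt_succ_iff.1 (Finset.mem_range.1 hl)))).le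
  obtain ⟨V, hV⟩ : ∃ V, V = Vd m (sy N K m β (t ^ 4) a b s) := ⟨_, rfl⟩
  obtain ⟨J, hJd⟩ : ∃ J, J = Tb (t ^ 4) (sy N K m β (t ^ 4) a b s) := ⟨_, rfl⟩
  rw [← hV] at hVd0 hqd' heq
  rw [← hJd] at hJ hJ0 heq hneg htq
  rw [hqd'] at hQ
  have hVt : C ^ 2 * V ≤ t ^ 7 := by
    have : 0 ≤ C ^ 2 * M2 := by positivity
    rw [mul_add] at hQ
    linarith only [hQ, this]
  have hMt : C ^ 2 * M2 ≤ t ^ 7 := by
    have : 0 ≤ C ^ 2 * V := by positivity
    rw [mul_add] at hQ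
    linarith only [hQ, this]
  have hM : √M2 ≤ t ^ 3 / C := by
    refine Real.sqrt_le_iff.2 ⟨by positivity, ?_⟩
    rw [div_pow, le_div_iff₀ (by positivity)]
    have e1 : t ^ 7 ≤ (t ^ 3) ^ 2 := by
      calc t ^ 7 ≤ t ^ 6 := pow_le_pow_of_le_one ht.le ht1 (by norm_num)
        _ = (t ^ 3) ^ 2 := by ring
    linarith only [hMt, e1]
  have hLam : ∀ u : ℝ, |Lam K m R u - Lam K m q u| ≤ t ^ 3 / C := fun u =>
    (lam_sub_le hm q R u).trans ((wabs_le hm fun l => R l - q l).trans (by rw [← hM2]; exact hM))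
  -- small quantities
  have s1 : β * (t ^ 3 / C) ≤ t ^ 2 / 64 := by
    have e1 : β * (t ^ 3 / C) = β / C * t ^ 3 := by ring
    have e2 : β / C ≤ 1 / 64 := by
      rw [div_le_div_iff₀ hC0' (by norm_num)]
      linarith only [cβ]
    have e3 : t ^ 3 ≤ t ^ 2 := pow_le_pow_of_le_one ht.le ht1 (by norm_num)
    rw [e1]
    calc β / C * t ^ 3 ≤ 1 / 64 * t ^ 2 := mul_le_mul e2 e3 (by positivity) (by norm_num)
      _ = t ^ 2 / 64 := by ring
  have s2 : t ^ 3 ≤ t ^ 2 / 64 := by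
    calc t ^ 3 = t ^ 2 * t := by ring
      _ ≤ t ^ 2 * (1 / 64) := mul_le_mul_of_nonneg_left ht64 (by positivity)
      _ = t ^ 2 / 64 := by ring
  have ha0 : 0 ≤ a := ha.1
  have ha1 : a ≤ 1 := ha.2
  have hat' : 1 - a ≤ t ^ 2 / 64 := by
    have e1 : 64 * (1 - a) ≤ C * (1 - a) :=
      mul_le_mul_of_nonneg_right c64 (by linarith only [ha1])
    linarith only [e1, hat]
  have hβa : 0 ≤ β * a := mul_nonneg hβ.le ha0
  have ht2 : t ^ 2 ≤ 1 := pow_le_one₀ ht.le ht1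
  have ha2 : 1 / 2 ≤ a := by linarith only [hat', ht2]
  -- the upper bound of the eigenvalues
  have hup : ∀ u ∈ Set.Icc (0 : ℝ) 1, β * a * Lam K m R u ≤
      1 + t ^ 2 / 32 - u ^ 2 / (4 * C0 ^ 2) := by
    intro u hu
    have e1 := (abs_le.1 (hLam u)).2
    have e2 := (hcon u hu).2
    have e3 : β * Lam K m R u ≤ β * Lam K m q u + β * (t ^ 3 / C) := by
      rw [← mul_add]
      exact mul_le_mul_of_nonneg_left (by linarith only [e1]) hβ.le
    have e4 : β * Lam K m R u ≤ 1 + t ^ 2 / 32 - u ^ 2 / C0 := by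
      linarith only [e3, e2, s1, s2]
    have e5 : β * a * Lam K m R u ≤ a * (1 + t ^ 2 / 32 - u ^ 2 / C0) := by
      have := mul_le_mul_of_nonneg_left e4 ha0
      linarith only [this]
    have e6 : a * (1 + t ^ 2 / 32) ≤ 1 * (1 + t ^ 2 / 32) :=
      mul_le_mul_of_nonneg_right ha1 (by positivity)
    have e7 : u ^ 2 / (4 * C0 ^ 2) ≤ a * (u ^ 2 / C0) := by
      have f1 : 1 / 2 * (u ^ 2 / C0) ≤ a * (u ^ 2 / C0) :=
        mul_le_mul_of_nonneg_right ha2 (by positivity)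
      have f2 : u ^ 2 / (4 * C0 ^ 2) ≤ u ^ 2 / (2 * C0) := by
        refine div_le_div_of_nonneg_left (sq_nonneg u) (by positivity) ?_
        have := mul_le_mul_of_nonneg_left hC0 (show (0 : ℝ) ≤ C0 by linarith only [hC0])
        linarith only [this, hC0]
      have f3 : 1 / 2 * (u ^ 2 / C0) = u ^ 2 / (2 * C0) := by
        field_simp
      linarith only [f1, f2, f3]
    linarith only [e5, e6, e7]
  have hchi : β * a * Sk.chi K m R ≤ 1 + t ^ 2 / 32 := by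
    rw [← lam_zero hRp]
    have := hup 0 ⟨le_rfl, zero_le_one⟩
    have e : (0 : ℝ) ^ 2 / (4 * C0 ^ 2) = 0 := by simp
    linarith only [this, e]
  -- the resolvent
  have hR01 : ∀ l ≤ K, R l ∈ Set.Icc (0 : ℝ) 1 := fun l hl =>
    ⟨Vale.Agent.P166.F.fs_nonneg (hr_opath hRp hRK) hl,
      Vale.Agent.P166.F.fs_le_one (hr_opath hRp hRK) hl⟩
  have hζn : 1 + t ^ 2 / 2 ≤ ‖zt N (t ^ 4)‖ := z1.trans (Complex.re_le_norm _)
  have hres : ∀ l ≤ K, β * a * Sk.lam K m R l +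
      t ^ 2 / 4 * (1 + (R l / (C0 * t)) ^ 2) ≤ ‖zt N (t ^ 4)‖ := by
    intro l hl
    have e1 := hup (R l) (hR01 l hl)
    rw [ResQ.Lam_at hm hRp hRK hl] at e1
    have e2 : t ^ 2 / 4 * (1 + (R l / (C0 * t)) ^ 2) = t ^ 2 / 4 + (R l) ^ 2 / (4 * C0 ^ 2) := by
      have : C0 ≠ 0 := by linarith only [hC0]
      field_simp
    rw [e2]
    linarith only [e1, hζn, sq_nonneg t]
  have hi : 0 < (zt N (t ^ 4)).im := by
    have : 0 < t ^ 2 := by positivity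
    linarith only [this, z3]
  have herr := err9w (C := C) (J := J) (Q := V) (b := b) (t := t) (n := N)
    (by linarith only [c64]) ht ht1 hJ0 hJ hVd0 hVt hb.1 hbt hN' hNt
  have hval := ResQ.resQ hm hRp hRK hβa (show 0 < t ^ 2 / 4 by positivity)
    (show 0 < C0 * t by positivity) hres hi heq.1 heq.2
  rw [htq] at hval
  have hfac : (1 / (t ^ 2 / 4) + 2 * (β * a) * (C0 * t) / (t ^ 2 / 4) ^ 2) ≤
      4 * (1 + 8 * β * C0) / t ^ 3 := by
    have e1 : 1 / (t ^ 2 / 4) ≤ 4 / t ^ 3 := by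
      rw [div_le_div_iff₀ (by positivity) (by positivity)]
      have : t ^ 3 ≤ t ^ 2 := pow_le_pow_of_le_one ht.le ht1 (by norm_num)
      linarith only [this]
    have e2 : 2 * (β * a) * (C0 * t) / (t ^ 2 / 4) ^ 2 = 32 * (a * (β * C0)) / t ^ 3 := by
      field_simp
      ring
    have e3 : 32 * (a * (β * C0)) / t ^ 3 ≤ 32 * (1 * (β * C0)) / t ^ 3 := by
      refine div_le_div_of_nonneg_right ?_ (by positivity)
      have := mul_le_mul_of_nonneg_right ha1 pβ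
      linarith only [this]
    have e4 : 4 * (1 + 8 * β * C0) / t ^ 3 = 4 / t ^ 3 + 32 * (1 * (β * C0)) / t ^ 3 := by
      rw [← add_div]
      congr 1
      ring
    rw [e4, e2]
    linarith only [e1, e3]
  have hbig : |J - PHI (zt N (t ^ 4)) (β * a) K m R| ≤
      24 * (1 + 8 * β * C0) * Ce / (C * t ^ 3) := by
    refine hval.trans ?_
    have f1 : 0 ≤ 4 * (1 + 8 * β * C0) / t ^ 3 := by positivity
    have f2 : 0 ≤ √(J / t ^ 4) * (√V + b / t ^ 4 * √(J / t ^ 4)) + 1 / (N * (t ^ 4) ^ 4) := by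
      have := hb.1
      positivity
    calc (1 / (t ^ 2 / 4) + 2 * (β * a) * (C0 * t) / (t ^ 2 / 4) ^ 2) *
          (2 * (Ce * (√(J / t ^ 4) * (√V + b / t ^ 4 * √(J / t ^ 4)) +
            1 / (N * (t ^ 4) ^ 4)))) ≤ 4 * (1 + 8 * β * C0) / t ^ 3 * (2 * (Ce * (3 / C))) := by
          refine mul_le_mul hfac ?_ (by positivity) f1
          have := mul_le_mul_of_nonneg_left herr (show 0 ≤ Ce by linarith only [hCe1])
          linarith only [this]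
      _ = 24 * (1 + 8 * β * C0) * Ce / (C * t ^ 3) := by
          field_simp
          ring
  -- the main term
  have hphi := phi_lower (c := β * a) (κ := t ^ 2 / 8) (v := t / (4 * C0)) (ζ := zt N (t ^ 4)) hm
    hRp hRK hβa (by positivity) (by linarith only [ht2]) (by linarith only [z1])
    (by linarith only [z2]) (by linarith only [z3]) (by linarith only [z4])
    (by linarith only [hchi, sq_nonneg t]) (by positivity) (by
      rw [div_le_one (by positivity)]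
      linarith only [ht1, hC0]) (by
      intro u hu
      have hu1 : u ≤ 1 := hu.2.trans (by
        rw [div_le_one (by positivity)]
        linarith only [ht1, hC0])
      obtain ⟨e1, e2⟩ := hcon u ⟨hu.1, hu1⟩
      have e3 := (abs_le.1 (hLam u)).1
      have e4 : C0 * u ^ 2 ≤ t ^ 2 / 16 := by
        have h1 : u ^ 2 ≤ (t / (4 * C0)) ^ 2 := pow_le_pow_left₀ hu.1 hu.2 2
        have h2 : C0 * u ^ 2 ≤ C0 * (t / (4 * C0)) ^ 2 :=
          mul_le_mul_of_nonneg_left h1 (by linarith only [hC0])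
        have h3 : C0 * (t / (4 * C0)) ^ 2 = t ^ 2 / 16 * (1 / C0) := by
          field_simp
          ring
        have h4 : 1 / C0 ≤ 1 := by
          rw [div_le_one (by linarith only [hC0])]
          exact hC0
        have h5 : t ^ 2 / 16 * (1 / C0) ≤ t ^ 2 / 16 * 1 :=
          mul_le_mul_of_nonneg_left h4 (by positivity)
        linarith only [h2, h3, h5]
      have e5 : β * Lam K m q u - β * (t ^ 3 / C) ≤ β * Lam K m R u := by
        rw [← mul_sub]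
        exact mul_le_mul_of_nonneg_left (by linarith only [e3]) hβ.le
      obtain ⟨X, hX⟩ : ∃ X : ℝ, X = β * Lam K m R u := ⟨_, rfl⟩
      rw [← hX] at e5
      have e6 : 1 - t ^ 2 / 16 - t ^ 2 / 32 ≤ X := by linarith only [e5, e1, e4, s1, s2]
      have e7 : β * a * Lam K m R u = a * X := by
        rw [hX]
        ring
      rw [e7]
      have e8 : a * (1 - t ^ 2 / 16 - t ^ 2 / 32) ≤ a * X := mul_le_mul_of_nonneg_left e6 ha0
      have e9 : (1 - a) * (1 - t ^ 2 / 16 - t ^ 2 / 32) ≤ (1 - a) * 1 :=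
        mul_le_mul_of_nonneg_left (by linarith only [sq_nonneg t]) (by linarith only [ha1])
      linarith only [e8, e9, hat', s2, sq_nonneg t])
  have hmain : 16 / (10 ^ 6 * C0 * t ^ 3) ≤ PHI (zt N (t ^ 4)) (β * a) K m R := by
    refine le_trans (le_of_eq ?_) hphi
    field_simp
    ring
  have hfin : 1 / (C * t ^ 3) ≤ 1 / (10 ^ 6 * C0 * t ^ 3) -
      24 * (1 + 8 * β * C0) * Ce / (C * t ^ 3) := by
    have h1 : (24 * (1 + 8 * β * C0) * Ce + 1) / (C * t ^ 3) ≤ 1 / (10 ^ 6 * C0 * t ^ 3) := by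
      rw [div_le_div_iff₀ (by positivity) (by positivity)]
      have h2 : (24 * (1 + 8 * β * C0) * Ce + 1) * (10 ^ 6 * C0) * t ^ 3 ≤ C * t ^ 3 :=
        mul_le_mul_of_nonneg_right cb (by positivity)
      linarith only [h2]
    have h3 : (24 * (1 + 8 * β * C0) * Ce + 1) / (C * t ^ 3) =
        24 * (1 + 8 * β * C0) * Ce / (C * t ^ 3) + 1 / (C * t ^ 3) := by
      rw [add_div]
    linarith only [h1, h3]
  have h4 : (16 : ℝ) / (10 ^ 6 * C0 * t ^ 3) = 16 * (1 / (10 ^ 6 * C0 * t ^ 3)) := by ring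
  have h5 : 0 < 1 / (10 ^ 6 * C0 * t ^ 3) := by positivity
  have h9 := (abs_le.1 hbig).1
  linarith only [h9, hmain, hfin, h4, h5, hJ]


/-- The lower bound of the quadratic form from a small deviation. -/
def TB9w (β : ℝ) : Prop := ∀ C₀ : ℝ, 1 ≤ C₀ → ∃ C : ℝ, 1 ≤ C ∧ ∀ (N K : ℕ) (m q : ℕ → ℝ)
  (t a b : ℝ) (s : ℕ → ℝ), 0 < N → Exponents K m → Path K q → q K ≤ 1 → 0 < t → t ≤ 1 / C →
  C ≤ N * t ^ 16 → (∀ u ∈ Set.Icc (0 : ℝ) 1, 1 - C₀ * u ^ 2 - t ^ 3 ≤ β * Lam K m q u ∧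
    β * Lam K m q u ≤ 1 - u ^ 2 / C₀ + t ^ 3) → a ∈ Set.Icc (0 : ℝ) 1 → C * (1 - a) ≤ t ^ 2 →
  b ∈ Set.Icc (0 : ℝ) 1 → C * b ≤ t ^ 11 → (∀ l ≤ K, 0 ≤ s l) →
  C ^ 2 * Qd K m q (sy N K m β (t ^ 4) a b s) ≤ t ^ 7 →
  1 / (C * t ^ 3) ≤ Tb (t ^ 4) (sy N K m β (t ^ 4) a b s)

theorem tb9_unc {β : ℝ} (hβ : 0 < β) : TB9w β := fun C₀ hC₀ =>
  tb9w hβ (Vale.Agent.P146.R3.H924.Tb9.eqs' hβ.le) C₀ hC₀

/-- the one-sided bound from the tail of the largest eigenvalue, in the window `C ≤ N y ^ 5` -/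
lemma upT_of5 {C : ℝ} {N K : ℕ} {m q : ℕ → ℝ} {β y b : ℝ} (hL : LamMax C) (hβ : 0 ≤ β)
    (hN : 0 < N) (hy : 0 < y) (hy1 : y ≤ 1)
    (hb : 0 ≤ b) (hm' : Exponents K m) (hC : C ≤ N * y ^ 5) :
    UpT N K m q β y b (3 * b / y) := by
  intro a t
  have hN' : (0 : ℝ) < N := by exact_mod_cast hN
  have h1 := Vale.Agent.P146.R3.H732.LC.tw_up (β := β) (m := m) (a := a) (s := sg β q t) hβ hN hy hb hm'
    (σ := y ^ 2) (by positivity) (hL N (y ^ 2) hN (by positivity))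
  refine h1.trans (add_le_add le_rfl ?_)
  refine mul_le_mul_of_nonneg_left ?_ (by positivity)
  have e1 : y ^ 2 / y ^ 3 = 1 / y := by
    field_simp
  have h2 : C / (N * (y ^ 2) ^ 2) ≤ y := by
    rw [div_le_iff₀ (by positivity)]
    calc C ≤ N * y ^ 5 := hC
      _ = _ := by ring
  have h3 : 2 * (C / (N * (y ^ 2) ^ 2)) / y ^ 2 ≤ 2 / y := by
    rw [div_le_div_iff₀ (by positivity) hy]
    have h4 : C / (N * (y ^ 2) ^ 2) * y ≤ y * y :=
      mul_le_mul_of_nonneg_right h2 hy.le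
    nlinarith
  rw [e1]
  calc b * (1 / y + 2 * (C / (N * (y ^ 2) ^ 2)) / y ^ 2) ≤ b * (1 / y + 2 / y) :=
        mul_le_mul_of_nonneg_left (by linarith only [h3]) hb
    _ = 3 * b / y := by ring

/-- **The decrease of the free energy, sharper.** -/
theorem xq9w {β P0 CL : ℝ} (hβ : 0 < β) (hP : ParU2 β P0) (hTB : TB9w β) (hLM : LamMax CL) :
    XQF 9 12 20 β P0 := by
  obtain ⟨C₄, hC₄, hpar⟩ := hP
  obtain ⟨Ct, hCt1, htb⟩ := hTB C₄ hC₄
  have hCt0 : 0 < Ct := by linarith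
  obtain ⟨c, hc⟩ : ∃ c : ℝ, c = 1 / (2 + 48 * β * Ct + Ct) := ⟨_, rfl⟩
  have hden : 0 < 2 + 48 * β * Ct + Ct := by positivity
  have hc0 : 0 < c := by rw [hc]; positivity
  have hc2 : c ≤ 1 / 2 := by
    rw [hc]
    exact one_div_le_one_div_of_le (by norm_num) (by
      have : 0 < 48 * β * Ct := by positivity
      linarith)
  have hc3 : c * (48 * β * Ct) ≤ 1 := by
    rw [hc, one_div_mul_eq_div, div_le_one hden]
    linarith
  have hc4 : c * Ct ≤ 1 := by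
    rw [hc, one_div_mul_eq_div, div_le_one hden]
    have : 0 < 48 * β * Ct := by positivity
    linarith
  obtain ⟨C, hC⟩ : ∃ C : ℝ, C = 1 + Ct + Ct ^ 2 * (8 / (β ^ 2 * c) * (β / 2 + 3) + 24) +
    24 * Ct / β + 2 * Ct + |CL| := ⟨_, rfl⟩
  have q1 : 0 ≤ Ct ^ 2 * (8 / (β ^ 2 * c) * (β / 2 + 3) + 24) := by positivity
  have q2 : 0 ≤ 24 * Ct / β := by positivity
  have q3 := abs_nonneg CL
  have q4 := le_abs_self CL
  have hC1 : 1 ≤ C := by rw [hC]; linarith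
  have hCt : Ct ≤ C := by rw [hC]; linarith
  have hCC : Ct ^ 2 * (8 / (β ^ 2 * c) * (β / 2 + 3) + 24) ≤ C := by rw [hC]; linarith
  have hCb : 24 * Ct / β ≤ C := by rw [hC]; linarith
  have hC2t : 2 * Ct ≤ C := by rw [hC]; linarith
  have hCL : CL ≤ C := by rw [hC]; linarith
  clear hC q1 q2 q3 q4
  have hC0 : 0 < C := by linarith
  refine ⟨C, hC1, fun N t ε hN ht htC hNt hε hεt hPN => ?_⟩
  have ht1 : t ≤ 1 := htC.trans (by rw [div_le_one hC0]; exact hC1)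
  have hk : ∀ k, 0 < t ^ k := fun k => by positivity
  have hk1 : ∀ k, t ^ k ≤ 1 := fun k => pow_le_one₀ ht.le ht1
  have hCsq : 1 ≤ C ^ 2 := one_le_pow₀ hC1
  obtain ⟨η, hη⟩ : ∃ η : ℝ, η = t ^ 9 / C ^ 2 := ⟨_, rfl⟩
  have hη0 : 0 < η := by rw [hη]; positivity
  have hη3 : η ≤ t ^ 3 := by
    rw [hη]
    calc t ^ 9 / C ^ 2 ≤ t ^ 9 / 1 := div_le_div_of_nonneg_left (hk 9).le one_pos hCsq
      _ = t ^ 9 := div_one _
      _ ≤ t ^ 3 := pow_le_pow_of_le_one ht.le ht1 (by norm_num)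
  obtain ⟨K, m, q, hm', hq, hq1, hPS, hLu⟩ := hpar η hη0 (hη3.trans (hk1 3))
  refine ⟨K, m, hm', ?_⟩
  by_contra hcon
  push Not at hcon
  have hbC : t ^ 12 / C ≤ 1 := by
    rw [div_le_one hC0]
    exact (hk1 12).trans hC1
  obtain ⟨b, hb⟩ : ∃ b : ℝ, b = t ^ 12 / C := ⟨_, rfl⟩
  rw [← hb] at hcon hbC
  have hb0 : 0 < b := by rw [hb]; positivity
  have hδ : c * t ^ 2 ≤ 1 / 2 := by
    calc c * t ^ 2 ≤ 1 / 2 * 1 := mul_le_mul hc2 (hk1 2) (hk 2).le (by norm_num)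
      _ = 1 / 2 := mul_one _
  have hκ : 0 < t ^ 9 / C ^ 2 / (3 * β ^ 2) := by positivity
  obtain ⟨M, i, hi0, hiM, hr1, hr2, hM⟩ := grid_ex (show 0 < c * t ^ 2 by positivity) hδ hκ
  have hM0 : 0 < M := by omega
  have hM' : (0 : ℝ) < M := by exact_mod_cast hM0
  have hi' : (0 : ℝ) < i := by exact_mod_cast hi0
  have hMe : 3 * (β ^ 2 / √(M : ℝ)) ≤ t ^ 9 / C ^ 2 := by
    have h1 := mul_le_mul_of_nonneg_left hM (show 0 ≤ 3 * β ^ 2 by positivity)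
    have e1 : 3 * β ^ 2 * (1 / √(M : ℝ)) = 3 * (β ^ 2 / √(M : ℝ)) := by ring
    have e2 : 3 * β ^ 2 * (t ^ 9 / C ^ 2 / (3 * β ^ 2)) = t ^ 9 / C ^ 2 := by
      field_simp
    rwa [e1, e2] at h1
  have hPP : PSK β K m q ≤ pN β N + (ε + η) := by linarith
  have hup : UpT N K m q β (t ^ 4) b (3 * b / t ^ 4) :=
    upT_of5 hLM hβ.le hN (hk 4) (hk1 4) hb0.le hm' (by
      calc CL ≤ C := hCL
        _ ≤ N * t ^ 20 := hNt
        _ = _ := by ring)
  obtain ⟨j, hji, hQ, hX⟩ := win_up (y := t ^ 4) (b := b) hβ (hk 4) hN hm' hq hq1 hb0.le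
    (show 0 ≤ 3 * b / t ^ 4 by positivity) hup hPP hi0 hiM
  obtain ⟨X, hXd⟩ : ∃ X : ℝ, X = pN β N -
    gF K m (Ey N β (t ^ 4) 1 b) (spin (N := N)) (fun _ => 0) := ⟨_, rfl⟩
  rw [← hXd] at hQ hX hcon
  obtain ⟨r, hrd⟩ : ∃ r : ℝ, r = (i : ℝ) / M := ⟨_, rfl⟩
  have hr0 : 0 < r := by rw [hrd]; positivity
  rw [← hrd] at hQ hX hr1 hr2
  have hεe : ε ≤ t ^ 9 / C ^ 2 := by
    rw [le_div_iff₀ (by positivity)]
    linarith
  obtain ⟨e, he⟩ : ∃ e : ℝ, e = ε + η + 3 * (β ^ 2 / √(M : ℝ)) := ⟨_, rfl⟩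
  have heb : e ≤ 3 * (t ^ 9 / C ^ 2) := by
    rw [he]
    linarith [hη.le]
  rw [← he] at hQ hX
  have hXe : β * b / 2 * (1 / (C * t ^ 3)) = β * t ^ 9 / (2 * C ^ 2) := by
    rw [hb]
    field_simp
  have hXu : X ≤ β * t ^ 9 / (2 * C ^ 2) := by linarith
  have hQ' := num_Q9 (Ct := Ct) hβ hc0 hC1 ht ht1 hr1 hr0 hXu heb hb hCt0 hCC hQ
  have hga1 : ga M j ≤ 1 := ga_le M j
  have hga2 : Ct * (1 - ga M j) ≤ t ^ 2 := by
    have h1 := ga_ge hM0 (show j ≤ M by omega)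
    have h2 : (j : ℝ) / M ≤ r := by
      rw [hrd]
      have : (j : ℝ) ≤ i := by exact_mod_cast hji.le
      gcongr
    have h3 : 1 - ga M j ≤ c * t ^ 2 := by linarith
    calc Ct * (1 - ga M j) ≤ Ct * (c * t ^ 2) := mul_le_mul_of_nonneg_left h3 hCt0.le
      _ = c * Ct * t ^ 2 := by ring
      _ ≤ 1 * t ^ 2 := mul_le_mul_of_nonneg_right hc4 (hk 2).le
      _ = t ^ 2 := one_mul _
  have hT := htb N K m q t (ga M j) b (sg β q (gt M j)) hN hm' hq hq1 ht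
    (htC.trans (one_div_le_one_div_of_le hCt0 hCt)) (hCt.trans (hNt.trans
      (mul_le_mul_of_nonneg_left (pow_le_pow_of_le_one ht.le ht1 (by norm_num)) (Nat.cast_nonneg N))))
    (fun u hu => ⟨by linarith [(hLu u hu).1], by linarith [(hLu u hu).2]⟩)
    ⟨ga_nonneg M j, hga1⟩ hga2 ⟨hb0.le, hbC⟩ (by
      rw [hb]
      calc Ct * (t ^ 12 / C) = Ct / C * t ^ 12 := by ring
        _ ≤ 1 * t ^ 12 := mul_le_mul_of_nonneg_right (by
            rw [div_le_one hC0]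
            exact hCt) (hk 12).le
        _ = t ^ 12 := one_mul _
        _ ≤ t ^ 11 := pow_le_pow_of_le_one ht.le ht1 (by norm_num))
    (fun l _ => sg_nonneg hβ.le (gt_nonneg M j) l) hQ'
  have hfin := num_X9 hβ hC1 ht ht1 hc0 hc3 hr2 heb hb hCt1 hCb hC2t hT hX
  linarith


theorem xq9w_unc {β : ℝ} (hβ : 1 < β) : XQF 9 12 20 β (Sh.P0 β) :=
  xq9w (by linarith) (Vale.Agent.P146.R3.H732.LC.parU2 hβ) (tb9_unc (by linarith))
    Vale.Agent.P146.R3.H732.LC.lamMax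

theorem spF3 {β : ℝ} (hβ : 0 < β) : SpF 3 β := Vale.Agent.P146.H260.Win.spreadq3 hβ

/-- **Small balls and the variance against the error of the mean, `M ≥ n ^ (11 / 20)`.** -/
theorem low9w {β : ℝ} (hβ : 1 < β) : ∃ c C : ℝ, 0 < c ∧ 1 ≤ C ∧
    (∀ n : ℕ, 1 ≤ n → ∀ M : ℝ, (n : ℝ) ^ (11 / 20 : ℝ) ≤ M →
      n * Sx.pv β - ∫ g, freeEnergy n β g ∂(disorder n) ≤ M → ∀ a K : ℝ, 0 < K →
      (disorder n).real {g | |freeEnergy n β g - a| ≤ K} ≤
        C * (K + 1) * (M / n) ^ (1 / 9 : ℝ)) ∧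
    ∀ᶠ n : ℕ in atTop, ∀ M : ℝ, (n : ℝ) ^ (11 / 20 : ℝ) ≤ M →
      n * Sx.pv β - ∫ g, freeEnergy n β g ∂(disorder n) ≤ M →
      c * (n / M) ^ (2 / 9 : ℝ) ≤ Var[freeEnergy n β; disorder n] := by
  have h := Vale.Agent.P146.H260.Low.low_ofF (D := 9) (E := 12) (F := 20) (k := 3) (by norm_num)
    (by norm_num) (by norm_num) (by norm_num) (by norm_num) hβ (xq9w_unc hβ)
    (spF3 (by linarith))
  have e : (1 : ℝ) - ((9 : ℕ) : ℝ) / (20 : ℕ) = 11 / 20 := by norm_num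
  rw [e] at h
  push_cast at h
  exact h

end Vale.Agent.P146.H260.XQ
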