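import Vale.Agent.P146.H260.Asm3
import Vale.Agent.P146.H260.XQ

set_option linter.all false

/-!
# P146: the end assembly: all the upper bounds, and the lower bounds, for each `β`
-/

open MeasureTheory ProbabilityTheory Filter Topology

namespace Vale.Agent.P146.H260.Asm

open Vale.Agent.P146 Vale.Agent.P146.H605 Vale.Agent.P146.Tb

/-- all the upper bounds, with the rates `θ` (of the mean) and `j` (of the logarithms) -/
def UpperG (β θ : ℝ) (j : ℕ) (p k D : ℝ) : Prop := ∀ n : ℕ, 1 ≤ n →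
      0 ≤ n * p - ∫ g, freeEnergy n β g ∂(disorder n) ∧
      n * p - ∫ g, freeEnergy n β g ∂(disorder n) ≤
        D * (n : ℝ) ^ (1 - 5 * θ) * (1 + Real.log n) ^ j ∧
      Var[freeEnergy n β; disorder n] ≤
        D * (n : ℝ) ^ (1 - 4 * θ) * (1 + Real.log n) ^ (j + 1) ∧
      (∀ t : ℝ, 0 ≤ t →
        (disorder n).real {g | t * ((n : ℝ) ^ ((1 - 4 * θ) / 2) *
          (1 + Real.log n) ^ (((j : ℝ) + 1) / 2)) ≤
          |freeEnergy n β g - ∫ g, freeEnergy n β g ∂(disorder n)|} ≤ D * Real.exp (-(k * t))) ∧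
      (∀ t : ℝ, 0 ≤ t →
        (disorder n).real {g | freeEnergy n β g ≤ ∫ g, freeEnergy n β g ∂(disorder n) - t} ≤
          Real.exp (-(k * t ^ 2 / ((n : ℝ) ^ (1 - 2 * θ) *
            (1 + Real.log n) ^ (((j : ℝ) + 1) / 2))))) ∧
      (∀ t : ℝ, 0 ≤ t → t < 1 →
        (1 - t) * (β ^ 2 / 2 * (n * crossOverlap n β t - 1)) ≤ D * (n : ℝ) ^ (1 / 5 : ℝ) *
          (1 + (n * p - ∫ g, freeEnergy n β g ∂(disorder n))) ^ (4 / 5 : ℝ) ∧
        crossOverlap n β t ≤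
          D * (n : ℝ) ^ (-(4 * θ)) * (1 + Real.log n) ^ j / (1 - t)) ∧
      (∀ t : ℝ, 0 ≤ t → t ≤ 1 →
        (1 - 1 / β) ^ 2 - D * (n : ℝ) ^ (-(5 * θ / 2)) * (1 + Real.log n) ^ ((j : ℝ) / 2) -
          (1 - t) * (β ^ 2 * n / 2) ≤ crossOverlap n β t) ∧
      (∀ r : ℝ, 0 < r → r ≤ 1 / (16 * (1 + Real.log n)) →
        n * p - ∫ g, freeEnergy n β g ∂(disorder n) ≤
          2 * (n * p - 1 / r * Real.log (∫ g, Real.exp (r * freeEnergy n β g) ∂(disorder n))) +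
            D * n * r ^ 5 * (1 + Real.log n) ^ 5 + D)

lemma UpperG.mono {β θ : ℝ} {j : ℕ} {p k D k' D' : ℝ} (h : UpperG β θ j p k D) (hk : k' ≤ k)
    (hD0 : 0 ≤ D) (hD : D ≤ D') : UpperG β θ j p k' D' := by
  intro n hn
  have hn1 : (1 : ℝ) ≤ n := by exact_mod_cast hn
  have hn0 : (0 : ℝ) < n := by linarith
  have hl0 : 0 ≤ Real.log n := Real.log_nonneg hn1
  obtain ⟨L, hL⟩ : ∃ L, L = 1 + Real.log n := ⟨_, rfl⟩
  have hL0 : 0 < L := by linarith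
  obtain ⟨h1, h2, h3, h4, h5, h6, h7, h8⟩ := h n hn
  rw [← hL] at h2 h3 h4 h5 h6 h7 h8 ⊢
  refine ⟨h1, h2.trans ?_, h3.trans ?_, fun t ht => (h4 t ht).trans ?_,
    fun t ht => (h5 t ht).trans (Real.exp_le_exp.2 (neg_le_neg ?_)), fun t ht ht1 => ⟨?_, ?_⟩,
    fun t ht ht1 => le_trans ?_ (h7 t ht ht1), fun r hr hr1 => (h8 r hr hr1).trans ?_⟩
  · gcongr
  · gcongr
  · have h10 := mul_le_mul_of_nonneg_right hk ht
    exact mul_le_mul hD (Real.exp_le_exp.2 (neg_le_neg h10)) (Real.exp_pos _).le (hD0.trans hD)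
  · gcongr
  · refine (h6 t ht ht1).1.trans ?_
    gcongr
  · refine (h6 t ht ht1).2.trans ?_
    have : 0 < 1 - t := by linarith
    gcongr
  · have : D * (n : ℝ) ^ (-(5 * θ / 2)) * L ^ ((j : ℝ) / 2) ≤
        D' * (n : ℝ) ^ (-(5 * θ / 2)) * L ^ ((j : ℝ) / 2) := by
      gcongr
    linarith
  · have : D * n * r ^ 5 * L ^ 5 ≤ D' * n * r ^ 5 * L ^ 5 := by gcongr
    linarith

/-- **All the upper bounds, from the rate of the mean.** -/
theorem upper_g {β θ : ℝ} {j : ℕ} (hβ : 1 < β) (hθ0 : 0 ≤ θ) (hθ6 : θ ≤ 1 / 6)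
    (hR : MRg β θ j) : ∃ k D : ℝ, 0 < k ∧ 1 ≤ D ∧ UpperG β θ j (Sx.pv β) k D := by
  have hR' := hR
  obtain ⟨D₁, hD₁, h1⟩ := hR'
  obtain ⟨D₂, hD₂, h2⟩ := var_rate_g hβ.le hθ0 hθ6 hR
  obtain ⟨D₃, k₃, hD₃, hk₃, h3⟩ := conc_rate_g hβ.le hθ0 hθ6 hR
  obtain ⟨k₄, hk₄, h4⟩ := low_dev_g (v := 1 - 4 * θ) (j := j + 1) hβ.le hD₂
    fun n hn => (h2 n hn).2
  obtain ⟨D₅, hD₅, h5⟩ := prof_fs hβ.le
  obtain ⟨D₆, hD₆, h6⟩ := order_rate_g hβ hR
  obtain ⟨D₇, hD₇, hmom, hup, -⟩ := Sx.rt_moment hβ.le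
  obtain ⟨k, hk⟩ : ∃ k, k = min k₃ k₄ := ⟨_, rfl⟩
  have k1 : k ≤ k₃ := by rw [hk]; exact min_le_left _ _
  have k2 : k ≤ k₄ := by rw [hk]; exact min_le_right _ _
  have k0 : 0 < k := by rw [hk]; exact lt_min hk₃ hk₄
  obtain ⟨D, hD⟩ : ∃ D, D = D₁ + D₂ + D₃ + D₅ + D₆ + 33216 * D₇ + β ^ 2 / 2 := ⟨_, rfl⟩
  have hb : 0 ≤ β ^ 2 := sq_nonneg β
  have e1 : D₁ ≤ D := by linarith
  have e2 : D₂ ≤ D := by linarith
  have e3 : D₃ ≤ D := by linarith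
  have e5 : D₅ ≤ D := by linarith
  have e6 : D₆ ≤ D := by linarith
  have e7 : 33216 * D₇ ≤ D := by linarith
  have e9 : β ^ 2 / 2 ≤ D := by linarith
  refine ⟨k, D, k0, by linarith, fun n hn => ?_⟩
  have hn1 : (1 : ℝ) ≤ n := by exact_mod_cast hn
  have hn0 : (0 : ℝ) < n := by linarith
  have hl0 : 0 ≤ Real.log n := Real.log_nonneg hn1
  obtain ⟨L, hL⟩ : ∃ L, L = 1 + Real.log n := ⟨_, rfl⟩
  have hL0 : 0 < L := by linarith
  have g1 := h1 n hn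
  obtain ⟨g2, g2'⟩ := h2 n hn
  have g3 := h3 n hn
  have g4 := h4 n hn
  have e4 : (1 - 4 * θ + 1) / 2 = 1 - 2 * θ := by ring
  rw [e4] at g4
  push_cast at g4
  have g5 := h5 n hn
  have g6 := h6 n hn
  have g7 := fun {r : ℝ} (hr : 0 < r) (hr1 : r ≤ 1 / (16 * (1 + Real.log n))) =>
    mean_le hn β (P := n * Sx.pv β) (C := D₇) (by linarith) (hmom n hn) (hup n hn) hr hr1
  have g9 := hup n hn
  rw [← hL] at g1 g2' g6 ⊢
  simp only [← hL] at g2 g3 g4 g7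
  refine ⟨by linarith, ?_, g2'.trans ?_, fun t ht => (g3 t ht).trans ?_,
    fun t ht => (g4 t ht).trans (Real.exp_le_exp.2 (neg_le_neg ?_)), fun t ht ht1 => ⟨?_, ?_⟩,
    fun t ht ht1 => ?_, fun r hr hr1 => (g7 hr hr1).trans ?_⟩
  · have : D₁ * (n : ℝ) ^ (1 - 5 * θ) * L ^ j ≤ D * (n : ℝ) ^ (1 - 5 * θ) * L ^ j := by
      gcongr
    linarith
  · gcongr
  · have h10 := mul_le_mul_of_nonneg_right k1 ht
    exact mul_le_mul e3 (Real.exp_le_exp.2 (neg_le_neg h10)) (Real.exp_pos _).le (by linarith)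
  · gcongr
  · refine (g5 t ht ht1).trans ?_
    have h10 : 0 ≤ 1 + (n * Sx.pv β - ∫ g, freeEnergy n β g ∂(disorder n)) := by linarith
    gcongr
  · refine (g2 t ht ht1).trans ?_
    have : 0 < 1 - t := by linarith
    gcongr
  · have h10 := crossOverlap_stable n β hn ht ht1
    have h11 : D₆ * (n : ℝ) ^ (-(5 * θ / 2)) * L ^ ((j : ℝ) / 2) ≤
        D * (n : ℝ) ^ (-(5 * θ / 2)) * L ^ ((j : ℝ) / 2) := by
      gcongr
    linarith
  · have h10 : 33216 * D₇ * n * r ^ 5 * L ^ 5 ≤ D * n * r ^ 5 * L ^ 5 := by gcongr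
    linarith

/-! ### The lower bounds -/

/-- small balls and the variance against the error of the mean, for `M ≥ n ^ w` -/
def LowD (β : ℝ) (D : ℕ) (w : ℝ) : Prop := ∃ c C : ℝ, 0 < c ∧ 1 ≤ C ∧
    (∀ n : ℕ, 1 ≤ n → ∀ M : ℝ, (n : ℝ) ^ w ≤ M →
      n * Sx.pv β - ∫ g, freeEnergy n β g ∂(disorder n) ≤ M → ∀ a K : ℝ, 0 < K →
      (disorder n).real {g | |freeEnergy n β g - a| ≤ K} ≤
        C * (K + 1) * (M / n) ^ (1 / (D : ℝ))) ∧
    ∀ᶠ n : ℕ in atTop, ∀ M : ℝ, (n : ℝ) ^ w ≤ M →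
      n * Sx.pv β - ∫ g, freeEnergy n β g ∂(disorder n) ≤ M →
      c * (n / M) ^ (2 / (D : ℝ)) ≤ Var[freeEnergy n β; disorder n]

theorem lowD9 {β : ℝ} (hβ : 1 < β) : LowD β 9 (11 / 20) := by
  have h := Vale.Agent.P146.H260.XQ.low9w hβ
  unfold LowD
  push_cast
  exact h

/-- **Explicit exponents from the rate of the mean.** -/
theorem explicit_g {β w : ℝ} {D : ℕ} (hD : 1 ≤ D) (hX : LowD β D w) {μ A : ℝ} {k : ℕ}
    (hμ : w ≤ μ)
    (hM : ∀ n : ℕ, 1 ≤ n → n * Sx.pv β - ∫ g, freeEnergy n β g ∂(disorder n) ≤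
      A * (n : ℝ) ^ μ * (1 + Real.log n) ^ k) {γ κ : ℝ} (hγ : γ < 2 / D * (1 - μ))
    (hκ0 : 0 < κ) (hκ : 2 * κ < 1 / D * (1 - μ)) :
    ∀ᶠ n : ℕ in atTop, (n : ℝ) ^ γ ≤ Var[freeEnergy n β; disorder n] ∧
      ∀ a : ℝ, (disorder n).real {g | |freeEnergy n β g - a| ≤ (n : ℝ) ^ κ} ≤
        (n : ℝ) ^ (-κ) := by
  obtain ⟨c, C, hc, hC, h1, h2⟩ := hX
  have hD0 : (0 : ℝ) < D := by exact_mod_cast hD
  -- the room in the exponents
  obtain ⟨δ, hδ0, hδ1, hδ2⟩ : ∃ δ : ℝ, 0 < δ ∧ γ < 2 / D * (1 - μ - δ) ∧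
      2 * κ < 1 / D * (1 - μ - δ) := by
    refine ⟨min ((2 / D * (1 - μ) - γ) * D / 4) ((1 / D * (1 - μ) - 2 * κ) * D / 2), ?_, ?_, ?_⟩
    · refine lt_min ?_ ?_
      · have : 0 < 2 / D * (1 - μ) - γ := by linarith
        positivity
      · have : 0 < 1 / D * (1 - μ) - 2 * κ := by linarith
        positivity
    · have e1 : 2 / D * min ((2 / D * (1 - μ) - γ) * D / 4) ((1 / D * (1 - μ) - 2 * κ) * D / 2) ≤
          2 / D * ((2 / D * (1 - μ) - γ) * D / 4) :=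
        mul_le_mul_of_nonneg_left (min_le_left _ _) (by positivity)
      have e2 : 2 / D * ((2 / D * (1 - μ) - γ) * D / 4) = (2 / D * (1 - μ) - γ) / 2 := by
        field_simp
        ring
      rw [e2] at e1
      rw [mul_sub]
      linarith
    · have e1 : 1 / D * min ((2 / D * (1 - μ) - γ) * D / 4) ((1 / D * (1 - μ) - 2 * κ) * D / 2) ≤
          1 / D * ((1 / D * (1 - μ) - 2 * κ) * D / 2) :=
        mul_le_mul_of_nonneg_left (min_le_right _ _) (by positivity)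
      have e2 : 1 / D * ((1 / D * (1 - μ) - 2 * κ) * D / 2) = (1 / D * (1 - μ) - 2 * κ) / 2 := by
        field_simp
      rw [e2] at e1
      rw [mul_sub]
      linarith
  obtain ⟨ρ, hρ⟩ : ∃ ρ, ρ = 1 - μ - δ := ⟨_, rfl⟩
  rw [← hρ] at hδ1 hδ2
  have t1 : Tendsto (fun n : ℕ => 1 / c * (n : ℝ) ^ (-(2 / D * ρ - γ))) atTop (𝓝 (1 / c * 0)) :=
    ((tendsto_rpow_neg_atTop (by linarith)).comp tendsto_natCast_atTop_atTop).const_mul _
  have t2 : Tendsto (fun n : ℕ => 2 * C * (n : ℝ) ^ (-(1 / D * ρ - 2 * κ))) atTop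
      (𝓝 (2 * C * 0)) :=
    ((tendsto_rpow_neg_atTop (by linarith)).comp tendsto_natCast_atTop_atTop).const_mul _
  rw [mul_zero] at t1 t2
  filter_upwards [h2, eventually_ge_atTop 1,
    Vale.Agent.P146.R3.H924.Low5.log_pow_le (max A 1) k hδ0,
    t1.eventually (eventually_le_nhds one_pos), t2.eventually (eventually_le_nhds one_pos)]
    with n hn2 hn hlog hn3 hn4
  have hn0 : (0 : ℝ) < n := by exact_mod_cast hn
  have hn1 : (1 : ℝ) ≤ n := by exact_mod_cast hn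
  have hl0 : 0 ≤ Real.log n := Real.log_nonneg hn1
  have hA1 : 1 ≤ max A 1 := le_max_right _ _
  obtain ⟨M, hMd⟩ : ∃ M, M = (n : ℝ) ^ μ * (max A 1 * (1 + Real.log n) ^ k) := ⟨_, rfl⟩
  have hk1 : 1 ≤ (1 + Real.log n) ^ k := one_le_pow₀ (by linarith)
  have hμn : 0 < (n : ℝ) ^ μ := Real.rpow_pos_of_pos hn0 _
  have hM1 : (n : ℝ) ^ w ≤ M := by
    rw [hMd]
    calc (n : ℝ) ^ w ≤ (n : ℝ) ^ μ := Real.rpow_le_rpow_of_exponent_le hn1 hμ
      _ = (n : ℝ) ^ μ * (1 * 1) := by ring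
      _ ≤ (n : ℝ) ^ μ * (max A 1 * (1 + Real.log n) ^ k) := by gcongr
  have hM2 : n * Sx.pv β - ∫ g, freeEnergy n β g ∂(disorder n) ≤ M := by
    refine (hM n hn).trans ?_
    rw [hMd]
    calc A * (n : ℝ) ^ μ * (1 + Real.log n) ^ k ≤
        max A 1 * (n : ℝ) ^ μ * (1 + Real.log n) ^ k := by
          gcongr
          exact le_max_left _ _
      _ = _ := by ring
  have hM0 : 0 < M := lt_of_lt_of_le (Real.rpow_pos_of_pos hn0 _) hM1
  have hM3 : M ≤ (n : ℝ) ^ (1 - ρ) := by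
    rw [hMd]
    calc (n : ℝ) ^ μ * (max A 1 * (1 + Real.log n) ^ k) ≤ (n : ℝ) ^ μ * (n : ℝ) ^ δ :=
          mul_le_mul_of_nonneg_left hlog hμn.le
      _ = (n : ℝ) ^ (1 - ρ) := by
          rw [← Real.rpow_add hn0]
          congr 1
          rw [hρ]
          ring
  have hr1 : M / n ≤ (n : ℝ) ^ (-ρ) := by
    rw [div_le_iff₀ hn0, ← Real.rpow_add_one hn0.ne']
    refine hM3.trans (le_of_eq ?_)
    congr 1
    ring
  have hr2 : (n : ℝ) ^ ρ ≤ n / M := by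
    rw [le_div_iff₀ hM0]
    calc (n : ℝ) ^ ρ * M ≤ (n : ℝ) ^ ρ * (n : ℝ) ^ (1 - ρ) :=
          mul_le_mul_of_nonneg_left hM3 (Real.rpow_nonneg hn0.le _)
      _ = n := by
          rw [← Real.rpow_add hn0, show ρ + (1 - ρ) = 1 by ring, Real.rpow_one]
  refine ⟨?_, fun a => ?_⟩
  · refine le_trans ?_ (hn2 M hM1 hM2)
    have e1 : (n : ℝ) ^ (2 / D * ρ) ≤ (n / M) ^ (2 / (D : ℝ)) := by
      rw [mul_comm, Real.rpow_mul hn0.le]
      exact Real.rpow_le_rpow (Real.rpow_nonneg hn0.le _) hr2 (by positivity)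
    have e2 : (n : ℝ) ^ γ = (n : ℝ) ^ (-(2 / D * ρ - γ)) * (n : ℝ) ^ (2 / D * ρ) := by
      rw [← Real.rpow_add hn0]
      congr 1
      ring
    have e3 : (n : ℝ) ^ (-(2 / D * ρ - γ)) ≤ c := by
      have := mul_le_mul_of_nonneg_left hn3 hc.le
      rw [mul_one, ← mul_assoc, mul_one_div_cancel hc.ne', one_mul] at this
      exact this
    rw [e2]
    exact mul_le_mul e3 e1 (Real.rpow_nonneg hn0.le _) hc.le
  · have hnκ : 1 ≤ (n : ℝ) ^ κ := Real.one_le_rpow hn1 hκ0.le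
    refine (h1 n hn M hM1 hM2 a _ (by positivity)).trans ?_
    have e1 : (M / n) ^ (1 / (D : ℝ)) ≤ (n : ℝ) ^ (-(1 / D * ρ)) := by
      have : -(1 / (D : ℝ) * ρ) = -ρ * (1 / D) := by ring
      rw [this, Real.rpow_mul hn0.le]
      exact Real.rpow_le_rpow (by positivity) hr1 (by positivity)
    calc C * ((n : ℝ) ^ κ + 1) * (M / n) ^ (1 / (D : ℝ)) ≤
        C * (2 * (n : ℝ) ^ κ) * (n : ℝ) ^ (-(1 / D * ρ)) := by
          gcongr
          linarith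
      _ = 2 * C * (n : ℝ) ^ (-(1 / D * ρ - 2 * κ)) * (n : ℝ) ^ (-κ) := by
          have : (n : ℝ) ^ (-(1 / D * ρ - 2 * κ)) * (n : ℝ) ^ (-κ) =
              (n : ℝ) ^ κ * (n : ℝ) ^ (-(1 / D * ρ)) := by
            rw [← Real.rpow_add hn0, ← Real.rpow_add hn0]
            congr 1
            ring
          rw [mul_assoc (2 * C), this]
          ring
      _ ≤ 1 * (n : ℝ) ^ (-κ) := mul_le_mul_of_nonneg_right hn4 (Real.rpow_nonneg hn0.le _)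
      _ = (n : ℝ) ^ (-κ) := one_mul _

end Vale.Agent.P146.H260.Asm
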