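import Vale.Agent.P146.H260.Asm4
import Vale.Agent.P146.Bd3.B6
import Vale.Agent.P146.Bd4.B5

set_option linter.all false

/-!
# P146: the end assembly: the whole statement
-/

open MeasureTheory ProbabilityTheory Filter Topology

namespace Vale.Agent.P146.H260.Asm

open Vale.Agent.P146 Vale.Agent.P146.H605 Vale.Agent.P146.Tb

/-- the statement for one `β` -/
def AllG (β θ a c : ℝ) (k D : ℕ) (w l p κ₀ C : ℝ) : Prop :=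
    Tendsto (fun n : ℕ => (∫ g, freeEnergy n β g ∂(disorder n)) / n) atTop (𝓝 p) ∧
    -- the sharp moment law and the sharp upper tail
    (∀ ε : ℝ, 0 < ε → ∀ a' : ℝ, a' < θ → ∃ δ : ℝ, 0 < δ ∧ ∀ᶠ n : ℕ in atTop,
      (∀ x : ℝ, (n : ℝ) ^ (-a') ≤ x → x ≤ δ →
        |Real.log (∫ g, Real.exp (x * (freeEnergy n β g - n * p)) ∂(disorder n)) -
          l * n * x ^ 6| ≤ ε * n * x ^ 6) ∧
      (∀ s : ℝ, (n : ℝ) ^ (-(5 * a')) ≤ s → s ≤ δ →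
        |Real.log ((disorder n).real {g | n * (p + s) ≤ freeEnergy n β g}) +
          5 / 6 * (6 * l) ^ (-(1 / 5) : ℝ) * n * s ^ (6 / 5 : ℝ)| ≤
            ε * n * s ^ (6 / 5 : ℝ))) ∧
    -- upper bounds
    UpperG β θ (k + 1) p κ₀ C ∧
    (∀ n : ℕ, 1 ≤ n → ∀ r : ℝ, 0 < r → r ≤ 1 → 1 ≤ r ^ 6 * n →
      n * p - 1 / r * Real.log (∫ g, Real.exp (r * freeEnergy n β g) ∂(disorder n)) ≤
        C * (1 + Real.log n) ^ k * ((n : ℝ) ^ a * r ^ (-c))) ∧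
    -- the variance against the finite-size correction of the mean
    (∀ n : ℕ, 1 ≤ n → Var[freeEnergy n β; disorder n] ≤
      C * (1 + Real.log n) * ((n : ℝ) ^ (1 / 5 : ℝ) *
        (1 + (n * p - ∫ g, freeEnergy n β g ∂(disorder n))) ^ (4 / 5 : ℝ))) ∧
    -- lower bounds
    (∀ n : ℕ, 1 ≤ n → ∀ m : ℝ, (n : ℝ) ^ w ≤ m →
      n * p - ∫ g, freeEnergy n β g ∂(disorder n) ≤ m → ∀ y u : ℝ, 0 < u →
      (disorder n).real {g | |freeEnergy n β g - y| ≤ u} ≤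
        C * (u + 1) * (m / n) ^ (1 / (D : ℝ))) ∧
    (∀ᶠ n : ℕ in atTop, ∀ m : ℝ, (n : ℝ) ^ w ≤ m →
      n * p - ∫ g, freeEnergy n β g ∂(disorder n) ≤ m →
      κ₀ * (n / m) ^ (2 / (D : ℝ)) ≤ Var[freeEnergy n β; disorder n]) ∧
    (∀ γ : ℝ, γ < 2 / D * (5 * θ) → ∀ᶠ n : ℕ in atTop,
      (n : ℝ) ^ γ ≤ Var[freeEnergy n β; disorder n] ∧
      ∃ t : ℝ, 0 ≤ t ∧ t < 1 ∧ (n : ℝ) ^ γ ≤ n * (1 - t) * crossOverlap n β t) ∧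
    (∀ κ : ℝ, 0 < κ → 2 * κ < 1 / D * (5 * θ) → ∀ᶠ n : ℕ in atTop, ∀ y : ℝ,
      (disorder n).real {g | |freeEnergy n β g - y| ≤ (n : ℝ) ^ κ} ≤ (n : ℝ) ^ (-κ))

/-- **The end assembly for one `β`.** -/
theorem all_g {β θ a c w l : ℝ} {k D : ℕ} (hβ : 1 < β) (hc0 : 0 ≤ c) (hc1 : c ≤ 1)
    (hθ : θ * (5 + c) = 1 - a) (hθ0 : 0 < θ) (hθ6 : θ < 1 / 6) (hD : 1 ≤ D)
    (hw : w ≤ 1 - 5 * θ) (hT : TMy β a c k) (hTM : TM β a c k)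
    (hL : LowD β D w) (hl : 0 < l)
    (hlim : Tendsto (fun x => (Sh.Vx β x - Sh.P0 β) / x ^ 5) (𝓝[>] 0) (𝓝 l)) :
    ∃ p κ₀ C : ℝ, 0 < κ₀ ∧ AllG β θ a c k D w l p κ₀ C := by
  obtain ⟨-, -, -, -, -, -, -, -, -, -, hEn, -⟩ := Ld.two_sided hβ (Lb.l1 hβ)
  have hR := mean_rate_g hβ.le hc0 hc1 hθ hθ0.le hθ6 hTM
  obtain ⟨k₁, D₁, hk₁, hD₁, hU⟩ := upper_g hβ hθ0.le hθ6.le hR
  obtain ⟨D₃, hD₃, h3⟩ := hTM
  have hL' := hL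
  obtain ⟨c₂, D₂, hc₂, hD₂, hL1, hL2⟩ := hL'
  obtain ⟨A, -, hA⟩ := hR
  have hD0 : (0 : ℝ) < D := by exact_mod_cast hD
  have e5 : 1 - (1 - 5 * θ) = 5 * θ := by ring
  have hexp := fun {γ κ : ℝ} (hγ : γ < 2 / D * (5 * θ)) (hκ0 : 0 < κ)
      (hκ : 2 * κ < 1 / D * (5 * θ)) =>
    explicit_g hD hL (μ := 1 - 5 * θ) (A := A) (k := k + 1) (γ := γ) (κ := κ)
      hw (fun n hn => by linarith [hA n hn]) (by rw [e5]; exact hγ) hκ0 (by rw [e5]; exact hκ)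
  have hκ₁ : 0 < 1 / (D : ℝ) * (5 * θ) := by positivity
  have hvar : ∀ γ : ℝ, γ < 2 / D * (5 * θ) → ∀ᶠ n : ℕ in atTop,
      (n : ℝ) ^ γ ≤ Var[freeEnergy n β; disorder n] := fun γ hγ =>
    (hexp (κ := 1 / (D : ℝ) * (5 * θ) / 4) hγ (by positivity) (by linarith)).mono
      fun n hn => hn.1
  obtain ⟨C, hC⟩ : ∃ C, C = D₁ + D₂ + D₃ + β ^ 2 / 2 := ⟨_, rfl⟩
  have hb : 0 ≤ β ^ 2 := sq_nonneg β
  have hDD₁ : D₁ ≤ C := by linarith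
  have hDD₂ : D₂ ≤ C := by linarith
  have hDD₃ : D₃ ≤ C := by linarith
  refine ⟨Sx.pv β, min k₁ c₂, C, lt_min hk₁ hc₂, hEn,
    sharp_g hβ hc0 hθ hθ0 hθ6.le hT hl hlim,
    hU.mono (min_le_left _ _) (by linarith) hDD₁, fun n hn r hr hr1 hr6 => ?_, fun n hn => ?_,
    fun n hn m hm hM y u hu => ?_, ?_, fun γ hγ => ?_, fun κ hκ0 hκ => ?_⟩
  · have h4 := h3 n hn r hr hr1 hr6
    have hn1 : (1 : ℝ) ≤ n := by exact_mod_cast hn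
    have hl0 : 0 ≤ Real.log n := Real.log_nonneg hn1
    have h5 : 0 < r ^ (-c) := Real.rpow_pos_of_pos hr _
    have h6 : D₃ * (1 + Real.log n) ^ k * ((n : ℝ) ^ a * r ^ (-c)) ≤
        C * (1 + Real.log n) ^ k * ((n : ℝ) ^ a * r ^ (-c)) := by gcongr
    linarith
  · have hn1 : (1 : ℝ) ≤ n := by exact_mod_cast hn
    have hl0 : 0 ≤ Real.log n := Real.log_nonneg hn1
    obtain ⟨h1, -, -, -, -, h6, -⟩ := hU n hn
    obtain ⟨X, hX⟩ : ∃ X, X = (n : ℝ) ^ (1 / 5 : ℝ) *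
        (1 + (n * Sx.pv β - ∫ g, freeEnergy n β g ∂(disorder n))) ^ (4 / 5 : ℝ) := ⟨_, rfl⟩
    have hX1 : 1 ≤ X := by
      rw [hX]
      exact one_le_mul_of_one_le_of_one_le (Real.one_le_rpow hn1 (by norm_num))
        (Real.one_le_rpow (by linarith) (by norm_num))
    have h2 := var_le_of_prof n β hn (A := D₁ * X) (fun t ht ht1 => by
      refine (h6 t ht ht1).1.trans (le_of_eq ?_)
      rw [hX, mul_assoc])
    rw [← hX]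
    refine h2.trans ?_
    have h3 : D₁ * X * Real.log n ≤ C * X * Real.log n := by gcongr
    have h4 : β ^ 2 / 2 ≤ C * X := by
      have h5 : C * 1 ≤ C * X := by
        have : 0 ≤ C := by linarith
        gcongr
      linarith
    nlinarith
  · refine (hL1 n hn m hm hM y u hu).trans ?_
    have h1 : (0 : ℝ) ≤ m := (by positivity : (0 : ℝ) ≤ (n : ℝ) ^ w).trans hm
    have h3 : 0 ≤ (m / n) ^ (1 / (D : ℝ)) := by positivity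
    exact mul_le_mul_of_nonneg_right (mul_le_mul_of_nonneg_right hDD₂ (by linarith)) h3
  · filter_upwards [hL2] with n hn m hm hM
    refine le_trans ?_ (hn m hm hM)
    have h1 : (0 : ℝ) ≤ m := (by positivity : (0 : ℝ) ≤ (n : ℝ) ^ w).trans hm
    exact mul_le_mul_of_nonneg_right (min_le_right _ _) (by positivity)
  · filter_upwards [hvar γ hγ, Tb.prof_grow (by positivity : 0 < 2 / D * (5 * θ)) hvar γ hγ]
      with n h1 h2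
    exact ⟨h1, h2⟩
  · exact (hexp (γ := 0) (by positivity) hκ0 hκ).mono fun n hn => hn.2

/-- **The end assembly.** -/
theorem final_g {θ a c w : ℝ} {k D : ℕ} (hc0 : 0 ≤ c) (hc1 : c ≤ 1)
    (hθ : θ * (5 + c) = 1 - a) (hθ0 : 0 < θ) (hθ6 : θ < 1 / 6) (hD : 1 ≤ D)
    (hw : w ≤ 1 - 5 * θ) (hT : ∀ β : ℝ, 1 < β → TMy β a c k)
    (hTM : ∀ β : ℝ, 1 < β → TM β a c k)
    (hL : ∀ β : ℝ, 1 < β → LowD β D w) :
    ∃ Λ : ℝ → ℝ, Tendsto Λ (𝓝[>] 1) (𝓝 (9 / 5120)) ∧ ∀ β : ℝ, 1 < β → 0 < Λ β ∧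
      ∃ p κ₀ C : ℝ, 0 < κ₀ ∧ AllG β θ a c k D w (Λ β) p κ₀ C := by
  obtain ⟨Λ, hΛ, hΛβ⟩ := Sh.lim_Lam
  refine ⟨Λ, hΛ, fun β hβ => ?_⟩
  obtain ⟨hΛ0, hlimΛ⟩ := hΛβ β hβ
  exact ⟨hΛ0, all_g hβ hc0 hc1 hθ hθ0 hθ6 hD hw (hT β hβ) (hTM β hβ) (hL β hβ) hΛ0 hlimΛ⟩

end Vale.Agent.P146.H260.Asm
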