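import Vale.Agent.P146.H260.V13F
import Vale.Agent.P146.R2.H453.Lo2
import Vale.Agent.P146.R2.H533.Up
import Vale.Agent.P146.R2.H952.Sharp
import Vale.Agent.P146.H605.Noise
import Vale.Agent.P146.H605.Chaos

/-!
# P146: consequences of the bound of the entropy at the scale `n ^ (-(1 / 6))`
-/

open MeasureTheory ProbabilityTheory Filter Topology

namespace Vale.Agent.P146.H260.V13

open Vale.Agent.P146 Vale.Agent.P146.H605

section

open Vale.Agent.P157.Lv Vale.Agent.P146.H425 Vale.Agent.P146.H332 Vale.Agent.P146.H325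
open Vale.Agent.P146.R1 Vale.Agent.P146.H946

/-- the entropy is at most linear in `n` -/
lemma VS_le_lin {β : ℝ} {n : ℕ} (hn : 0 < n) : VS β n ≤ β ^ 2 / 2 * n := by
  have hn0 : (0 : ℝ) < n := Nat.cast_pos.2 hn
  have hx : 0 < (n : ℝ) ^ (-(1 / 6) : ℝ) := Real.rpow_pos_of_pos hn0 _
  have h := c11_lz (β / √n) (SkS (n := n))
  refine (VK_le_GG h hx).trans ?_
  unfold GG
  have h1 : ∫ t in (0 : ℝ)..1, Phi ((n : ℝ) ^ (-(1 / 6) : ℝ)) (lz (β / √n) (SkS (n := n)))
      (Dz (β / √n)) t ≤ ∫ _ in (0 : ℝ)..1, β ^ 2 / 2 * n :=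
    intervalIntegral.integral_mono_on zero_le_one (Phi_int h hx) (by simp) fun t ht =>
      Phi_le h hx (sk_grad hn β) ht
  simpa using h1

lemma int_exp_sk (n : ℕ) (β x : ℝ) :
    Integrable (fun g => Real.exp (x * freeEnergy n β g)) (disorder n) := by
  have hd : disorder n = gI (Pair n) := rfl
  have hf : freeEnergy n β = lz (β / √n) (SkS (n := n)) := by
    funext g
    exact H332.freeEnergy_eq β g
  rw [hd, hf]
  exact ((c11_lz (β / √n) (SkS (n := n))).eg_exp x).integrable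

end

/-- from a bound for large `n` to a bound for all `n` -/
lemma all_n {w : ℕ → ℝ} {c e : ℝ} (hc : ∀ n : ℕ, 1 ≤ n → w n ≤ c * n) (he : 0 ≤ e)
    (hev : ∀ᶠ n : ℕ in atTop, w n < (n : ℝ) ^ e) :
    ∃ D : ℝ, 1 ≤ D ∧ ∀ n : ℕ, 1 ≤ n → w n ≤ D * (n : ℝ) ^ e := by
  obtain ⟨N, hN⟩ := eventually_atTop.1 hev
  refine ⟨1 + |c| * N, by have : 0 ≤ |c| * (N : ℝ) := by positivity
                          linarith, fun n hn => ?_⟩
  have hn1 : (1 : ℝ) ≤ n := by exact_mod_cast hn
  have h1 : 1 ≤ (n : ℝ) ^ e := Real.one_le_rpow hn1 he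
  by_cases h : N ≤ n
  · have h2 := hN n h
    have h3 : 0 ≤ |c| * (N : ℝ) * (n : ℝ) ^ e := by positivity
    nlinarith
  · push Not at h
    have h4 : (n : ℝ) ≤ N := by exact_mod_cast h.le
    have h2 := hc n hn
    have h5 : c * n ≤ |c| * N :=
      mul_le_mul (le_abs_self c) h4 (by positivity) (abs_nonneg c)
    have h6 : 0 ≤ |c| * (N : ℝ) := by positivity
    nlinarith

/-- Chernoff bound for the upper tail. -/
lemma chernoff_up {β : ℝ} {n : ℕ} {x u B : ℝ} (hx : 0 ≤ x)
    (hB : ∫ g, Real.exp (x * (freeEnergy n β g - ∫ h, freeEnergy n β h ∂(disorder n)))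
      ∂(disorder n) ≤ Real.exp B) :
    (disorder n).real {g | ∫ h, freeEnergy n β h ∂(disorder n) + u ≤ freeEnergy n β g} ≤
      Real.exp (B - x * u) := by
  have : IsProbabilityMeasure (disorder n) := by
    unfold disorder
    infer_instance
  obtain ⟨E, hE⟩ : ∃ E, E = ∫ h, freeEnergy n β h ∂(disorder n) := ⟨_, rfl⟩
  rw [← hE] at hB ⊢
  have h1 : Integrable (fun g => Real.exp (x * (freeEnergy n β g - E))) (disorder n) := by
    have h2 := (int_exp_sk n β x).const_mul (Real.exp (-(x * E)))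
    refine h2.congr (Filter.Eventually.of_forall fun g => ?_)
    simp only
    rw [← Real.exp_add]
    congr 1
    ring
  have h2 := measure_ge_le_exp_mul_mgf (μ := disorder n) (X := fun g => freeEnergy n β g - E)
    u hx h1
  have h3 : {g | E + u ≤ freeEnergy n β g} = {g | u ≤ freeEnergy n β g - E} := by
    ext g
    simp only [Set.mem_ofPred_eq]
    constructor <;> intro h <;> linarith
  rw [h3]
  refine h2.trans ?_
  have h4 : mgf (fun g => freeEnergy n β g - E) (disorder n) x ≤ Real.exp B := hB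
  have h5 := mul_le_mul_of_nonneg_left h4 (Real.exp_pos (-x * u)).le
  refine h5.trans (le_of_eq ?_)
  rw [← Real.exp_add]
  congr 1
  ring

/-- The moment generating function on both sides. -/
lemma mgf_both {β : ℝ} {n : ℕ} (hn : 1 ≤ n) {x : ℝ} (hx1 : x ≤ (n : ℝ) ^ (-(1 / 6) : ℝ)) :
    ∫ g, Real.exp (x * (freeEnergy n β g - ∫ h, freeEnergy n β h ∂(disorder n)))
      ∂(disorder n) ≤ Real.exp (x ^ 2 / 2 * VS β n) := by
  rcases le_total 0 x with hx | hx
  · exact mgf_sk (by omega) hx hx1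
  · have h1 := R2.H453.Lo.sk_LB β hn zero_le_one le_rfl (neg_nonneg.2 hx)
    have e : ∀ g, Real.exp (-(-x * (freeEnergy n β g - ∫ h, freeEnergy n β h ∂(disorder n)))) =
        Real.exp (x * (freeEnergy n β g - ∫ h, freeEnergy n β h ∂(disorder n))) := by
      intro g
      congr 1
      ring
    simp only [e] at h1
    refine h1.trans (Real.exp_le_exp.2 ?_)
    rw [crossCov_one n β hn]
    have h2 := mul_le_mul_of_nonneg_left (var_le_VS (β := β) (n := n) (by omega))
      (by positivity : 0 ≤ x ^ 2 / 2)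
    have e2 : (-x) ^ 2 / 2 * Var[freeEnergy n β; disorder n] =
        x ^ 2 / 2 * Var[freeEnergy n β; disorder n] := by ring
    rw [e2, sub_self]
    linarith

/-- **The consequences.** -/
theorem cons {β : ℝ} (H : ∀ ε : ℝ, 0 < ε → ∀ᶠ n : ℕ in atTop, VS β n < (n : ℝ) ^ (1 / 3 + ε : ℝ))
    (d : ℝ) (hd : 0 < d) : ∃ D : ℝ, 1 ≤ D ∧ ∀ n : ℕ, 1 ≤ n →
      Var[freeEnergy n β; disorder n] ≤ D * (n : ℝ) ^ (1 / 3 + d) ∧
      (∀ x : ℝ, x ≤ (n : ℝ) ^ (-(1 / 6) : ℝ) →
        ∫ g, Real.exp (x * (freeEnergy n β g - ∫ h, freeEnergy n β h ∂(disorder n)))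
          ∂(disorder n) ≤ Real.exp (D * (n : ℝ) ^ (1 / 3 + d) * x ^ 2)) ∧
      (∀ u : ℝ, 0 ≤ u → (disorder n).real {g | u * (n : ℝ) ^ (1 / 6 + d) ≤
        |freeEnergy n β g - ∫ h, freeEnergy n β h ∂(disorder n)|} ≤ D * Real.exp (-u)) ∧
      (∀ u : ℝ, 0 ≤ u → (disorder n).real {g | freeEnergy n β g ≤
        ∫ h, freeEnergy n β h ∂(disorder n) - u * (n : ℝ) ^ (1 / 6 + d)} ≤
          Real.exp (-(u ^ 2 / D))) ∧
      (∀ t : ℝ, 0 ≤ t → t < 1 →
        (1 - t) * (β ^ 2 / 2 * (n * crossOverlap n β t - 1)) ≤ D * (n : ℝ) ^ (1 / 3 + d)) := by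
  obtain ⟨C, hC, hV⟩ := all_n (w := VS β) (c := β ^ 2 / 2) (fun n hn => VS_le_lin (by omega))
    (by positivity : (0 : ℝ) ≤ 1 / 3 + d) (H d hd)
  have hC0 : 0 < C := by linarith
  obtain ⟨D, hD⟩ : ∃ D : ℝ, D = 2 * C + 2 * Real.exp C := ⟨_, rfl⟩
  have hexp : 0 < Real.exp C := Real.exp_pos C
  have hDC : 2 * C ≤ D := by rw [hD]; linarith
  have hDC' : C ≤ D := by linarith
  have hDe : 2 * Real.exp C ≤ D := by rw [hD]; linarith
  refine ⟨D, by linarith, fun n hn => ?_⟩
  have hn1 : (1 : ℝ) ≤ n := by exact_mod_cast hn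
  have hn0 : (0 : ℝ) < n := by linarith
  have hVn := hV n hn
  have hvar := var_le_VS (β := β) (n := n) (by omega)
  obtain ⟨Y, hY⟩ : ∃ Y : ℝ, Y = (n : ℝ) ^ (1 / 3 + d) := ⟨_, rfl⟩
  have hY0 : 0 < Y := by rw [hY]; positivity
  rw [← hY] at hVn ⊢
  have hprob : IsProbabilityMeasure (disorder n) := by
    unfold disorder
    infer_instance
  have hDY : C * Y ≤ D * Y := mul_le_mul_of_nonneg_right hDC' hY0.le
  -- the scale
  obtain ⟨s, hs⟩ : ∃ s : ℝ, s = (n : ℝ) ^ (1 / 6 + d) := ⟨_, rfl⟩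
  have hs0 : 0 < s := by rw [hs]; positivity
  have hYs : Y ≤ s ^ 2 := by
    rw [hY, hs, ← Real.rpow_natCast, ← Real.rpow_mul hn0.le]
    refine Real.rpow_le_rpow_of_exponent_le hn1 ?_
    push_cast
    linarith
  rw [← hs]
  -- the lower tail
  have hlow : ∀ u : ℝ, 0 ≤ u → (disorder n).real {g | freeEnergy n β g ≤
      ∫ h, freeEnergy n β h ∂(disorder n) - u * s} ≤ Real.exp (-(u ^ 2 / (2 * C))) := by
    intro u hu
    have hx : 0 ≤ u / (C * s) := by positivity
    have h1 := mgf_both (β := β) (n := n) hn (x := -(u / (C * s)))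
      ((neg_nonpos.2 hx).trans (Real.rpow_nonneg hn0.le _))
    have h2 := R2.H533.chernoff (n := n) (β := β) (x := u / (C * s)) (u := u * s)
      (B := (-(u / (C * s))) ^ 2 / 2 * VS β n) (fun y => int_exp_sk n β y) hx (by
        refine le_trans (le_of_eq ?_) h1
        congr 1
        funext g
        congr 1
        ring)
    refine h2.trans (Real.exp_le_exp.2 ?_)
    have h3 : (-(u / (C * s))) ^ 2 / 2 * VS β n ≤ (-(u / (C * s))) ^ 2 / 2 * (C * s ^ 2) := by
      refine mul_le_mul_of_nonneg_left (hVn.trans ?_) (by positivity)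
      exact mul_le_mul_of_nonneg_left hYs hC0.le
    have e1 : (-(u / (C * s))) ^ 2 / 2 * (C * s ^ 2) = u ^ 2 / (2 * C) := by
      field_simp
    have e2 : u / (C * s) * (u * s) = 2 * (u ^ 2 / (2 * C)) := by
      field_simp
    rw [e1] at h3
    rw [e2]
    linarith
  -- the upper tail
  have hup : ∀ u : ℝ, 0 ≤ u → (disorder n).real {g |
      ∫ h, freeEnergy n β h ∂(disorder n) + u * s ≤ freeEnergy n β g} ≤
        Real.exp C * Real.exp (-u) := by
    intro u hu
    have hx : 0 ≤ 1 / s := by positivity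
    have hx1 : 1 / s ≤ (n : ℝ) ^ (-(1 / 6) : ℝ) := by
      rw [hs, one_div, ← Real.rpow_neg hn0.le]
      exact Real.rpow_le_rpow_of_exponent_le hn1 (by linarith)
    have h1 := mgf_both (β := β) (n := n) hn hx1
    have h2 := chernoff_up (u := u * s) hx h1
    refine h2.trans ?_
    rw [← Real.exp_add]
    refine Real.exp_le_exp.2 ?_
    have h3 : (1 / s) ^ 2 / 2 * VS β n ≤ (1 / s) ^ 2 / 2 * (C * s ^ 2) := by
      refine mul_le_mul_of_nonneg_left (hVn.trans ?_) (by positivity)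
      exact mul_le_mul_of_nonneg_left hYs hC0.le
    have e1 : (1 / s) ^ 2 / 2 * (C * s ^ 2) = C / 2 := by
      field_simp
    have e2 : 1 / s * (u * s) = u := by
      field_simp
    rw [e1] at h3
    rw [e2]
    linarith
  refine ⟨(hvar.trans hVn).trans hDY, fun x hx => (mgf_both hn hx).trans
    (Real.exp_le_exp.2 ?_), fun u hu => ?_, fun u hu => (hlow u hu).trans
    (Real.exp_le_exp.2 ?_), fun t ht ht1 => ?_⟩
  · have h1 := mul_le_mul_of_nonneg_left (hVn.trans hDY) (by positivity : 0 ≤ x ^ 2 / 2)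
    have h2 : 0 ≤ D * Y * x ^ 2 := by
      have : 0 ≤ D := by linarith
      positivity
    linarith
  · have h1 := hlow u hu
    have h2 := hup u hu
    have h3 : {g | u * s ≤ |freeEnergy n β g - ∫ h, freeEnergy n β h ∂(disorder n)|} ⊆
        {g | freeEnergy n β g ≤ ∫ h, freeEnergy n β h ∂(disorder n) - u * s} ∪
        {g | ∫ h, freeEnergy n β h ∂(disorder n) + u * s ≤ freeEnergy n β g} := by
      intro g hg
      simp only [Set.mem_ofPred_eq, Set.mem_union] at hg ⊢
      rcases le_abs.1 hg with h | h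
      · right; linarith
      · left; linarith
    have h4 := (measureReal_mono (μ := disorder n) h3 (measure_ne_top _ _)).trans
      (measureReal_union_le _ _)
    have h5 : Real.exp (-(u ^ 2 / (2 * C))) ≤ Real.exp C * Real.exp (-u) := by
      rw [← Real.exp_add]
      refine Real.exp_le_exp.2 ?_
      have h6 : 0 ≤ (u - C) ^ 2 / (2 * C) := by positivity
      have e : (u - C) ^ 2 / (2 * C) = u ^ 2 / (2 * C) - u + C / 2 := by
        field_simp
        ring
      rw [e] at h6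
      linarith
    have h7 := mul_le_mul_of_nonneg_right hDe (Real.exp_pos (-u)).le
    linarith
  · have h1 : u ^ 2 / D ≤ u ^ 2 / (2 * C) := by gcongr
    linarith
  · have h1 := var_ge_crossOverlap n β hn ht ht1.le
    linarith

end Vale.Agent.P146.H260.V13
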