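import Vale.Agent.P146.H329.Dbl17
import Vale.Agent.P146.H518.Tel
import Vale.Agent.P146.R2.H952.Sharp
import Vale.Agent.P146.R2.H952.Lim
import Vale.Agent.P146.H260.V13R
import Vale.Agent.P146.H803.D29c

set_option linter.all false

/-!
The doubling inequality for all `0 < x ≤ 1 / 2`: for `x n < 1` it is trivial.
-/

open MeasureTheory ProbabilityTheory Filter Topology

namespace Vale.Agent.P146.H260.D17

open Vale.Agent.P146 Vale.Agent.P146.H605

theorem moment_nonneg (n : ℕ) (β : ℝ) {x : ℝ} (hx : 0 ≤ x) :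
    0 ≤ Real.log (∫ g, Real.exp (x * freeEnergy n β g) ∂(disorder n)) := by
  have hp : IsProbabilityMeasure (disorder n) := by
    unfold disorder
    infer_instance
  apply Real.log_nonneg
  have h1 : ∫ _g : Pair n → ℝ, (1 : ℝ) ∂(disorder n) ≤
      ∫ g, Real.exp (x * freeEnergy n β g) ∂(disorder n) := by
    refine integral_mono (integrable_const _) (V13.int_exp_sk n β x) fun g => ?_
    apply Real.one_le_exp
    refine mul_nonneg hx ?_
    have hl : 0 ≤ Real.log 2 := Real.log_nonneg (by norm_num)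
    exact le_trans (by positivity) (R2.H952.log_two_le n β g)
  simpa using h1

theorem moment_le (n : ℕ) (hn : 1 ≤ n) (β : ℝ) {x : ℝ} (hx : 0 < x) (hx1 : x ≤ 1) :
    Real.log (∫ g, Real.exp (x * freeEnergy n β g) ∂(disorder n)) ≤
      x * (n * (Real.log 2 + β ^ 2 / 4)) := by
  have hp : IsProbabilityMeasure (disorder n) := by
    unfold disorder
    infer_instance
  have hn1 : (1 : ℝ) ≤ n := by exact_mod_cast hn
  obtain ⟨L, hL⟩ : ∃ L : ℝ, L = n * Real.log 2 + β ^ 2 / 4 * (n - 1) := ⟨_, rfl⟩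
  have hA : ∫ g, Real.exp (freeEnergy n β g) ∂(disorder n) = Real.exp L := by
    have e : Real.exp ((n : ℝ) * Real.log 2) = 2 ^ n := by
      rw [Real.exp_nat_mul, Real.exp_log (by norm_num)]
    rw [R2.H952.mean_Z n β hn, hL, Real.exp_add, e]
  have hi1 : Integrable (fun g => Real.exp (freeEnergy n β g)) (disorder n) := by
    simpa using V13.int_exp_sk n β 1
  have hpt : ∀ g, Real.exp (x * freeEnergy n β g) ≤
      Real.exp (x * L) * (x * (Real.exp (-L) * Real.exp (freeEnergy n β g)) + (1 - x)) := by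
    intro g
    have h1 := convexOn_exp.2 (Set.mem_univ (freeEnergy n β g - L)) (Set.mem_univ 0) hx.le
      (sub_nonneg.2 hx1) (by ring)
    simp only [smul_eq_mul, mul_zero, add_zero, Real.exp_zero, mul_one] at h1
    have e1 : Real.exp (x * freeEnergy n β g) =
        Real.exp (x * L) * Real.exp (x * (freeEnergy n β g - L)) := by
      rw [← Real.exp_add]; congr 1; ring
    have e2 : Real.exp (-L) * Real.exp (freeEnergy n β g) = Real.exp (freeEnergy n β g - L) := by
      rw [← Real.exp_add]; congr 1; ring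
    rw [e1, e2]
    exact mul_le_mul_of_nonneg_left h1 (Real.exp_pos _).le
  have h2 : ∫ g, Real.exp (x * freeEnergy n β g) ∂(disorder n) ≤ Real.exp (x * L) := by
    refine (integral_mono (V13.int_exp_sk n β x)
      ((((hi1.const_mul _).const_mul x).add (integrable_const (1 - x))).const_mul _) hpt).trans ?_
    have e : ∫ g, Real.exp (x * L) * (x * (Real.exp (-L) * Real.exp (freeEnergy n β g)) +
        (1 - x)) ∂(disorder n) = Real.exp (x * L) := by
      rw [integral_const_mul, integral_add ((hi1.const_mul _).const_mul x) (integrable_const _),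
        integral_const_mul, integral_const_mul, hA, ← Real.exp_add]
      simp
    exact e.le
  have h3 : 0 < ∫ g, Real.exp (x * freeEnergy n β g) ∂(disorder n) :=
    integral_exp_pos (V13.int_exp_sk n β x)
  have h4 := Real.log_le_log h3 h2
  rw [Real.log_exp] at h4
  refine h4.trans (mul_le_mul_of_nonneg_left ?_ hx.le)
  rw [hL]
  nlinarith [sq_nonneg β]

/-- **The doubling inequality with the factor `(x n)^{1/3}`, for all `0 < x ≤ 1/2`.** -/
theorem dblc17 (β : ℝ) : ∃ C : ℝ, 0 ≤ C ∧ H518.Dblc β (2 / 3) C := by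
  obtain ⟨C, hC, h⟩ := H329.dbl17 β
  have hl2 : 0 ≤ Real.log 2 := Real.log_nonneg (by norm_num)
  obtain ⟨B, hB⟩ : ∃ B : ℝ, B = 2 * (Real.log 2 + β ^ 2 / 4) := ⟨_, rfl⟩
  have hB0 : 0 ≤ B := by rw [hB]; positivity
  refine ⟨2 * C + B, by positivity, fun n hn x hx hx2 => ?_⟩
  have hn1 : (1 : ℝ) ≤ n := by exact_mod_cast hn
  have hn0 : (0 : ℝ) < n := by linarith
  have hln : 0 ≤ Real.log n := Real.log_nonneg hn1
  have e1 : x ^ (1 - 2 / 3 : ℝ) * (n : ℝ) ^ (1 / 3 : ℝ) = (x * n) ^ (1 / 3 : ℝ) := by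
    rw [Real.mul_rpow hx.le hn0.le]
    norm_num
  obtain ⟨u, hu⟩ : ∃ u, u = (x * n) ^ (1 / 3 : ℝ) := ⟨_, rfl⟩
  have hu0 : 0 ≤ u := by rw [hu]; positivity
  have e2 : (2 * C + B) * x ^ (1 - 2 / 3 : ℝ) * (n : ℝ) ^ (1 / 3 : ℝ) * (1 + Real.log n) =
      (2 * C + B) * u * (1 + Real.log n) := by
    rw [mul_assoc (2 * C + B), e1, hu]
  rw [e2]
  rcases le_or_gt 1 (x * n) with h1 | h1
  · have h2 := h n hn x hx (by linarith)
    have hu1 : 1 ≤ u := by rw [hu]; exact Real.one_le_rpow h1 (by norm_num)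
    rw [← hu] at h2
    have h3 : C * ((1 + u) * (1 + Real.log n)) ≤ (2 * C + B) * u * (1 + Real.log n) := by
      have h4 : C * (1 + u) ≤ (2 * C + B) * u := by nlinarith
      calc C * ((1 + u) * (1 + Real.log n)) = C * (1 + u) * (1 + Real.log n) := by ring
        _ ≤ _ := mul_le_mul_of_nonneg_right h4 (by linarith)
    linarith
  · have h2 := moment_le (2 * n) (by omega) β hx (by linarith)
    have h3 := moment_nonneg n β hx.le
    have hxn : 0 < x * n := by positivity
    have h4 : x * n ≤ u := by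
      rw [hu]
      calc x * n = (x * n) ^ (1 : ℝ) := (Real.rpow_one _).symm
        _ ≤ (x * n) ^ (1 / 3 : ℝ) := Real.rpow_le_rpow_of_exponent_ge hxn h1.le (by norm_num)
    have h5 : x * (((2 * n : ℕ) : ℝ) * (Real.log 2 + β ^ 2 / 4)) = B * (x * n) := by
      rw [hB]; push_cast; ring
    rw [h5] at h2
    have h6 : B * (x * n) ≤ (2 * C + B) * u * (1 + Real.log n) := by
      calc B * (x * n) ≤ B * u := mul_le_mul_of_nonneg_left h4 hB0
        _ ≤ (2 * C + B) * u := by nlinarith
        _ ≤ (2 * C + B) * u * (1 + Real.log n) := by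
            have : 0 ≤ (2 * C + B) * u := by positivity
            nlinarith
    linarith

/-- The doubling inequality with `n^{1/3}` (803). -/
theorem dblc9 (β : ℝ) : ∃ C : ℝ, 0 ≤ C ∧ H518.Dblc β 1 C := by
  refine ⟨2 * β ^ 2 + 7 + 3 * Real.log (β ^ 2 + 1), ?_, H518.Dbl.dblc fun n hn x hx hx2 => ?_⟩
  · have : 0 ≤ Real.log (β ^ 2 + 1) := Real.log_nonneg (by nlinarith [sq_nonneg β])
    positivity
  · exact H803.double_log hn hx.le (by linarith)

end Vale.Agent.P146.H260.D17
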