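import Vale.Agent.P146.H737.R1b

set_option linter.all false

/-!
# P146: the end of the contradiction for the exponent `1 / 3`, general form
-/

open Filter Topology

namespace Vale.Agent.P146.H260.V14

/-- **The end of the contradiction, general form.** `P c n A T ρ x`: the data at the scale
`(x, T, ρ)` for a system which may depend on `c` and `A = n ^ α`; the kappa inequality is needed
only for `n ^ (-(1 / 6) + c) ≤ r`. -/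
theorem core {β : ℝ} (hβ : β ≠ 0) {V : ℕ → ℝ} {P : ℝ → ℕ → ℝ → ℝ → ℝ → ℝ → Prop}
    (hF : ∀ ε α c : ℝ, 0 < α → 100 * α ≤ c → 8 * c = ε → ε ≤ 1 / 10 → ∃ n₀ : ℕ, ∀ n : ℕ,
      n₀ ≤ n → (n : ℝ) ^ (1 / 3 + ε : ℝ) ≤ V n → ∃ T ρ x : ℝ, P c n ((n : ℝ) ^ α) T ρ x ∧
        0 < T ∧ T ≤ 1 ∧ 0 < ρ ∧ 2 * ρ ≤ β ^ 2 * n ∧ (n : ℝ) ^ (-(1 / 6) : ℝ) ≤ x ∧
        x ≤ (n : ℝ) ^ (-(1 / 6) + α : ℝ) ∧ (n : ℝ) ^ (ε - 3 * α) ≤ x ^ 2 * ρ * T ∧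
        ((n : ℝ) ^ (-(1 / 100) : ℝ) ≤ T → 2 * ρ / (β ^ 2 * n) ≤ (n : ℝ) ^ (-(1 / 8) : ℝ)))
    (hL : ∀ c : ℝ, 0 < c → ∃ C : ℝ, ∃ m : ℕ, ∃ α₀ : ℝ, 0 < α₀ ∧ ∀ α : ℝ, 0 < α → α ≤ α₀ →
      ∃ n₀ : ℕ, ∀ n : ℕ, n₀ ≤ n → ∀ T ρ x : ℝ,
      P c n ((n : ℝ) ^ α) T ρ x → T ≤ C * ((n : ℝ) ^ α) ^ m * (√(1 / (n * T)) +
        x * √(2 * ρ / (β ^ 2 * n)) + 2 * ρ / (β ^ 2 * n) + 1 / n))
    (hK : ∀ c : ℝ, 0 < c → ∃ C : ℝ, ∃ m : ℕ, ∃ k α₀ : ℝ, 0 < k ∧ 0 < α₀ ∧ ∀ α : ℝ, 0 < α →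
      α ≤ α₀ → ∃ n₀ : ℕ, ∀ n : ℕ, n₀ ≤ n → ∀ T ρ x : ℝ, P c n ((n : ℝ) ^ α) T ρ x →
      T ≤ 1 / (n : ℝ) ^ α → (n : ℝ) ^ (-(1 / 6) + c : ℝ) ≤ √(2 * ρ / (β ^ 2 * n)) →
      2 * ρ / (β ^ 2 * n) ≤ C * ((n : ℝ) ^ α) ^ m * (√(1 / (n * T)) +
        x * √(2 * ρ / (β ^ 2 * n)) + ((1 / (x ^ 2 * ρ * T) + 1 / (n * T)) ^ k + x ^ k) *
          (2 * ρ / (β ^ 2 * n)) + 1 / n)) :
    ∀ ε : ℝ, 0 < ε → ∀ᶠ n : ℕ in atTop, V n < (n : ℝ) ^ (1 / 3 + ε : ℝ) := by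
  -- reduce to a small `ε`
  suffices H : ∀ ε : ℝ, 0 < ε → ε ≤ 1 / 10 → ∀ᶠ n : ℕ in atTop,
      V n < (n : ℝ) ^ (1 / 3 + ε : ℝ) by
    intro ε hε
    filter_upwards [H (min ε (1 / 10)) (lt_min hε (by norm_num)) (min_le_right _ _),
      eventually_ge_atTop 1] with n hn hn1
    have hn1' : (1 : ℝ) ≤ n := by exact_mod_cast hn1
    exact hn.trans_le (Real.rpow_le_rpow_of_exponent_le hn1' (by
      have := min_le_left ε (1 / 10 : ℝ)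
      linarith))
  intro ε hε hε1
  obtain ⟨c, hc⟩ : ∃ c : ℝ, c = ε / 8 := ⟨_, rfl⟩
  have hc0 : 0 < c := by rw [hc]; positivity
  obtain ⟨C₁, m₁, α₁, hα₁, hL⟩ := hL c hc0
  obtain ⟨C₂, m₂, k, α₂, hk, hα₂, hK⟩ := hK c hc0
  have hβ2 : 0 < β ^ 2 := by positivity
  -- the parameters
  obtain ⟨M, hM⟩ : ∃ M : ℝ, M = (m₁ : ℝ) + m₂ + 2 := ⟨_, rfl⟩
  have hm₁ : (0 : ℝ) ≤ m₁ := Nat.cast_nonneg _
  have hm₂ : (0 : ℝ) ≤ m₂ := Nat.cast_nonneg _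
  have hM2 : 2 ≤ M := by rw [hM]; linarith
  have hM0 : 0 < M := by linarith
  obtain ⟨κ, hκ⟩ : ∃ κ : ℝ, κ = min k 1 := ⟨_, rfl⟩
  have hκ0 : 0 < κ := by rw [hκ]; exact lt_min hk one_pos
  have hκk : κ ≤ k := by rw [hκ]; exact min_le_left _ _
  have hκ1 : κ ≤ 1 := by rw [hκ]; exact min_le_right _ _
  obtain ⟨a, ha⟩ : ∃ a : ℝ, a = ε * κ / 400 := ⟨_, rfl⟩
  have hεκ : ε * κ ≤ ε := by nlinarith
  have hεκk : ε * κ ≤ k * ε := by nlinarith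
  have ha0 : 0 < a := by rw [ha]; positivity
  have haε : a ≤ ε / 400 := by rw [ha]; linarith
  obtain ⟨α, hα0, hαM, hαα₁, hαα₂⟩ : ∃ α : ℝ, 0 < α ∧ α * M ≤ a ∧ α ≤ α₁ ∧ α ≤ α₂ := by
    refine ⟨min (a / M) (min α₁ α₂), lt_min (by positivity) (lt_min hα₁ hα₂), ?_,
      (min_le_right _ _).trans (min_le_left _ _), (min_le_right _ _).trans (min_le_right _ _)⟩
    calc min (a / M) (min α₁ α₂) * M ≤ a / M * M :=
          mul_le_mul_of_nonneg_right (min_le_left _ _) hM0.le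
      _ = a := by field_simp
  have hαa : 2 * α ≤ a := by nlinarith
  have hkε : 0 < k * ε / 4 := by positivity
  obtain ⟨r₀, hr₀1, hr₀⟩ := H737.R1.real_false (C := |C₁| + |C₂|) (a := a) (c := k * ε / 4)
    (c₀ := 1 / 100) (c₁ := c) (c' := 1 / 16) (b := 1 / 8) (e := ε - 6 * α) (by positivity) ha0
    (by linarith) (by linarith) (by rw [ha]; linarith) (by linarith) (by linarith)
    (by norm_num) (by linarith) (by linarith) hc0.le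
  obtain ⟨n₁, hn₁⟩ := hF ε α c hα0 (by rw [hc]; linarith) (by rw [hc]; ring) hε1
  obtain ⟨n₂, hn₂⟩ := hL α hα0 hαα₁
  obtain ⟨n₃, hn₃⟩ := hK α hα0 hαα₂
  have hev1 := ((tendsto_rpow_atTop hα0).comp tendsto_natCast_atTop_atTop).eventually_ge_atTop
    (β ^ 2 / 2)
  have hev2 := ((tendsto_rpow_atTop hkε).comp tendsto_natCast_atTop_atTop).eventually_ge_atTop
    (2 ^ k + 1)
  have hev3 : ∀ᶠ n : ℕ in atTop, r₀ ≤ (n : ℝ) :=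
    tendsto_natCast_atTop_atTop.eventually_ge_atTop r₀
  filter_upwards [hev1, hev2, hev3, eventually_ge_atTop n₁, eventually_ge_atTop n₂,
    eventually_ge_atTop n₃] with n e1 e2 e3 e4 e5 e6
  by_contra hV
  push Not at hV
  simp only [Function.comp] at e1 e2
  obtain ⟨T, ρ, x, hP, hT0, hT1, hρ0, hρ1, hx6, hx1, hy, h8⟩ := hn₁ n e4 hV
  have hLam := hn₂ n e5 T ρ x hP
  have hKap := hn₃ n e6 T ρ x hP
  have hn1 : (1 : ℝ) ≤ n := hr₀1.trans e3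
  have hn0 : (0 : ℝ) < n := by linarith
  have hx0 : 0 < x := (Real.rpow_pos_of_pos hn0 _).trans_le hx6
  obtain ⟨R, hR⟩ : ∃ R : ℝ, R = 2 * ρ / (β ^ 2 * n) := ⟨_, rfl⟩
  rw [← hR] at hLam hKap h8
  have hR0 : 0 < R := by rw [hR]; positivity
  have hR1 : R ≤ 1 := by
    rw [hR, div_le_one (by positivity)]
    exact hρ1
  have hr0 : 0 < √R := Real.sqrt_pos.2 hR0
  have hr2 : √R ^ 2 = R := Real.sq_sqrt hR0.le
  -- the lower bound of `R T`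
  have hRT : (n : ℝ) ^ (-(2 / 3) + (ε - 6 * α) : ℝ) ≤ R * T := by
    have h1 : x ^ 2 ≤ (n : ℝ) ^ (-(1 / 3) + 2 * α : ℝ) := by
      have h2 : x ^ 2 ≤ ((n : ℝ) ^ (-(1 / 6) + α : ℝ)) ^ 2 := pow_le_pow_left₀ hx0.le hx1 2
      have h3 : ((n : ℝ) ^ (-(1 / 6) + α : ℝ)) ^ 2 = (n : ℝ) ^ (-(1 / 3) + 2 * α : ℝ) := by
        rw [← Real.rpow_natCast, ← Real.rpow_mul hn0.le]
        congr 1
        push_cast
        ring
      rwa [h3] at h2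
    have h2 : (n : ℝ) ^ (ε - 3 * α) ≤ (n : ℝ) ^ (-(1 / 3) + 2 * α : ℝ) * (ρ * T) := by
      refine hy.trans ?_
      rw [mul_assoc]
      exact mul_le_mul_of_nonneg_right h1 (by positivity)
    have h3 : (n : ℝ) ^ (ε - 5 * α + 1 / 3 : ℝ) ≤ ρ * T := by
      have e : (n : ℝ) ^ (ε - 3 * α) = (n : ℝ) ^ (-(1 / 3) + 2 * α : ℝ) *
          (n : ℝ) ^ (ε - 5 * α + 1 / 3 : ℝ) := by
        rw [← Real.rpow_add hn0]
        congr 1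
        ring
      rw [e] at h2
      exact le_of_mul_le_mul_left h2 (Real.rpow_pos_of_pos hn0 _)
    have h4 : R * T = 2 / β ^ 2 * (ρ * T) * (n : ℝ) ^ (-1 : ℝ) := by
      rw [hR, Real.rpow_neg_one]
      field_simp
    have h5 : (n : ℝ) ^ (-(2 / 3) + (ε - 6 * α) : ℝ) * (n : ℝ) ^ α =
        (n : ℝ) ^ (ε - 5 * α + 1 / 3 : ℝ) * (n : ℝ) ^ (-1 : ℝ) := by
      rw [← Real.rpow_add hn0, ← Real.rpow_add hn0]
      congr 1
      ring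
    have h6 : 1 ≤ 2 / β ^ 2 * (n : ℝ) ^ α := by
      have := mul_le_mul_of_nonneg_left e1 (by positivity : 0 ≤ 2 / β ^ 2)
      have e : 2 / β ^ 2 * (β ^ 2 / 2) = 1 := by field_simp
      linarith
    have h7 : 0 < (n : ℝ) ^ (-(2 / 3) + (ε - 6 * α) : ℝ) := Real.rpow_pos_of_pos hn0 _
    have h9 : 0 < (n : ℝ) ^ (-1 : ℝ) := Real.rpow_pos_of_pos hn0 _
    calc (n : ℝ) ^ (-(2 / 3) + (ε - 6 * α) : ℝ) ≤
          (n : ℝ) ^ (-(2 / 3) + (ε - 6 * α) : ℝ) * (2 / β ^ 2 * (n : ℝ) ^ α) :=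
          le_mul_of_one_le_right h7.le h6
      _ = 2 / β ^ 2 * ((n : ℝ) ^ (-(2 / 3) + (ε - 6 * α) : ℝ) * (n : ℝ) ^ α) := by ring
      _ = 2 / β ^ 2 * ((n : ℝ) ^ (ε - 5 * α + 1 / 3 : ℝ) * (n : ℝ) ^ (-1 : ℝ)) := by rw [h5]
      _ ≤ 2 / β ^ 2 * ((ρ * T) * (n : ℝ) ^ (-1 : ℝ)) := by gcongr
      _ = R * T := by rw [h4]; ring
  have hTlow : (n : ℝ) ^ (-(2 / 3) + (ε - 6 * α) : ℝ) ≤ T :=
    hRT.trans (mul_le_of_le_one_left hT0.le hR1)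
  have hsum0 : 0 ≤ √(1 / (n * T)) + x * √R := by positivity
  have hpow : ∀ m : ℕ, (m : ℝ) ≤ M → ((n : ℝ) ^ α) ^ m ≤ (n : ℝ) ^ a := by
    intro m hm
    rw [← Real.rpow_natCast, ← Real.rpow_mul hn0.le]
    refine Real.rpow_le_rpow_of_exponent_le hn1 ?_
    exact (mul_le_mul_of_nonneg_left hm hα0.le).trans hαM
  have hC : ∀ (C : ℝ) (m : ℕ), C ≤ |C₁| + |C₂| → (m : ℝ) ≤ M → ∀ X : ℝ, 0 ≤ X →
      C * ((n : ℝ) ^ α) ^ m * X ≤ (|C₁| + |C₂|) * (n : ℝ) ^ a * X := by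
    intro C m hC hm X hX
    have h1 : 0 ≤ ((n : ℝ) ^ α) ^ m := by positivity
    have h2 : C * ((n : ℝ) ^ α) ^ m ≤ (|C₁| + |C₂|) * ((n : ℝ) ^ α) ^ m :=
      mul_le_mul_of_nonneg_right hC h1
    have h3 : (|C₁| + |C₂|) * ((n : ℝ) ^ α) ^ m ≤ (|C₁| + |C₂|) * (n : ℝ) ^ a :=
      mul_le_mul_of_nonneg_left (hpow m hm) (by positivity)
    exact mul_le_mul_of_nonneg_right (h2.trans h3) hX
  have hC1 : C₁ ≤ |C₁| + |C₂| := (le_abs_self _).trans (le_add_of_nonneg_right (abs_nonneg _))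
  have hC2 : C₂ ≤ |C₁| + |C₂| := (le_abs_self _).trans (le_add_of_nonneg_left (abs_nonneg _))
  refine hr₀ n e3 T (√R) x hT0 hT1 hr0 hx0.le (hx1.trans
    (Real.rpow_le_rpow_of_exponent_le hn1 (by linarith))) (by rw [hr2]; exact hRT)
    (fun _ => ?_) (fun hTc hxr => ?_) (fun hTc => ?_)
  · rw [hr2]
    exact hLam.trans (hC C₁ m₁ hC1 (by rw [hM]; linarith) _ (by positivity))
  · rw [hr2]
    have hT1' : T ≤ 1 / (n : ℝ) ^ α := by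
      refine hTc.trans ?_
      have e : 1 / (n : ℝ) ^ α = (n : ℝ) ^ (-α) := by
        rw [Real.rpow_neg hn0.le, one_div]
      rw [e]
      exact Real.rpow_le_rpow_of_exponent_le hn1 (by linarith)
    -- the small factor
    have hS : (1 / (x ^ 2 * ρ * T) + 1 / (n * T)) ^ k + x ^ k ≤ (n : ℝ) ^ (-(k * ε / 4)) := by
      have s1 : 1 / (x ^ 2 * ρ * T) ≤ (n : ℝ) ^ (-(ε / 2)) := by
        have h1 : (n : ℝ) ^ (ε / 2) ≤ x ^ 2 * ρ * T :=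
          (Real.rpow_le_rpow_of_exponent_le hn1 (by linarith)).trans hy
        rw [Real.rpow_neg hn0.le, ← one_div]
        exact one_div_le_one_div_of_le (Real.rpow_pos_of_pos hn0 _) h1
      have s2 : 1 / (n * T) ≤ (n : ℝ) ^ (-(ε / 2)) := by
        have h1 : (n : ℝ) ^ (ε / 2) ≤ n * T := by
          calc (n : ℝ) ^ (ε / 2) ≤ (n : ℝ) ^ (1 + (-(2 / 3) + (ε - 6 * α)) : ℝ) :=
                Real.rpow_le_rpow_of_exponent_le hn1 (by linarith)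
            _ = n * (n : ℝ) ^ (-(2 / 3) + (ε - 6 * α) : ℝ) := by
                rw [Real.rpow_add hn0, Real.rpow_one]
            _ ≤ n * T := mul_le_mul_of_nonneg_left hTlow hn0.le
        rw [Real.rpow_neg hn0.le, ← one_div]
        exact one_div_le_one_div_of_le (Real.rpow_pos_of_pos hn0 _) h1
      have s3 : x ≤ (n : ℝ) ^ (-(ε / 2)) :=
        hx1.trans (Real.rpow_le_rpow_of_exponent_le hn1 (by linarith))
      have s4 : 0 ≤ (n : ℝ) ^ (-(ε / 2)) := (Real.rpow_pos_of_pos hn0 _).le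
      have s5 : (1 / (x ^ 2 * ρ * T) + 1 / (n * T)) ^ k ≤ (2 * (n : ℝ) ^ (-(ε / 2))) ^ k :=
        Real.rpow_le_rpow (by positivity) (by linarith) hk.le
      have s6 : x ^ k ≤ ((n : ℝ) ^ (-(ε / 2))) ^ k := Real.rpow_le_rpow hx0.le s3 hk.le
      have s7 : ((n : ℝ) ^ (-(ε / 2))) ^ k = (n : ℝ) ^ (-(k * ε / 4)) *
          (n : ℝ) ^ (-(k * ε / 4)) := by
        rw [← Real.rpow_mul hn0.le, ← Real.rpow_add hn0]
        congr 1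
        ring
      rw [Real.mul_rpow (by norm_num) s4] at s5
      rw [s7] at s5 s6
      have s8 : (2 ^ k + 1) * (n : ℝ) ^ (-(k * ε / 4)) ≤ 1 := by
        have h1 : 0 < (n : ℝ) ^ (-(k * ε / 4)) := Real.rpow_pos_of_pos hn0 _
        have h2 := mul_le_mul_of_nonneg_right e2 h1.le
        have h3 : (n : ℝ) ^ (k * ε / 4) * (n : ℝ) ^ (-(k * ε / 4)) = 1 := by
          rw [← Real.rpow_add hn0]
          simp
        linarith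
      have s9 : 0 ≤ (n : ℝ) ^ (-(k * ε / 4)) := (Real.rpow_pos_of_pos hn0 _).le
      calc (1 / (x ^ 2 * ρ * T) + 1 / (n * T)) ^ k + x ^ k ≤
            2 ^ k * ((n : ℝ) ^ (-(k * ε / 4)) * (n : ℝ) ^ (-(k * ε / 4))) +
              (n : ℝ) ^ (-(k * ε / 4)) * (n : ℝ) ^ (-(k * ε / 4)) := add_le_add s5 s6
        _ = (n : ℝ) ^ (-(k * ε / 4)) * ((2 ^ k + 1) * (n : ℝ) ^ (-(k * ε / 4))) := by ring
        _ ≤ (n : ℝ) ^ (-(k * ε / 4)) * 1 := mul_le_mul_of_nonneg_left s8 s9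
        _ = (n : ℝ) ^ (-(k * ε / 4)) := mul_one _
    have hX0 : 0 ≤ √(1 / (n * T)) + x * √R + ((1 / (x ^ 2 * ρ * T) + 1 / (n * T)) ^ k +
        x ^ k) * R + 1 / n := by positivity
    have hxr' : (n : ℝ) ^ (-(1 / 6) + c : ℝ) ≤ √R := by
      refine le_trans ?_ hxr
      rw [add_comm, Real.rpow_add hn0]
      exact mul_le_mul_of_nonneg_left hx6 (by positivity)
    refine (hKap hT1' hxr').trans ((hC C₂ m₂ hC2 (by rw [hM]; linarith) _ hX0).trans ?_)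
    refine mul_le_mul_of_nonneg_left ?_ (by positivity)
    have := mul_le_mul_of_nonneg_right hS hR0.le
    linarith
  · rw [hr2]
    exact h8 hTc

end Vale.Agent.P146.H260.V14
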