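import Vale.Agent.P146.H260.VKc
import Vale.Agent.P146.H260.V14
import Vale.Agent.P146.H89.DeepHF

/-!
Plan R1, all `β`: the input `hF` of the end of the contradiction for the deep functionals of the
SK model, from a lower bound of the entropy at the scale `n ^ (-(1 / 6)) / 2`.
-/

open MeasureTheory ProbabilityTheory

namespace Vale.Agent.P146.H260.V14

open Vale.Agent.P157.Lv Vale.Agent.P146.H425 Vale.Agent.P146.H332 Vale.Agent.P146.H325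
open Vale.Agent.P146.H946 (Dz Hz Tz)
open Vale.Agent.P146.R1 Vale.Agent.P146.H260.V13

set_option linter.unusedSectionVars false

variable {n : ℕ} {β : ℝ} {m σ : ℕ → ℝ} {J : ℕ}

/-- The entropy of the SK free energy at the scale `n ^ (-(1 / 6)) / 2`. -/
noncomputable def VE (β : ℝ) (n : ℕ) : ℝ :=
  VK (lz (β / √n) (SkS (n := n))) ((n : ℝ) ^ (-(1 / 6) : ℝ) / 2)

/-- **The output of block F for the deep functional, on grids**: the entropy of the deep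
functional is large. -/
theorem deep_outK {β : ℝ} (hβ : β ≠ 0) {ε α : ℝ} (hα : 0 < α) (hαε : 4 * α ≤ ε) :
    ∃ a : ℝ, 0 < a ∧ ∃ n₀ : ℝ, 2 ≤ n₀ ∧ ∀ n : ℕ, n₀ ≤ (n : ℝ) → ∀ (m σ : ℕ → ℝ) (J : ℕ),
      (∀ l < J, 0 < m l) → (n : ℝ) ^ (1 / 3 + ε : ℝ) ≤
        VK (Fz n β m σ J) ((n : ℝ) ^ (-(1 / 6) : ℝ)) →
      ∃ x θ T s1 s2 : ℝ, FGrid n a x θ T ∧
        FData n α ε (β ^ 2 / 2) (Fz n β m σ J) (Gz n β m σ J)
        (fun x θ T s => Ht x θ (1 - T) (1 - T / 2) s (Fz n β m σ J) (Gz n β m σ J)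
          (HHz n β m σ J)) x θ T
          (Phi x (Fz n β m σ J) (Gz n β m σ J) (1 - T)) s1 s2 := by
  have hb2 : 0 < β ^ 2 / 2 := by positivity
  obtain ⟨a, ha, n₀, h2, hf⟩ := f_finK hα hαε hb2 hb2.le
  refine ⟨a, ha, n₀, h2, fun n hn m σ J hm hV => ?_⟩
  have hn0 : 0 < n := by
    have : (0 : ℝ) < n := by linarith
    exact_mod_cast this
  obtain ⟨x, θ, T, ρ, s1, s2, hg, hρ, hd⟩ := hf n hn (Pair n) _ _ _ _ _ _ _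
    (sm_FD (m := m) (σ := σ) (H946.sk_sm (R1C.kk n β)) J hm) (cv_FD (c11_lz _ _) (cv_lz _ _) J hm)
    (deep_grad hn0 β hm) (deep_hK hn0 β hm) hV
  subst hρ
  exact ⟨x, θ, T, s1, s2, hg, hd⟩

/-- **Block F for the deep functional in the form used by the assembly.** -/
theorem deep_hFK {β : ℝ} (hβ : 0 < β) : ∀ ε α : ℝ, 0 < α → 100 * α ≤ ε → ε ≤ 1 / 10 →
    ∃ a : ℝ, 0 < a ∧ ∃ n₀ : ℕ, ∀ n : ℕ, n₀ ≤ n → ∀ (m σ : ℕ → ℝ) (J : ℕ), Lay n β m σ J →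
      (n : ℝ) ^ (1 / 3 + ε : ℝ) ≤ VE β n →
      ∃ x θ T s1 s2 ρ δ : ℝ, FGrid n a x θ T ∧ ρ = Phi x (Fz n β m σ J) (Gz n β m σ J) (1 - T) ∧
        0 < θ ∧ θ ≤ 1 / 64 ∧ 0 < T ∧ 1 / (n : ℝ) ^ 2 ≤ T ∧ T ≤ 1 ∧ 0 < ρ ∧ 2 * ρ ≤ β ^ 2 * n ∧
        (n : ℝ) ^ (1 / 3 + ε - 2 * α : ℝ) ≤ ρ ∧
        0 < x ∧ (n : ℝ) ^ (-(1 / 6) : ℝ) ≤ x ∧ x ≤ (n : ℝ) ^ (-(1 / 6) + α : ℝ) ∧
        (n : ℝ) ^ (ε - α) ≤ x ^ 2 * ρ * T ∧
        ((n : ℝ) ^ (-(1 / 100) : ℝ) ≤ T → 2 * ρ / (β ^ 2 * n) ≤ (n : ℝ) ^ (-(1 / 8) : ℝ)) ∧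
        ∀ S : R1S.CS n (R1C.kk n β) x, S.F = Fz n β m σ J → S.D = Gz n β m σ J →
          R1C.Fo n β ((n : ℝ) ^ α) δ T ρ ⟨x, θ, 1 - T, 1 - T / 2, s1, s2⟩ S.F S.A S.DA := by
  intro ε α hα h100 hε
  have hε' : 40 * α + α / 2 ≤ ε - α / 2 := by linarith
  obtain ⟨a, ha, n₀, h2, hout⟩ := deep_outK hβ.ne' (ε := ε - α / 2) (α := α / 2) (by positivity)
    (by linarith)
  have hε2 : 0 < (ε - α / 2) / 2 := by linarith
  obtain ⟨n₁, h1⟩ := Filter.eventually_atTop.1 ((H946.pow_exp_le hε2).and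
    ((H946.gap_ev (show 0 < α / 2 by positivity) (show α / 2 < α by linarith) (β ^ 2 / 2)).and
      ((Filter.eventually_ge_atTop (β ^ 2)).and
        ((tendsto_rpow_atTop (show 0 < α / 2 by positivity)).eventually_ge_atTop 8))))
  obtain ⟨n₂, h21, hcor⟩ := corner_cmp hβ.ne' (a := α) (c₀ := 1 / 100) (b := 1 / 8) hα.le
    (by linarith) (by linarith)
  obtain ⟨N, hN⟩ := exists_nat_ge (max n₀ (max n₁ n₂))
  refine ⟨a, ha, N, fun n hn m σ J hL hV => ?_⟩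
  have hnN : max n₀ (max n₁ n₂) ≤ (n : ℝ) := hN.trans (by exact_mod_cast hn)
  have hn0' : n₀ ≤ n := (le_max_left _ _).trans hnN
  have hn1' : n₁ ≤ n := ((le_max_left _ _).trans (le_max_right _ _)).trans hnN
  have hn2' : n₂ ≤ n := ((le_max_right _ _).trans (le_max_right _ _)).trans hnN
  obtain ⟨g1, g2, g3, g4⟩ := h1 n hn1'
  have hn2 : 2 ≤ n := by
    have : (2 : ℝ) ≤ n := h2.trans hn0'
    exact_mod_cast this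
  have hn0 : 0 < n := by omega
  have hnr : (1 : ℝ) ≤ n := by
    have : (2 : ℝ) ≤ n := h2.trans hn0'
    linarith
  have hnp : (0 : ℝ) < n := by linarith
  -- the entropy of the deep functional
  have hV2 : (n : ℝ) ^ (1 / 3 + (ε - α / 2) : ℝ) ≤
      VK (Fz n β m σ J) ((n : ℝ) ^ (-(1 / 6) : ℝ)) := by
    have hx6 : 0 < (n : ℝ) ^ (-(1 / 6) : ℝ) := Real.rpow_pos_of_pos hnp _
    have h3 : VE β n ≤ VK (Fz n β m σ J) ((n : ℝ) ^ (-(1 / 6) : ℝ)) +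
        4 * (n : ℝ) ^ (1 / 6 : ℝ) / (n : ℝ) ^ (-(1 / 6) : ℝ) := by
      refine VK_cmp (c11_lz (β / √n) SkS) (cv_lz _ _) (c11_FD (c11_lz _ _) J hL.pos)
        (cv_FD (c11_lz _ _) (cv_lz _ _) J hL.pos) hx6
        (fun z => (FD_lz (σ := σ) hn0 β hL.pos hL.le z).1)
        (fun z => (FD_lz (σ := σ) hn0 β hL.pos hL.le z).2.trans ?_)
      have := hL.sz
      linarith
    have e3 : 4 * (n : ℝ) ^ (1 / 6 : ℝ) / (n : ℝ) ^ (-(1 / 6) : ℝ) = 4 * (n : ℝ) ^ (1 / 3 : ℝ) := by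
      rw [mul_div_assoc, ← Real.rpow_sub hnp]
      norm_num
    rw [e3] at h3
    have h4 : (n : ℝ) ^ (1 / 3 : ℝ) ≤ (n : ℝ) ^ (1 / 3 + (ε - α / 2) : ℝ) :=
      Real.rpow_le_rpow_of_exponent_le hnr (by linarith)
    have h5 : 8 * (n : ℝ) ^ (1 / 3 + (ε - α / 2) : ℝ) ≤ (n : ℝ) ^ (1 / 3 + ε : ℝ) := by
      have e : (n : ℝ) ^ (1 / 3 + ε : ℝ) =
          (n : ℝ) ^ (α / 2) * (n : ℝ) ^ (1 / 3 + (ε - α / 2) : ℝ) := by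
        rw [← Real.rpow_add hnp]
        congr 1
        ring
      rw [e]
      exact mul_le_mul_of_nonneg_right g4 (by positivity)
    have h6 := hV.trans h3
    have h7 : 0 < (n : ℝ) ^ (1 / 3 : ℝ) := Real.rpow_pos_of_pos hnp _
    linarith
  obtain ⟨x, θ, T, s1, s2, hg, hd⟩ := hout n hn0' m σ J hL.pos hV2
  obtain ⟨ρ, hρ⟩ : ∃ ρ, ρ = Phi x (Fz n β m σ J) (Gz n β m σ J) (1 - T) := ⟨_, rfl⟩
  rw [← hρ] at hd
  have hx : 0 < x := lt_of_lt_of_le (Real.rpow_pos_of_pos hnp _) hd.x_low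
  have hxα : x ≤ (n : ℝ) ^ (-(1 / 6) + α : ℝ) :=
    hd.x_up.trans (Real.rpow_le_rpow_of_exponent_le hnr (by linarith))
  refine ⟨x, θ, T, s1, s2, ρ, Real.exp (-(n : ℝ) ^ ((ε - α / 2) / 2)), hg, hρ, hd.θ_pos, hd.θ_le,
    hd.T_pos, hd.T_low, hd.T_le, hd.ρ_pos, ?_, ?_, hx, hd.x_low, hxα, ?_, fun hT => ?_, ?_⟩
  · have := hd.ρ_le
    linarith
  · exact (Real.rpow_le_rpow_of_exponent_le hnr (by linarith)).trans hd.ρ_low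
  · exact (Real.rpow_le_rpow_of_exponent_le hnr (by linarith)).trans hd.y_low
  · rw [hρ]
    refine hcor n hn2' _ _ _ _ (c11_FD (c11_lz _ _) J hL.pos)
      (cv_FD (c11_lz _ _) (cv_lz _ _) J hL.pos)
      (fun z => (FD_lz (σ := σ) hn0 β hL.pos hL.le z).1)
      (fun z => (FD_lz (σ := σ) hn0 β hL.pos hL.le z).2.trans ?_) x hd.x_low hxα T hd.T_pos
      hd.T_le hT
    have h8 : (n : ℝ) ^ (1 / 6 : ℝ) ≤ (n : ℝ) ^ (1 / 3 : ℝ) :=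
      Real.rpow_le_rpow_of_exponent_le hnr (by norm_num)
    have h9 := hL.sz
    linarith
  · intro S hF hD
    obtain ⟨B, L, M, T3, hS⟩ := sm_Fz (n := n) (β := β) (σ := σ) hL.pos
    rw [← hF, ← hD] at hS hd
    exact H946.fo_of_fdata_S hn2 hβ (by positivity) (by linarith) (by linarith)
      (by linarith) g3 g2 g1 S hS hd

/-- **The input `hF` for the deep systems.** -/
theorem deep_hF14K {β : ℝ} (hβ : 0 < β)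
    (Q : ℝ → ℝ → ℕ → ℝ → (ℕ → ℝ) → (ℕ → ℝ) → ℕ → Prop)
    (hQ : ∀ c α a : ℝ, 0 < α → 100 * α ≤ c → 8 * c ≤ 1 / 10 → 0 < a → ∃ n₀ : ℕ, ∀ n : ℕ, n₀ ≤ n →
      ∃ (m σ : ℕ → ℝ) (J : ℕ), Lay n β m σ J ∧ Exs m J ((n : ℝ) ^ (-(1 / 12) : ℝ)) ∧
        Q a c n ((n : ℝ) ^ α) m σ J) :
    ∀ ε α c : ℝ, 0 < α → 100 * α ≤ c → 8 * c = ε → ε ≤ 1 / 10 → ∃ n₀ : ℕ, ∀ n : ℕ, n₀ ≤ n →
      (n : ℝ) ^ (1 / 3 + ε : ℝ) ≤ VE β n →
      ∃ T ρ x : ℝ, PD β Q c n ((n : ℝ) ^ α) T ρ x ∧ 0 < T ∧ T ≤ 1 ∧ 0 < ρ ∧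
        2 * ρ ≤ β ^ 2 * n ∧ (n : ℝ) ^ (-(1 / 6) : ℝ) ≤ x ∧ x ≤ (n : ℝ) ^ (-(1 / 6) + α : ℝ) ∧
        (n : ℝ) ^ (ε - 3 * α) ≤ x ^ 2 * ρ * T ∧
        ((n : ℝ) ^ (-(1 / 100) : ℝ) ≤ T → 2 * ρ / (β ^ 2 * n) ≤ (n : ℝ) ^ (-(1 / 8) : ℝ)) := by
  intro ε α c hα h100 h8 hε
  obtain ⟨a, ha, n₀, hout⟩ := deep_hFK hβ ε α hα (by linarith) hε
  obtain ⟨n₁, hq⟩ := hQ c α a hα h100 (by linarith) ha
  refine ⟨max 1 (max n₀ n₁), fun n hn hV => ?_⟩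
  have hn1 : 1 ≤ n := (le_max_left _ _).trans hn
  have hn0' : n₀ ≤ n := ((le_max_left _ _).trans (le_max_right _ _)).trans hn
  have hn1' : n₁ ≤ n := ((le_max_right _ _).trans (le_max_right _ _)).trans hn
  have hnr : (1 : ℝ) ≤ n := by exact_mod_cast hn1
  obtain ⟨m, σ, J, hL, hE, hQ'⟩ := hq n hn1'
  obtain ⟨x, θ, T, s1, s2, ρ, δ, hg, -, h1, h2, h3, -, h4, h5, h6, -, h7, h8', h9, h10, h11, hS⟩ :=
    hout n hn0' m σ J hL hV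
  have hk : 0 < R1C.kk n β := H946.kk_pos (by omega) hβ
  have hxy : x ≤ (n : ℝ) ^ (-(1 / 12) : ℝ) :=
    h9.trans (Real.rpow_le_rpow_of_exponent_le hnr (by linarith))
  have hE' : Exs m J x := hE.mono h7 hxy
  refine ⟨T, ρ, x, ⟨a, m, σ, J, θ, s1, s2, δ, hk, hE', ha, hQ', hL, hg, h1, h2, h8',
    hS (R1S.deepCS n hk σ hE') rfl rfl⟩, h3, h4, h5, h6, h8', h9, ?_, h11⟩
  exact (Real.rpow_le_rpow_of_exponent_le hnr (by linarith)).trans h10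

end Vale.Agent.P146.H260.V14
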