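import Vale.Agent.P146.H260.V14R
import Vale.Agent.P146.H737.VB

/-!
# P146: moderate deviations of the free energy above its mean, at all scales

From two-sided bounds `n^(1-ε) x^6 ≤ log E exp (x (F - E F)) ≤ n^(1+ε) x^6` to
`exp (-n^(1+ε) s^(6/5)) ≤ P (F ≥ E F + n s) ≤ exp (-n^(1-ε) s^(6/5))`.
-/

open MeasureTheory ProbabilityTheory Filter Topology

namespace Vale.Agent.P146.H260.Dev

open Vale.Agent.P146 Vale.Agent.P146.H605 Vale.Agent.P146.H260.V13 Vale.Agent.P146.H260.V14

/-- The cumulant generating function of the free energy about its mean. -/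
noncomputable def cum (β : ℝ) (n : ℕ) (x : ℝ) : ℝ :=
  Real.log (∫ g, Real.exp (x * (freeEnergy n β g - ∫ h, freeEnergy n β h ∂(disorder n)))
    ∂(disorder n))

lemma int_exp (n : ℕ) (β x E : ℝ) :
    Integrable (fun g => Real.exp (x * (freeEnergy n β g - E))) (disorder n) := by
  have h2 := (int_exp_sk n β x).const_mul (Real.exp (-(x * E)))
  refine h2.congr (Filter.Eventually.of_forall fun g => ?_)
  simp only
  rw [← Real.exp_add]
  congr 1
  ring

lemma prob (n : ℕ) : IsProbabilityMeasure (disorder n) := by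
  unfold disorder
  infer_instance

lemma int_F (n : ℕ) (β : ℝ) : Integrable (freeEnergy n β) (disorder n) := by
  have hd : disorder n = Vale.Agent.P157.Lv.gI (Pair n) := rfl
  have hf : freeEnergy n β = H332.lz (β / √n) (H325.SkS (n := n)) := by
    funext g
    exact H332.freeEnergy_eq β g
  rw [hd, hf]
  exact (H332.c11_lz (β / √n) (H325.SkS (n := n))).eg.integrable

lemma int_pos (n : ℕ) (β x E : ℝ) :
    0 < ∫ g, Real.exp (x * (freeEnergy n β g - E)) ∂(disorder n) := by
  have := prob n
  exact integral_exp_pos (int_exp n β x E)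

lemma exp_cum (β : ℝ) (n : ℕ) (x : ℝ) :
    Real.exp (cum β n x) = ∫ g, Real.exp (x * (freeEnergy n β g -
      ∫ h, freeEnergy n β h ∂(disorder n))) ∂(disorder n) :=
  Real.exp_log (int_pos n β x _)

/-- the mean of the exponential is at least one -/
lemma cum_nonneg (β : ℝ) (n : ℕ) (x : ℝ) : 0 ≤ cum β n x := by
  have := prob n
  have hF : Integrable (freeEnergy n β) (disorder n) := int_F n β
  have h1 : ∫ g, x * (freeEnergy n β g - ∫ h, freeEnergy n β h ∂(disorder n)) ∂(disorder n) = 0 := by
    rw [integral_const_mul, integral_sub hF (integrable_const _)]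
    simp
  have hi : Integrable (fun g => x * (freeEnergy n β g - ∫ h, freeEnergy n β h ∂(disorder n)))
      (disorder n) := (hF.sub (integrable_const _)).const_mul x
  have h2 : ∫ g, ((1 : ℝ) + x * (freeEnergy n β g - ∫ h, freeEnergy n β h ∂(disorder n)))
      ∂(disorder n) ≤ ∫ g, Real.exp (x * (freeEnergy n β g -
      ∫ h, freeEnergy n β h ∂(disorder n))) ∂(disorder n) := by
    refine integral_mono ((integrable_const (1 : ℝ)).add hi) (int_exp n β x _) fun g => ?_
    have := Real.add_one_le_exp (x * (freeEnergy n β g - ∫ h, freeEnergy n β h ∂(disorder n)))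
    simp only
    linarith
  have h3 := integral_add (μ := disorder n) (integrable_const (1 : ℝ)) hi
  rw [h1] at h3
  simp only [integral_const, probReal_univ, smul_eq_mul, mul_one, add_zero] at h3
  rw [h3] at h2
  exact Real.log_nonneg h2

/-- `cum x / x` is nondecreasing. -/
lemma cum_scale (β : ℝ) (n : ℕ) {x y : ℝ} (hx : 0 < x) (hxy : x ≤ y) :
    y / x * cum β n x ≤ cum β n y := by
  have := prob n
  have hp : 1 ≤ y / x := by rwa [le_div_iff₀ hx, one_mul]
  have e : ∀ g, Real.exp (y * (freeEnergy n β g - ∫ h, freeEnergy n β h ∂(disorder n))) =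
      (Real.exp (x * (freeEnergy n β g - ∫ h, freeEnergy n β h ∂(disorder n)))) ^ (y / x) := by
    intro g
    rw [← Real.exp_mul]
    congr 1
    field_simp
  have h := ConvexOn.map_integral_le (μ := disorder n) (convexOn_rpow hp)
    (Real.continuous_rpow_const (by positivity)).continuousOn isClosed_Ici
    (f := fun g => Real.exp (x * (freeEnergy n β g - ∫ h, freeEnergy n β h ∂(disorder n))))
    (Filter.Eventually.of_forall fun g => (Real.exp_pos _).le) (int_exp n β x _)
    ((int_exp n β y (∫ h, freeEnergy n β h ∂(disorder n))).congr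
      (Filter.Eventually.of_forall fun g => e g))
  simp only [← e] at h
  rw [← exp_cum, ← exp_cum, ← Real.exp_mul, Real.exp_le_exp] at h
  linarith

/-- the centring -/
lemma cum_shift (β : ℝ) (n : ℕ) (x E : ℝ) :
    cum β n x = Real.log (∫ g, Real.exp (x * (freeEnergy n β g - E)) ∂(disorder n)) +
      x * (E - ∫ h, freeEnergy n β h ∂(disorder n)) := by
  have e : ∀ g, Real.exp (x * (freeEnergy n β g - ∫ h, freeEnergy n β h ∂(disorder n))) =
      Real.exp (x * (freeEnergy n β g - E)) *
        Real.exp (x * (E - ∫ h, freeEnergy n β h ∂(disorder n))) := by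
    intro g
    rw [← Real.exp_add]
    congr 1
    ring
  unfold cum
  simp only [e]
  rw [integral_mul_const, Real.log_mul (int_pos n β x E).ne' (Real.exp_pos _).ne', Real.log_exp]

/-- a linear bound -/
lemma cum_le_lin {β : ℝ} {n : ℕ} (hn : 1 ≤ n) {x : ℝ} (hx : 0 < x) :
    cum β n x ≤ x ^ 2 / 2 * (β ^ 2 / 2 * n) := by
  have h1 := mgf_both (β := β) hn hx (le_refl x)
  rw [← exp_cum, Real.exp_le_exp] at h1
  exact h1.trans (mul_le_mul_of_nonneg_left (VX_le_lin (by omega) hx) (by positivity))

/-- **Paley-Zygmund.** -/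
lemma pz (β : ℝ) (n : ℕ) {x u : ℝ} (hx : 0 < x) (hu : x * u ≤ cum β n x - Real.log 2) :
    1 / 4 * Real.exp (-cum β n (2 * x)) ≤
      (disorder n).real {g | ∫ h, freeEnergy n β h ∂(disorder n) + u ≤ freeEnergy n β g} := by
  have := prob n
  obtain ⟨E, hE⟩ : ∃ E, E = ∫ h, freeEnergy n β h ∂(disorder n) := ⟨_, rfl⟩
  have hc1 := exp_cum β n x
  have hc2 := exp_cum β n (2 * x)
  rw [← hE] at hc1 hc2
  obtain ⟨m, hm⟩ : ∃ m, m = Real.exp (cum β n x) := ⟨_, rfl⟩
  obtain ⟨q, hq⟩ : ∃ q, q = Real.exp (cum β n (2 * x)) := ⟨_, rfl⟩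
  have hm0 : 0 < m := by rw [hm]; exact Real.exp_pos _
  have hq0 : 0 < q := by rw [hq]; exact Real.exp_pos _
  have hm1 : 1 ≤ m := by rw [hm]; exact Real.one_le_exp (cum_nonneg β n x)
  obtain ⟨l, hl⟩ : ∃ l, l = 2 * q / m := ⟨_, rfl⟩
  have hl0 : 0 < l := by rw [hl]; positivity
  obtain ⟨A, hA⟩ : ∃ A : Set (Pair n → ℝ), A = {g | m / 2 ≤ Real.exp (x * (freeEnergy n β g - E))} :=
    ⟨_, rfl⟩
  have hcF : Measurable (freeEnergy n β) := by
    have hf : freeEnergy n β = H332.lz (β / √n) (H325.SkS (n := n)) := by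
      funext g
      exact H332.freeEnergy_eq β g
    rw [hf]
    exact (H332.c11_lz (β / √n) (H325.SkS (n := n))).eg.meas
  have hAm : MeasurableSet A := by
    rw [hA]
    exact measurableSet_le measurable_const
      (Real.measurable_exp.comp ((hcF.sub_const E).const_mul x))
  have hpt : ∀ g, Real.exp (x * (freeEnergy n β g - E)) ≤ m / 2 +
      (l / 2 * A.indicator (fun _ => (1 : ℝ)) g +
        1 / (2 * l) * Real.exp (2 * x * (freeEnergy n β g - E))) := by
    intro g
    have e2 : Real.exp (2 * x * (freeEnergy n β g - E)) =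
        Real.exp (x * (freeEnergy n β g - E)) ^ 2 := by
      rw [← Real.exp_nat_mul]
      congr 1
      push_cast
      ring
    rw [e2]
    obtain ⟨y, hy⟩ : ∃ y, y = Real.exp (x * (freeEnergy n β g - E)) := ⟨_, rfl⟩
    rw [← hy]
    have hy0 : 0 ≤ y := by rw [hy]; exact (Real.exp_pos _).le
    by_cases hg : g ∈ A
    · rw [Set.indicator_of_mem hg]
      have h1 : 0 ≤ (y - l) ^ 2 / (2 * l) := by positivity
      have h2 : (y - l) ^ 2 / (2 * l) = 1 / (2 * l) * y ^ 2 - y + l / 2 := by
        field_simp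
        ring
      rw [h2] at h1
      linarith
    · rw [Set.indicator_of_notMem hg]
      have h3 : y < m / 2 := by
        rw [hA] at hg
        simp only [Set.mem_ofPred_eq, not_le] at hg
        rwa [hy]
      have h4 : 0 ≤ 1 / (2 * l) * y ^ 2 := by positivity
      linarith
  have hi2 : Integrable (fun g => l / 2 * A.indicator (fun _ => (1 : ℝ)) g) (disorder n) :=
    ((integrable_const (1 : ℝ)).indicator hAm).const_mul _
  have hi3 : Integrable (fun g => 1 / (2 * l) * Real.exp (2 * x * (freeEnergy n β g - E)))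
      (disorder n) := (int_exp n β (2 * x) E).const_mul _
  have h5 : ∫ g, Real.exp (x * (freeEnergy n β g - E)) ∂(disorder n) ≤
      ∫ g, (m / 2 + (l / 2 * A.indicator (fun _ => (1 : ℝ)) g +
        1 / (2 * l) * Real.exp (2 * x * (freeEnergy n β g - E)))) ∂(disorder n) :=
    integral_mono (int_exp n β x E) ((integrable_const (m / 2)).add (hi2.add hi3)) hpt
  rw [← hc1, ← hm] at h5
  have h6 : ∫ g, (m / 2 + (l / 2 * A.indicator (fun _ => (1 : ℝ)) g +
        1 / (2 * l) * Real.exp (2 * x * (freeEnergy n β g - E)))) ∂(disorder n) =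
      m / 2 + (l / 2 * (disorder n).real A + 1 / (2 * l) * q) := by
    have k1 := integral_add (μ := disorder n) (integrable_const (m / 2)) (hi2.add hi3)
    have k2 := integral_add (μ := disorder n) hi2 hi3
    simp only [Pi.add_apply] at k1 k2
    rw [k1, k2, integral_const_mul, integral_const_mul, integral_indicator_const _ hAm, ← hc2, ← hq]
    simp
  rw [h6] at h5
  have h7 : 1 / (2 * l) * q = m / 4 := by
    rw [hl]
    field_simp
    ring
  have h8 : l / 2 * (disorder n).real A = q / m * (disorder n).real A := by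
    rw [hl]
    ring
  rw [h7, h8] at h5
  have h9 : m / 4 ≤ q / m * (disorder n).real A := by linarith
  have h10 : 1 / 4 * (1 / q) ≤ (disorder n).real A := by
    have h11 : m / 4 * (m / q) ≤ q / m * (disorder n).real A * (m / q) :=
      mul_le_mul_of_nonneg_right h9 (by positivity)
    have e1 : q / m * (disorder n).real A * (m / q) = (disorder n).real A := by
      field_simp
    have e2 : m / 4 * (m / q) = 1 / 4 * (m ^ 2 / q) := by ring
    rw [e1, e2] at h11
    refine le_trans ?_ h11
    have : 1 ≤ m ^ 2 := one_le_pow₀ hm1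
    gcongr
  have h12 : Real.exp (-cum β n (2 * x)) = 1 / q := by
    rw [hq, Real.exp_neg, one_div]
  rw [h12]
  refine h10.trans (measureReal_mono fun g hg => ?_)
  rw [hA] at hg
  simp only [Set.mem_ofPred_eq] at hg ⊢
  rw [← hE]
  have h13 : Real.exp (cum β n x - Real.log 2) ≤ Real.exp (x * (freeEnergy n β g - E)) := by
    rw [Real.exp_sub, Real.exp_log (by norm_num : (0 : ℝ) < 2), ← hm]
    exact hg
  have h14 := hu.trans (Real.exp_le_exp.1 h13)
  have h15 := le_of_mul_le_mul_left h14 hx
  linarith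

end Vale.Agent.P146.H260.Dev
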