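import Vale.Agent.P146.H260.Dev

set_option linter.all false

/-!
# P146: moderate deviations of the free energy above its mean, at all scales
-/

open MeasureTheory ProbabilityTheory Filter Topology

namespace Vale.Agent.P146.H260.Dev

open Vale.Agent.P146 Vale.Agent.P146.H605

/-- The upper bound of the cumulants for `n ^ (-(1 / 6)) ≤ x ≤ n ^ (-a)`. -/
def UpA (β a : ℝ) : Prop := ∀ ε : ℝ, 0 < ε → ∀ᶠ n : ℕ in atTop, ∀ x : ℝ,
  (n : ℝ) ^ (-(1 / 6) : ℝ) ≤ x → x ≤ (n : ℝ) ^ (-a) → cum β n x ≤ (n : ℝ) ^ (1 + ε) * x ^ 6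

/-- The lower bound of the cumulants for `n ^ (-(1 / 6) + ε) ≤ x ≤ n ^ (-a)`. -/
def LoA (β a : ℝ) : Prop := ∀ ε : ℝ, 0 < ε → ∀ᶠ n : ℕ in atTop, ∀ x : ℝ,
  (n : ℝ) ^ (-(1 / 6) + ε : ℝ) ≤ x → x ≤ (n : ℝ) ^ (-a) → (n : ℝ) ^ (1 - ε) * x ^ 6 ≤ cum β n x

/-- a logarithm against a power -/
lemma log_ev {e : ℝ} (he : 0 < e) (K : ℝ) :
    ∀ᶠ n : ℕ in atTop, K * (1 + Real.log n) ^ 3 ≤ (n : ℝ) ^ e := by
  have h1 : ∀ᶠ x : ℝ in atTop, ‖Real.log x‖ ≤ 1 * ‖x ^ (e / 6)‖ :=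
    (isLittleO_log_rpow_atTop (show 0 < e / 6 by positivity)).bound one_pos
  have h2 := tendsto_natCast_atTop_atTop (R := ℝ) |>.eventually h1
  have h3 := ((tendsto_rpow_atTop (show 0 < e / 2 by positivity)).comp
    (tendsto_natCast_atTop_atTop (R := ℝ))).eventually_ge_atTop (8 * |K|)
  filter_upwards [h2, h3, eventually_ge_atTop 1] with n g1 g2 g3
  have hn1 : (1 : ℝ) ≤ n := by exact_mod_cast g3
  have hn0 : (0 : ℝ) < n := by linarith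
  simp only [Function.comp] at g2
  have hl : 0 ≤ Real.log n := Real.log_nonneg hn1
  rw [Real.norm_of_nonneg hl, Real.norm_of_nonneg (by positivity), one_mul] at g1
  have hp : 1 ≤ (n : ℝ) ^ (e / 6) := Real.one_le_rpow hn1 (by positivity)
  have h4 : (1 + Real.log n) ^ 3 ≤ (2 * (n : ℝ) ^ (e / 6)) ^ 3 :=
    pow_le_pow_left₀ (by linarith) (by linarith) 3
  have h5 : (2 * (n : ℝ) ^ (e / 6)) ^ 3 = 8 * (n : ℝ) ^ (e / 2) := by
    rw [mul_pow, ← Real.rpow_natCast ((n : ℝ) ^ (e / 6)), ← Real.rpow_mul hn0.le]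
    norm_num
    ring_nf
  have h6 : (n : ℝ) ^ e = (n : ℝ) ^ (e / 2) * (n : ℝ) ^ (e / 2) := by
    rw [← Real.rpow_add hn0]
    ring_nf
  have h7 : 0 < (n : ℝ) ^ (e / 2) := Real.rpow_pos_of_pos hn0 _
  calc K * (1 + Real.log n) ^ 3 ≤ |K| * (8 * (n : ℝ) ^ (e / 2)) := by
        rw [← h5]
        exact mul_le_mul (le_abs_self K) h4 (by positivity) (abs_nonneg K)
    _ = 8 * |K| * (n : ℝ) ^ (e / 2) := by ring
    _ ≤ (n : ℝ) ^ (e / 2) * (n : ℝ) ^ (e / 2) := mul_le_mul_of_nonneg_right g2 h7.le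
    _ = (n : ℝ) ^ e := h6.symm

/-- **The cumulants at the large scales.** -/
theorem mid {β : ℝ} (hβ : 1 < β) {a : ℝ} (ha0 : 0 < a) (ha : a < 1 / 15) :
    ∃ c C : ℝ, 0 < c ∧ 0 < C ∧ ∀ᶠ n : ℕ in atTop, ∀ x : ℝ, (n : ℝ) ^ (-a) ≤ x → x ≤ 1 →
      c * n * x ^ 6 ≤ cum β n x ∧ cum β n x ≤ C * n * x ^ 6 := by
  obtain ⟨Λ, -, h⟩ := H737.bounds4
  obtain ⟨hΛ, p, D, -, hmom, hM⟩ := h β hβ
  obtain ⟨δ₀, hδ₀, hev⟩ := hmom (Λ β / 2) (by positivity) a ha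
  obtain ⟨δ, hδ⟩ : ∃ δ, δ = min δ₀ 1 := ⟨_, rfl⟩
  have hδ0 : 0 < δ := by rw [hδ]; exact lt_min hδ₀ one_pos
  have hδδ : δ ≤ δ₀ := by rw [hδ]; exact min_le_left _ _
  have hδ1 : δ ≤ 1 := by rw [hδ]; exact min_le_right _ _
  have h5 : 0 < 1 / 3 - 5 * a := by linarith
  refine ⟨Λ β / 2 * δ ^ 6, 3 * Λ β / 2 + 1 + β ^ 2 / (4 * δ ^ 6), by positivity, by positivity, ?_⟩
  have hev2 := ((tendsto_rpow_neg_atTop ha0).comp
    (tendsto_natCast_atTop_atTop (R := ℝ))).eventually_le_const hδ0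
  filter_upwards [hev, hev2, log_ev h5 D, eventually_ge_atTop 1] with n g1 g2 g3 g4
  simp only [Function.comp] at g2
  have hn1 : (1 : ℝ) ≤ n := by exact_mod_cast g4
  have hn0 : (0 : ℝ) < n := by linarith
  obtain ⟨g1, -⟩ := g1
  obtain ⟨m1, m2, -, -⟩ := hM n g4
  -- the range of the moment law
  have key : ∀ x : ℝ, (n : ℝ) ^ (-a) ≤ x → x ≤ δ → Λ β / 2 * n * x ^ 6 ≤ cum β n x ∧
      cum β n x ≤ (3 * Λ β / 2 + 1) * n * x ^ 6 := by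
    intro x hx hxδ
    have hx0 : 0 < x := (Real.rpow_pos_of_pos hn0 _).trans_le hx
    have e := cum_shift β n x (n * p)
    have g5 := abs_le.1 (g1 x hx (hxδ.trans hδδ))
    have g6 : 0 ≤ x * (n * p - ∫ h, freeEnergy n β h ∂(disorder n)) := mul_nonneg hx0.le m1
    have g7 : x * (n * p - ∫ h, freeEnergy n β h ∂(disorder n)) ≤ n * x ^ 6 := by
      have g8 : D * (n : ℝ) ^ (2 / 3 : ℝ) * (1 + Real.log n) ^ 3 ≤ n * x ^ 5 := by
        have g9 : (n : ℝ) ^ (2 / 3 : ℝ) * (n : ℝ) ^ (1 / 3 - 5 * a) = n * ((n : ℝ) ^ (-a)) ^ 5 := by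
          rw [← Real.rpow_natCast ((n : ℝ) ^ (-a)), ← Real.rpow_mul hn0.le, ← Real.rpow_add hn0]
          have : (n : ℝ) * (n : ℝ) ^ (-a * ((5 : ℕ) : ℝ)) = (n : ℝ) ^ (1 + -a * ((5 : ℕ) : ℝ)) := by
            rw [Real.rpow_add hn0, Real.rpow_one]
          rw [this]
          congr 1
          push_cast
          ring
        calc D * (n : ℝ) ^ (2 / 3 : ℝ) * (1 + Real.log n) ^ 3 =
              (n : ℝ) ^ (2 / 3 : ℝ) * (D * (1 + Real.log n) ^ 3) := by ring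
          _ ≤ (n : ℝ) ^ (2 / 3 : ℝ) * (n : ℝ) ^ (1 / 3 - 5 * a) :=
              mul_le_mul_of_nonneg_left g3 (by positivity)
          _ = n * ((n : ℝ) ^ (-a)) ^ 5 := g9
          _ ≤ n * x ^ 5 := by
              have := pow_le_pow_left₀ (Real.rpow_pos_of_pos hn0 (-a)).le hx 5
              exact mul_le_mul_of_nonneg_left this hn0.le
      calc x * (n * p - ∫ h, freeEnergy n β h ∂(disorder n)) ≤ x * (n * x ^ 5) :=
            mul_le_mul_of_nonneg_left (m2.trans g8) hx0.le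
        _ = n * x ^ 6 := by ring
    have g10 : 0 < Λ β * n * x ^ 6 := by positivity
    constructor
    · rw [e]
      linarith [g5.1]
    · rw [e]
      have : (3 * Λ β / 2 + 1) * n * x ^ 6 = Λ β * n * x ^ 6 + Λ β / 2 * n * x ^ 6 + n * x ^ 6 := by
        ring
      rw [this]
      linarith [g5.2]
  intro x hx hx1
  have hx0 : 0 < x := (Real.rpow_pos_of_pos hn0 _).trans_le hx
  have hnx : 0 < n * x ^ 6 := by positivity
  by_cases hxδ : x ≤ δ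
  · obtain ⟨k1, k2⟩ := key x hx hxδ
    constructor
    · refine le_trans ?_ k1
      have : δ ^ 6 ≤ 1 := pow_le_one₀ hδ0.le hδ1
      have h6 : Λ β / 2 * (n * x ^ 6) * δ ^ 6 ≤ Λ β / 2 * (n * x ^ 6) * 1 :=
        mul_le_mul_of_nonneg_left this (by positivity)
      linarith
    · refine k2.trans ?_
      have : 0 ≤ β ^ 2 / (4 * δ ^ 6) * (n * x ^ 6) := by positivity
      linarith
  · push Not at hxδ
    obtain ⟨k1, -⟩ := key δ g2 le_rfl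
    constructor
    · have h6 := cum_scale β n hδ0 hxδ.le
      have h7 : cum β n δ ≤ x / δ * cum β n δ := by
        have h8 : 1 ≤ x / δ := by rw [le_div_iff₀ hδ0, one_mul]; exact hxδ.le
        exact le_mul_of_one_le_left (cum_nonneg β n δ) h8
      refine le_trans ?_ (k1.trans (h7.trans h6))
      have h9 : x ^ 6 ≤ 1 := pow_le_one₀ hx0.le hx1
      have h10 : Λ β / 2 * n * δ ^ 6 * x ^ 6 ≤ Λ β / 2 * n * δ ^ 6 * 1 :=
        mul_le_mul_of_nonneg_left h9 (by positivity)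
      linarith
    · refine (cum_le_lin g4 hx0).trans ?_
      have h6 : x ^ 2 ≤ 1 := pow_le_one₀ hx0.le hx1
      have h7 : δ ^ 6 ≤ x ^ 6 := pow_le_pow_left₀ hδ0.le hxδ.le 6
      have h8 : x ^ 2 / 2 * (β ^ 2 / 2 * n) ≤ β ^ 2 / 4 * n := by
        have : x ^ 2 * (β ^ 2 / 4 * n) ≤ 1 * (β ^ 2 / 4 * n) :=
          mul_le_mul_of_nonneg_right h6 (by positivity)
        linarith
      have h9 : β ^ 2 / 4 * n ≤ β ^ 2 / (4 * δ ^ 6) * (n * x ^ 6) := by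
        have e1 : β ^ 2 / 4 * n = β ^ 2 / (4 * δ ^ 6) * (n * δ ^ 6) := by
          field_simp
        rw [e1]
        gcongr
      have h10 : 0 ≤ (3 * Λ β / 2 + 1) * (n * x ^ 6) := by positivity
      linarith

/-- The upper bound at all scales. -/
theorem up_all {β : ℝ} (hβ : 1 < β) {a : ℝ} (ha0 : 0 < a) (ha : a < 1 / 15) (h : UpA β a)
    {ε : ℝ} (hε : 0 < ε) : ∀ᶠ n : ℕ in atTop, ∀ x : ℝ,
      (n : ℝ) ^ (-(1 / 6) : ℝ) ≤ x → x ≤ 1 → cum β n x ≤ (n : ℝ) ^ (1 + ε) * x ^ 6 := by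
  obtain ⟨c, C, hc, hC, hmid⟩ := mid hβ ha0 ha
  have hev := ((tendsto_rpow_atTop hε).comp
    (tendsto_natCast_atTop_atTop (R := ℝ))).eventually_ge_atTop C
  filter_upwards [h ε hε, hmid, hev, eventually_ge_atTop 1] with n g1 g2 g3 g4 x hx hx1
  simp only [Function.comp] at g3
  have hn1 : (1 : ℝ) ≤ n := by exact_mod_cast g4
  have hn0 : (0 : ℝ) < n := by linarith
  have hx0 : 0 < x := (Real.rpow_pos_of_pos hn0 _).trans_le hx
  rcases le_total x ((n : ℝ) ^ (-a)) with h1 | h1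
  · exact g1 x hx h1
  · refine (g2 x h1 hx1).2.trans ?_
    rw [Real.rpow_add hn0, Real.rpow_one]
    have := mul_le_mul_of_nonneg_right g3 (by positivity : 0 ≤ n * x ^ 6)
    linarith

/-- The lower bound at all scales. -/
theorem lo_all {β : ℝ} (hβ : 1 < β) {a : ℝ} (ha0 : 0 < a) (ha : a < 1 / 15) (h : LoA β a)
    {ε : ℝ} (hε : 0 < ε) : ∀ᶠ n : ℕ in atTop, ∀ x : ℝ,
      (n : ℝ) ^ (-(1 / 6) + ε : ℝ) ≤ x → x ≤ 1 → (n : ℝ) ^ (1 - ε) * x ^ 6 ≤ cum β n x := by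
  obtain ⟨c, C, hc, hC, hmid⟩ := mid hβ ha0 ha
  have hev := ((tendsto_rpow_atTop hε).comp
    (tendsto_natCast_atTop_atTop (R := ℝ))).eventually_ge_atTop (1 / c)
  filter_upwards [h ε hε, hmid, hev, eventually_ge_atTop 1] with n g1 g2 g3 g4 x hx hx1
  simp only [Function.comp] at g3
  have hn1 : (1 : ℝ) ≤ n := by exact_mod_cast g4
  have hn0 : (0 : ℝ) < n := by linarith
  have hx0 : 0 < x := (Real.rpow_pos_of_pos hn0 _).trans_le hx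
  rcases le_total x ((n : ℝ) ^ (-a)) with h1 | h1
  · exact g1 x hx h1
  · refine le_trans ?_ (g2 x h1 hx1).1
    have h2 : (n : ℝ) ^ (1 - ε) = n * (1 / (n : ℝ) ^ ε) := by
      rw [Real.rpow_sub hn0, Real.rpow_one]
      ring
    have h3 : 1 / (n : ℝ) ^ ε ≤ c := by
      rw [div_le_iff₀ (Real.rpow_pos_of_pos hn0 _)]
      rw [div_le_iff₀ hc] at g3
      linarith
    rw [h2]
    have := mul_le_mul_of_nonneg_right h3 (by positivity : 0 ≤ n * x ^ 6)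
    linarith

/-- **The upper tail, upper bound.** -/
theorem tail_up {β : ℝ} (h : ∀ ε : ℝ, 0 < ε → ∀ᶠ n : ℕ in atTop, ∀ x : ℝ,
      (n : ℝ) ^ (-(1 / 6) : ℝ) ≤ x → x ≤ 1 → cum β n x ≤ (n : ℝ) ^ (1 + ε) * x ^ 6)
    {ε : ℝ} (hε : 0 < ε) : ∀ᶠ n : ℕ in atTop, ∀ s : ℝ,
      (n : ℝ) ^ (-(5 / 6) + ε : ℝ) ≤ s → s ≤ 1 →
      (disorder n).real {g | ∫ h, freeEnergy n β h ∂(disorder n) + n * s ≤ freeEnergy n β g} ≤
        Real.exp (-((n : ℝ) ^ (1 - ε) * s ^ (6 / 5 : ℝ))) := by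
  obtain ⟨e, he⟩ : ∃ e, e = ε / 5 := ⟨_, rfl⟩
  have he0 : 0 < e := by rw [he]; positivity
  have hev := ((tendsto_rpow_atTop (show 0 < 4 * e by positivity)).comp
    (tendsto_natCast_atTop_atTop (R := ℝ))).eventually_ge_atTop 2
  filter_upwards [h e he0, hev, eventually_ge_atTop 1] with n g1 g2 g3 s hs hs1
  simp only [Function.comp] at g2
  have hn1 : (1 : ℝ) ≤ n := by exact_mod_cast g3
  have hn0 : (0 : ℝ) < n := by linarith
  have hs0 : 0 < s := (Real.rpow_pos_of_pos hn0 _).trans_le hs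
  obtain ⟨y, hy⟩ : ∃ y, y = s ^ (1 / 5 : ℝ) := ⟨_, rfl⟩
  have hy0 : 0 < y := by rw [hy]; exact Real.rpow_pos_of_pos hs0 _
  have hy5 : y ^ 5 = s := by
    rw [hy, ← Real.rpow_natCast, ← Real.rpow_mul hs0.le]
    norm_num
  have hy6 : y ^ 6 = s ^ (6 / 5 : ℝ) := by
    rw [hy, ← Real.rpow_natCast, ← Real.rpow_mul hs0.le]
    norm_num
  have hy1 : y ≤ 1 := by rw [hy]; exact Real.rpow_le_one hs0.le hs1 (by norm_num)
  have hyl : (n : ℝ) ^ (-(1 / 6) + e : ℝ) ≤ y := by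
    rw [hy]
    have h1 := Real.rpow_le_rpow (Real.rpow_pos_of_pos hn0 _).le hs (by norm_num : (0 : ℝ) ≤ 1 / 5)
    rw [← Real.rpow_mul hn0.le] at h1
    refine le_trans (le_of_eq ?_) h1
    congr 1
    rw [he]
    ring
  obtain ⟨x, hx⟩ : ∃ x, x = (n : ℝ) ^ (-e) * y := ⟨_, rfl⟩
  have hxl : (n : ℝ) ^ (-(1 / 6) : ℝ) ≤ x := by
    rw [hx]
    have h1 := mul_le_mul_of_nonneg_left hyl (Real.rpow_pos_of_pos hn0 (-e)).le
    rw [← Real.rpow_add hn0] at h1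
    refine le_trans (le_of_eq ?_) h1
    congr 1
    ring
  have hxy : x ≤ y := by
    rw [hx]
    exact mul_le_of_le_one_left hy0.le (Real.rpow_le_one_of_one_le_of_nonpos hn1 (by linarith))
  have hx0 : 0 < x := (Real.rpow_pos_of_pos hn0 _).trans_le hxl
  have g4 := g1 x hxl (hxy.trans hy1)
  have g5 : ∫ g, Real.exp (x * (freeEnergy n β g - ∫ h, freeEnergy n β h ∂(disorder n)))
      ∂(disorder n) ≤ Real.exp ((n : ℝ) ^ (1 + e) * x ^ 6) := by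
    rw [← exp_cum]
    exact Real.exp_le_exp.2 g4
  refine (V13.chernoff_up hx0.le g5).trans (Real.exp_le_exp.2 ?_)
  -- the exponents
  obtain ⟨Z, hZ⟩ : ∃ Z, Z = (n : ℝ) * y ^ 6 := ⟨_, rfl⟩
  have hZ0 : 0 < Z := by rw [hZ]; positivity
  have k1 : (n : ℝ) ^ (1 + e) * x ^ 6 = (n : ℝ) ^ (-(5 * e)) * Z := by
    rw [hx, hZ, mul_pow, ← Real.rpow_natCast ((n : ℝ) ^ (-e)), ← Real.rpow_mul hn0.le,
      show (n : ℝ) ^ (1 + e) = n * (n : ℝ) ^ e by rw [Real.rpow_add hn0, Real.rpow_one]]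
    have : (n : ℝ) ^ (-(5 * e)) = (n : ℝ) ^ e * (n : ℝ) ^ (-e * ((6 : ℕ) : ℝ)) := by
      rw [← Real.rpow_add hn0]
      congr 1
      push_cast
      ring
    rw [this]
    ring
  have k2 : x * (n * s) = (n : ℝ) ^ (-e) * Z := by
    rw [hx, hZ, ← hy5]
    ring
  have k3 : (n : ℝ) ^ (1 - ε) * s ^ (6 / 5 : ℝ) = (n : ℝ) ^ (-(5 * e)) * Z := by
    rw [hZ, ← hy6, show (n : ℝ) ^ (1 - ε) = n * (n : ℝ) ^ (-(5 * e)) by
      rw [show 1 - ε = 1 + -(5 * e) by rw [he]; ring, Real.rpow_add hn0, Real.rpow_one]]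
    ring
  have k4 : 2 * (n : ℝ) ^ (-(5 * e)) ≤ (n : ℝ) ^ (-e) := by
    have : (n : ℝ) ^ (-e) = (n : ℝ) ^ (4 * e) * (n : ℝ) ^ (-(5 * e)) := by
      rw [← Real.rpow_add hn0]
      congr 1
      ring
    rw [this]
    exact mul_le_mul_of_nonneg_right g2 (Real.rpow_pos_of_pos hn0 _).le
  rw [k1, k2, k3]
  have := mul_le_mul_of_nonneg_right k4 hZ0.le
  linarith

/-- one scale of the lower bound -/
lemma low_gen {β : ℝ} {n : ℕ} {x L U s : ℝ} (hx : 0 < x) (hL : L * x ^ 6 ≤ cum β n x)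
    (hU : cum β n (2 * x) ≤ U * x ^ 6) (hs : n * s = L * x ^ 5 / 2) (h2 : 2 ≤ L * x ^ 6) :
    1 / 4 * Real.exp (-(U * x ^ 6)) ≤
      (disorder n).real {g | ∫ h, freeEnergy n β h ∂(disorder n) + n * s ≤ freeEnergy n β g} := by
  have h3 : Real.log 2 ≤ 1 := by
    have := Real.log_two_lt_d9
    linarith
  refine le_trans ?_ (pz β n (u := n * s) hx ?_)
  · have := Real.exp_le_exp.2 (neg_le_neg hU)
    linarith
  · rw [hs]
    have e : x * (L * x ^ 5 / 2) = L * x ^ 6 / 2 := by ring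
    rw [e]
    linarith

/-- powers of a fifth root -/
lemma root5 {w : ℝ} (hw : 0 < w) (hw1 : 32 * w ≤ 1) : ∃ x : ℝ, 0 < x ∧ x ^ 5 = w ∧
    x ^ 6 = w ^ (6 / 5 : ℝ) ∧ 2 * x ≤ 1 ∧ x = w ^ (1 / 5 : ℝ) := by
  obtain ⟨x, hx⟩ : ∃ x, x = w ^ (1 / 5 : ℝ) := ⟨_, rfl⟩
  have hx0 : 0 < x := by rw [hx]; exact Real.rpow_pos_of_pos hw _
  have hx5 : x ^ 5 = w := by
    rw [hx, ← Real.rpow_natCast, ← Real.rpow_mul hw.le]
    norm_num
  have hx6 : x ^ 6 = w ^ (6 / 5 : ℝ) := by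
    rw [hx, ← Real.rpow_natCast, ← Real.rpow_mul hw.le]
    norm_num
  refine ⟨x, hx0, hx5, hx6, ?_, hx⟩
  by_contra hh
  push Not at hh
  have h1 : (1 : ℝ) ^ 5 < (2 * x) ^ 5 := pow_lt_pow_left₀ hh (by norm_num) (by norm_num)
  rw [mul_pow, hx5] at h1
  norm_num at h1
  linarith

lemma root_low {n r w x : ℝ} (hn : 0 < n) (hx : x = w ^ (1 / 5 : ℝ)) (h : n ^ (r * 5) ≤ w) :
    n ^ r ≤ x := by
  have h2 := Real.rpow_le_rpow (Real.rpow_pos_of_pos hn _).le h (by norm_num : (0 : ℝ) ≤ 1 / 5)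
  rw [← Real.rpow_mul hn.le, ← hx] at h2
  refine le_trans (le_of_eq ?_) h2
  congr 1
  ring

/-- exponents of a product -/
lemma fin_exp {N Q V y z : ℝ} (hQ : 1 ≤ Q) (hV : 1 ≤ V) (hN : 260 ≤ N)
    (hy : y ≤ 256 * (Q * V)) (hz : z = Q * (N * V)) : Real.exp (-z) ≤
      1 / 4 * Real.exp (-y) := by
  have hl4 : Real.log 4 ≤ 2 := by
    have h1 : (4 : ℝ) = 2 * 2 := by norm_num
    rw [h1, Real.log_mul (by norm_num) (by norm_num)]
    have := Real.log_two_lt_d9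
    linarith
  have h14 : (1 / 4 : ℝ) = Real.exp (-Real.log 4) := by
    rw [Real.exp_neg, Real.exp_log (by norm_num)]
    norm_num
  rw [h14, ← Real.exp_add]
  refine Real.exp_le_exp.2 ?_
  have h1 : 1 ≤ Q * V := by nlinarith
  have h2 : 260 * (Q * V) ≤ N * (Q * V) := mul_le_mul_of_nonneg_right hN (by linarith)
  rw [hz]
  have h3 : Q * (N * V) = N * (Q * V) := by ring
  rw [h3]
  linarith

/-- the small deviations -/
lemma low_small {β : ℝ} {n : ℕ} {e ε s : ℝ} (hn1 : (1 : ℝ) ≤ n) (he0 : 0 < e) (he : e = ε / 4)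
    (hs0 : 0 < s) (g1 : ∀ x : ℝ, (n : ℝ) ^ (-(1 / 6) : ℝ) ≤ x → x ≤ 1 →
      cum β n x ≤ (n : ℝ) ^ (1 + e) * x ^ 6)
    (g2 : ∀ x : ℝ, (n : ℝ) ^ (-(1 / 6) + e : ℝ) ≤ x → x ≤ 1 →
      (n : ℝ) ^ (1 - e) * x ^ 6 ≤ cum β n x) (g4 : 260 ≤ (n : ℝ) ^ e)
    (hs : (n : ℝ) ^ (-(5 / 6) + ε : ℝ) ≤ s) (hnS : 1 ≤ n * s ^ (6 / 5 : ℝ))
    (hne : (n : ℝ) ^ (1 + ε) * s ^ (6 / 5 : ℝ) =
      (n : ℝ) ^ (3 * e) * ((n : ℝ) ^ e * (n * s ^ (6 / 5 : ℝ))))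
    (hcase : 32 * (2 * (n : ℝ) ^ e * s) ≤ 1) :
    Real.exp (-((n : ℝ) ^ (1 + ε) * s ^ (6 / 5 : ℝ))) ≤
      (disorder n).real {g | ∫ h, freeEnergy n β h ∂(disorder n) + n * s ≤ freeEnergy n β g} := by
  have hn0 : (0 : ℝ) < n := by linarith
  obtain ⟨S, hS⟩ : ∃ S, S = s ^ (6 / 5 : ℝ) := ⟨_, rfl⟩
  have hS0 : 0 < S := by rw [hS]; exact Real.rpow_pos_of_pos hs0 _
  rw [← hS] at hnS hne ⊢
  obtain ⟨w, hw⟩ : ∃ w, w = 2 * (n : ℝ) ^ e * s := ⟨_, rfl⟩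
  have hw0 : 0 < w := by rw [hw]; positivity
  rw [← hw] at hcase
  obtain ⟨x, hx0, hx5, hx6, hx2, hx⟩ := root5 hw0 hcase
  have hxl : (n : ℝ) ^ (-(1 / 6) + e : ℝ) ≤ x := by
    refine root_low hn0 hx ?_
    rw [hw]
    have h2 : (n : ℝ) ^ ((-(1 / 6) + e) * 5 : ℝ) ≤ (n : ℝ) ^ e * (n : ℝ) ^ (-(5 / 6) + ε : ℝ) := by
      rw [← Real.rpow_add hn0]
      exact Real.rpow_le_rpow_of_exponent_le hn1 (by linarith)
    have h3 := mul_le_mul_of_nonneg_left hs (Real.rpow_pos_of_pos hn0 e).le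
    have h4 : 0 < (n : ℝ) ^ e * s := by positivity
    linarith
  have hx1 : x ≤ 1 := by linarith
  have q1 := g2 x hxl hx1
  have q2 := g1 (2 * x) (le_trans (Real.rpow_le_rpow_of_exponent_le hn1 (by linarith))
    (hxl.trans (by linarith))) hx2
  have q3 : (n : ℝ) ^ (1 + e) * (2 * x) ^ 6 = 64 * (n : ℝ) ^ (1 + e) * x ^ 6 := by ring
  rw [q3] at q2
  have hwS : w ^ (6 / 5 : ℝ) = 2 ^ (6 / 5 : ℝ) * (n : ℝ) ^ (e * (6 / 5)) * S := by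
    rw [hw, Real.mul_rpow (by positivity) hs0.le, Real.mul_rpow (by norm_num) (by positivity),
      ← Real.rpow_mul hn0.le, hS]
  have h26 : (2 : ℝ) ≤ 2 ^ (6 / 5 : ℝ) := by
    have := Real.rpow_le_rpow_of_exponent_le (by norm_num : (1 : ℝ) ≤ 2)
      (by norm_num : (1 : ℝ) ≤ 6 / 5)
    rwa [Real.rpow_one] at this
  have h26' : (2 : ℝ) ^ (6 / 5 : ℝ) ≤ 4 := by
    have := Real.rpow_le_rpow_of_exponent_le (by norm_num : (1 : ℝ) ≤ 2)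
      (by norm_num : (6 / 5 : ℝ) ≤ (2 : ℕ))
    rw [Real.rpow_natCast] at this
    linarith
  have q4 := low_gen hx0 q1 q2 (s := s) ?_ ?_
  · refine le_trans (fin_exp (N := (n : ℝ) ^ e) (Q := (n : ℝ) ^ (3 * e)) (V := n * S)
      (Real.one_le_rpow hn1 (by positivity)) hnS g4 ?_ hne) q4
    rw [hx6, hwS]
    have r2 : (n : ℝ) ^ (1 + e) * (n : ℝ) ^ (e * (6 / 5)) ≤ n * (n : ℝ) ^ (3 * e) := by
      rw [← Real.rpow_add hn0]
      calc (n : ℝ) ^ (1 + e + e * (6 / 5)) ≤ (n : ℝ) ^ (1 + 3 * e) :=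
            Real.rpow_le_rpow_of_exponent_le hn1 (by linarith)
        _ = n * (n : ℝ) ^ (3 * e) := by rw [Real.rpow_add hn0, Real.rpow_one]
    calc 64 * (n : ℝ) ^ (1 + e) * (2 ^ (6 / 5 : ℝ) * (n : ℝ) ^ (e * (6 / 5)) * S) =
          64 * 2 ^ (6 / 5 : ℝ) * ((n : ℝ) ^ (1 + e) * (n : ℝ) ^ (e * (6 / 5))) * S := by ring
      _ ≤ 64 * 4 * (n * (n : ℝ) ^ (3 * e)) * S := by gcongr
      _ = 256 * ((n : ℝ) ^ (3 * e) * (n * S)) := by ring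
  · rw [hx5, hw, show (n : ℝ) ^ (1 - e) = n * (n : ℝ) ^ (-e) by
      rw [show 1 - e = 1 + -e by ring, Real.rpow_add hn0, Real.rpow_one]]
    have : (n : ℝ) ^ (-e) * (n : ℝ) ^ e = 1 := by
      rw [← Real.rpow_add hn0]
      simp
    calc (n : ℝ) * s = n * ((n : ℝ) ^ (-e) * (n : ℝ) ^ e) * s := by rw [this]; ring
      _ = n * (n : ℝ) ^ (-e) * (2 * (n : ℝ) ^ e * s) / 2 := by ring
  · rw [hx6, hwS]
    have r1 : (n : ℝ) ≤ (n : ℝ) ^ (1 - e) * (n : ℝ) ^ (e * (6 / 5)) := by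
      rw [← Real.rpow_add hn0]
      calc (n : ℝ) = (n : ℝ) ^ (1 : ℝ) := (Real.rpow_one _).symm
        _ ≤ _ := Real.rpow_le_rpow_of_exponent_le hn1 (by linarith)
    calc (2 : ℝ) ≤ 2 ^ (6 / 5 : ℝ) * (n * S) := by nlinarith
      _ ≤ 2 ^ (6 / 5 : ℝ) * ((n : ℝ) ^ (1 - e) * (n : ℝ) ^ (e * (6 / 5)) * S) := by gcongr
      _ = (n : ℝ) ^ (1 - e) * (2 ^ (6 / 5 : ℝ) * (n : ℝ) ^ (e * (6 / 5)) * S) := by ring

/-- the large deviations -/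
lemma low_large {β : ℝ} {n : ℕ} {e ε s c C : ℝ} (hn1 : (1 : ℝ) ≤ n) (he0 : 0 < e) (he : e = ε / 4)
    (he1 : e ≤ 1 / 40) (hc0 : 0 < c) (hc1 : c ≤ 1) (hC : 0 < C)
    (hs0 : 0 < s) (g3 : ∀ x : ℝ, (n : ℝ) ^ (-(1 / 16) : ℝ) ≤ x → x ≤ 1 →
      c * n * x ^ 6 ≤ cum β n x ∧ cum β n x ≤ C * n * x ^ 6) (g4 : 260 ≤ (n : ℝ) ^ e)
    (g5 : 64 * C * (2 / c) ^ (6 / 5 : ℝ) ≤ (n : ℝ) ^ e) (g6 : 2 / c ≤ (n : ℝ) ^ (1 / 2 : ℝ))
    (hnS : 1 ≤ n * s ^ (6 / 5 : ℝ))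
    (hne : (n : ℝ) ^ (1 + ε) * s ^ (6 / 5 : ℝ) =
      (n : ℝ) ^ (3 * e) * ((n : ℝ) ^ e * (n * s ^ (6 / 5 : ℝ))))
    (hsδ : s ≤ c / 64) (hcase : 1 < 32 * (2 * (n : ℝ) ^ e * s)) :
    Real.exp (-((n : ℝ) ^ (1 + ε) * s ^ (6 / 5 : ℝ))) ≤
      (disorder n).real {g | ∫ h, freeEnergy n β h ∂(disorder n) + n * s ≤ freeEnergy n β g} := by
  have hn0 : (0 : ℝ) < n := by linarith
  obtain ⟨w, hw⟩ : ∃ w, w = 2 / c * s := ⟨_, rfl⟩
  have hw0 : 0 < w := by rw [hw]; positivity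
  have hw1 : 32 * w ≤ 1 := by
    rw [hw]
    have h1 : 2 / c * s ≤ 2 / c * (c / 64) := by gcongr
    have h2 : 2 / c * (c / 64) = 1 / 32 := by
      field_simp
      norm_num
    linarith
  obtain ⟨x, hx0, hx5, hx6, hx2, hx⟩ := root5 hw0 hw1
  -- `s` is not small
  have h2 : (n : ℝ) ^ (-(2 * e)) ≤ s := by
    have h3 : (n : ℝ) ^ (-(2 * e)) * (64 * (n : ℝ) ^ e) ≤ 1 := by
      have h4 : (n : ℝ) ^ (-(2 * e)) * ((n : ℝ) ^ e * (n : ℝ) ^ e) = 1 := by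
        rw [← Real.rpow_add hn0, ← Real.rpow_add hn0]
        rw [show -(2 * e) + (e + e) = 0 by ring, Real.rpow_zero]
      calc (n : ℝ) ^ (-(2 * e)) * (64 * (n : ℝ) ^ e) ≤
            (n : ℝ) ^ (-(2 * e)) * ((n : ℝ) ^ e * (n : ℝ) ^ e) := by
            gcongr
            linarith
        _ = 1 := h4
    have h5 : (n : ℝ) ^ (-(2 * e)) * (64 * (n : ℝ) ^ e) ≤ s * (64 * (n : ℝ) ^ e) := by
      linarith
    exact le_of_mul_le_mul_right h5 (by positivity)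
  have hsw : s ≤ w := by
    rw [hw]
    have : 1 ≤ 2 / c := by rw [le_div_iff₀ hc0]; linarith
    exact le_mul_of_one_le_left hs0.le this
  have hxl : (n : ℝ) ^ (-(1 / 16) : ℝ) ≤ x := by
    refine root_low hn0 hx (le_trans ?_ (h2.trans hsw))
    exact Real.rpow_le_rpow_of_exponent_le hn1 (by linarith)
  have hx1 : x ≤ 1 := by linarith
  have q1 := (g3 x hxl hx1).1
  have q2 := (g3 (2 * x) (hxl.trans (by linarith)) hx2).2
  have q3 : C * n * (2 * x) ^ 6 = 64 * C * n * x ^ 6 := by ring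
  rw [q3] at q2
  -- the number `n S` is large
  have h7 : 2 / c ≤ n * s ^ (6 / 5 : ℝ) := by
    refine g6.trans ?_
    have h8 := Real.rpow_le_rpow (Real.rpow_pos_of_pos hn0 _).le h2
      (by norm_num : (0 : ℝ) ≤ 6 / 5)
    rw [← Real.rpow_mul hn0.le] at h8
    calc (n : ℝ) ^ (1 / 2 : ℝ) ≤ (n : ℝ) ^ (1 + -(2 * e) * (6 / 5)) :=
          Real.rpow_le_rpow_of_exponent_le hn1 (by linarith)
      _ = n * (n : ℝ) ^ (-(2 * e) * (6 / 5)) := by rw [Real.rpow_add hn0, Real.rpow_one]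
      _ ≤ n * s ^ (6 / 5 : ℝ) := mul_le_mul_of_nonneg_left h8 hn0.le
  obtain ⟨S, hS⟩ : ∃ S, S = s ^ (6 / 5 : ℝ) := ⟨_, rfl⟩
  have hS0 : 0 < S := by rw [hS]; exact Real.rpow_pos_of_pos hs0 _
  have hwS : w ^ (6 / 5 : ℝ) = (2 / c) ^ (6 / 5 : ℝ) * S := by
    rw [hw, Real.mul_rpow (by positivity) hs0.le, hS]
  rw [← hS] at hnS hne h7 ⊢
  have q4 := low_gen hx0 q1 q2 (s := s) ?_ ?_
  · refine le_trans (fin_exp (N := (n : ℝ) ^ e) (Q := (n : ℝ) ^ (3 * e)) (V := n * S)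
      (Real.one_le_rpow hn1 (by positivity)) hnS g4 ?_ hne) q4
    rw [hx6, hwS]
    have r3 : (n : ℝ) ^ e ≤ (n : ℝ) ^ (3 * e) :=
      Real.rpow_le_rpow_of_exponent_le hn1 (by linarith)
    calc 64 * C * n * ((2 / c) ^ (6 / 5 : ℝ) * S) = 64 * C * (2 / c) ^ (6 / 5 : ℝ) * (n * S) := by
          ring
      _ ≤ (n : ℝ) ^ (3 * e) * (n * S) := mul_le_mul_of_nonneg_right (g5.trans r3) (by positivity)
      _ ≤ 256 * ((n : ℝ) ^ (3 * e) * (n * S)) := by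
          have : 0 ≤ (n : ℝ) ^ (3 * e) * (n * S) := by positivity
          linarith
  · rw [hx5, hw]
    field_simp
  · rw [hx6, hwS]
    have h9 : 1 ≤ (2 / c) ^ (6 / 5 : ℝ) := by
      refine Real.one_le_rpow ?_ (by norm_num)
      rw [le_div_iff₀ hc0]
      linarith
    have h10 : 2 ≤ c * (n * S) := by
      have := mul_le_mul_of_nonneg_left h7 hc0.le
      have e1 : c * (2 / c) = 2 := by field_simp
      linarith
    calc (2 : ℝ) ≤ c * (n * S) := h10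
      _ ≤ (2 / c) ^ (6 / 5 : ℝ) * (c * (n * S)) := le_mul_of_one_le_left (by linarith) h9
      _ = c * n * ((2 / c) ^ (6 / 5 : ℝ) * S) := by ring

/-- **The upper tail, lower bound.** -/
theorem tail_low {β : ℝ} (hβ : 1 < β) (hU : ∀ ε : ℝ, 0 < ε → ∀ᶠ n : ℕ in atTop, ∀ x : ℝ,
      (n : ℝ) ^ (-(1 / 6) : ℝ) ≤ x → x ≤ 1 → cum β n x ≤ (n : ℝ) ^ (1 + ε) * x ^ 6)
    (hL : ∀ ε : ℝ, 0 < ε → ∀ᶠ n : ℕ in atTop, ∀ x : ℝ,
      (n : ℝ) ^ (-(1 / 6) + ε : ℝ) ≤ x → x ≤ 1 → (n : ℝ) ^ (1 - ε) * x ^ 6 ≤ cum β n x) :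
    ∃ δ : ℝ, 0 < δ ∧ ∀ ε : ℝ, 0 < ε → ∀ᶠ n : ℕ in atTop, ∀ s : ℝ,
      (n : ℝ) ^ (-(5 / 6) + ε : ℝ) ≤ s → s ≤ δ →
      Real.exp (-((n : ℝ) ^ (1 + ε) * s ^ (6 / 5 : ℝ))) ≤
      (disorder n).real {g | ∫ h, freeEnergy n β h ∂(disorder n) + n * s ≤ freeEnergy n β g} := by
  obtain ⟨c₀, C, hc₀, hC, hmid⟩ := mid hβ (show (0 : ℝ) < 1 / 16 by norm_num) (by norm_num)
  obtain ⟨c, hc⟩ : ∃ c, c = min c₀ 1 := ⟨_, rfl⟩
  have hc0 : 0 < c := by rw [hc]; exact lt_min hc₀ one_pos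
  have hcc : c ≤ c₀ := by rw [hc]; exact min_le_left _ _
  have hc1 : c ≤ 1 := by rw [hc]; exact min_le_right _ _
  refine ⟨c / 64, by positivity, ?_⟩
  suffices H : ∀ ε : ℝ, 0 < ε → ε ≤ 1 / 10 → ∀ᶠ n : ℕ in atTop, ∀ s : ℝ,
      (n : ℝ) ^ (-(5 / 6) + ε : ℝ) ≤ s → s ≤ c / 64 →
      Real.exp (-((n : ℝ) ^ (1 + ε) * s ^ (6 / 5 : ℝ))) ≤
      (disorder n).real {g | ∫ h, freeEnergy n β h ∂(disorder n) + n * s ≤ freeEnergy n β g} by
    intro ε hε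
    filter_upwards [H (min ε (1 / 10)) (lt_min hε (by norm_num)) (min_le_right _ _),
      eventually_ge_atTop 1] with n g1 g2 s hs hsδ
    have hn1 : (1 : ℝ) ≤ n := by exact_mod_cast g2
    have hn0 : (0 : ℝ) < n := by linarith
    have hs0 : 0 < s := (Real.rpow_pos_of_pos hn0 _).trans_le hs
    have hm := min_le_left ε (1 / 10 : ℝ)
    refine le_trans (Real.exp_le_exp.2 (neg_le_neg ?_)) (g1 s ((Real.rpow_le_rpow_of_exponent_le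
      hn1 (by linarith)).trans hs) hsδ)
    exact mul_le_mul_of_nonneg_right (Real.rpow_le_rpow_of_exponent_le hn1 (by linarith))
      (Real.rpow_pos_of_pos hs0 _).le
  intro ε hε hε1
  obtain ⟨e, he⟩ : ∃ e, e = ε / 4 := ⟨_, rfl⟩
  have he0 : 0 < e := by rw [he]; positivity
  have ht := (tendsto_rpow_atTop he0).comp (tendsto_natCast_atTop_atTop (R := ℝ))
  have hev1 := ht.eventually_ge_atTop 260
  have hev2 := ht.eventually_ge_atTop (64 * C * (2 / c) ^ (6 / 5 : ℝ))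
  have hev3 := ((tendsto_rpow_atTop (show (0 : ℝ) < 1 / 2 by norm_num)).comp
    (tendsto_natCast_atTop_atTop (R := ℝ))).eventually_ge_atTop (2 / c)
  filter_upwards [hU e he0, hL e he0, hmid, hev1, hev2, hev3, eventually_ge_atTop 1] with n g1 g2
    g3 g4 g5 g6 g7 s hs hsδ
  simp only [Function.comp] at g4 g5 g6
  have hn1 : (1 : ℝ) ≤ n := by exact_mod_cast g7
  have hn0 : (0 : ℝ) < n := by linarith
  have hs0 : 0 < s := (Real.rpow_pos_of_pos hn0 _).trans_le hs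
  have hS0 : 0 < s ^ (6 / 5 : ℝ) := Real.rpow_pos_of_pos hs0 _
  have hnS : 1 ≤ n * s ^ (6 / 5 : ℝ) := by
    have h1 := Real.rpow_le_rpow (Real.rpow_pos_of_pos hn0 _).le hs (by norm_num : (0 : ℝ) ≤ 6 / 5)
    rw [← Real.rpow_mul hn0.le] at h1
    calc (1 : ℝ) ≤ (n : ℝ) ^ (6 / 5 * ε) := Real.one_le_rpow hn1 (by positivity)
      _ = n * (n : ℝ) ^ ((-(5 / 6) + ε) * (6 / 5) : ℝ) := by
          rw [show (6 / 5 * ε : ℝ) = 1 + (-(5 / 6) + ε) * (6 / 5) by ring, Real.rpow_add hn0,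
            Real.rpow_one]
      _ ≤ n * s ^ (6 / 5 : ℝ) := mul_le_mul_of_nonneg_left h1 hn0.le
  have hne : (n : ℝ) ^ (1 + ε) * s ^ (6 / 5 : ℝ) =
      (n : ℝ) ^ (3 * e) * ((n : ℝ) ^ e * (n * s ^ (6 / 5 : ℝ))) := by
    have : (n : ℝ) ^ (1 + ε) = n * ((n : ℝ) ^ (3 * e) * (n : ℝ) ^ e) := by
      rw [← Real.rpow_add hn0, show 1 + ε = 1 + (3 * e + e) by rw [he]; ring, Real.rpow_add hn0,
        Real.rpow_one]
    rw [this]
    ring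
  by_cases hcase : 32 * (2 * (n : ℝ) ^ e * s) ≤ 1
  · exact low_small hn1 he0 he hs0 g1 g2 g4 hs hnS hne hcase
  · push Not at hcase
    refine low_large hn1 he0 he (by rw [he]; linarith) hc0 hc1 hC hs0 (fun x hx hx1 => ?_) g4 g5 g6
      hnS hne hsδ hcase
    have hx0 : 0 < x := (Real.rpow_pos_of_pos hn0 _).trans_le hx
    obtain ⟨k1, k2⟩ := g3 x hx hx1
    exact ⟨le_trans (by gcongr) k1, k2⟩

end Vale.Agent.P146.H260.Dev
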