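import Vale.Agent.P146.H260.Dev2
import Vale.Agent.P146.H695.Utc2

set_option linter.all false

/-!
# P146: the exponential moments and the right tail of the free energy at all scales
-/

open MeasureTheory ProbabilityTheory Filter Topology

namespace Vale.Agent.P146.H260.Dev

open Vale.Agent.P146 Vale.Agent.P146.H605

/-- The lower bound of the exponential moments (same text as `H432.LoM`). -/
def Lo (β : ℝ) : Prop := ∀ e : ℝ, 0 < e → ∃ δ : ℝ, 0 < δ ∧ ∀ᶠ n : ℕ in atTop, ∀ x : ℝ,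
  (n : ℝ) ^ (-(1 / 6) + e) ≤ x → x ≤ δ → (n : ℝ) ^ (1 - e) * x ^ 6 ≤
    Real.log (∫ g, Real.exp (x * (freeEnergy n β g - ∫ h, freeEnergy n β h ∂(disorder n)))
      ∂(disorder n))

/-- **The exponential moments above the mean, upper bound at all scales.** -/
theorem moments_up {β : ℝ} (hβ : 1 < β) {a : ℝ} (ha0 : 0 < a) (ha : a < 1 / 15)
    (h : H695.UpM β a) : ∀ ε : ℝ, 0 < ε → ∀ᶠ n : ℕ in atTop, ∀ x : ℝ,
      (n : ℝ) ^ (-(1 / 6) : ℝ) ≤ x → x ≤ 1 →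
      Real.log (∫ g, Real.exp (x * (freeEnergy n β g - ∫ h, freeEnergy n β h ∂(disorder n)))
        ∂(disorder n)) ≤ (n : ℝ) ^ (1 + ε) * x ^ 6 :=
  fun _ hε => up_all hβ ha0 ha h hε

/-- **The right tail, upper bound at all scales.** -/
theorem right_tail_up {β : ℝ} (hβ : 1 < β) {a : ℝ} (ha0 : 0 < a) (ha : a < 1 / 15)
    (h : H695.UpM β a) : ∀ ε : ℝ, 0 < ε → ∀ᶠ n : ℕ in atTop, ∀ s : ℝ,
      (n : ℝ) ^ (-(5 / 6) + ε : ℝ) ≤ s → s ≤ 1 →
      (disorder n).real {g | ∫ h, freeEnergy n β h ∂(disorder n) + n * s ≤ freeEnergy n β g} ≤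
        Real.exp (-((n : ℝ) ^ (1 - ε) * s ^ (6 / 5 : ℝ))) :=
  fun _ hε => tail_up (fun _ hε' => up_all hβ ha0 ha h hε') hε

/-- **The exponential moments above the mean, lower bound at all scales.** -/
theorem moments_low {β : ℝ} (hβ : 1 < β) (h : Lo β) : ∀ ε : ℝ, 0 < ε → ∀ᶠ n : ℕ in atTop,
    ∀ x : ℝ, (n : ℝ) ^ (-(1 / 6) + ε : ℝ) ≤ x → x ≤ 1 → (n : ℝ) ^ (1 - ε) * x ^ 6 ≤
      Real.log (∫ g, Real.exp (x * (freeEnergy n β g - ∫ h, freeEnergy n β h ∂(disorder n)))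
        ∂(disorder n)) := by
  intro ε hε
  refine lo_all hβ (show (0 : ℝ) < 1 / 16 by norm_num) (by norm_num) (fun e he => ?_) hε
  obtain ⟨δ, hδ, hn⟩ := h e he
  have hev := ((tendsto_rpow_neg_atTop (show (0 : ℝ) < 1 / 16 by norm_num)).comp
    (tendsto_natCast_atTop_atTop (R := ℝ))).eventually_le_const hδ
  filter_upwards [hn, hev] with n g1 g2 x hx hx1
  exact g1 x hx (hx1.trans g2)

/-- **The right tail at all scales.** -/
theorem right_tail {β : ℝ} (hβ : 1 < β) {a : ℝ} (ha0 : 0 < a) (ha : a < 1 / 15)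
    (hU : H695.UpM β a) (hL : Lo β) : ∃ δ : ℝ, 0 < δ ∧ ∀ ε : ℝ, 0 < ε → ∀ᶠ n : ℕ in atTop,
      ∀ s : ℝ, (n : ℝ) ^ (-(5 / 6) + ε : ℝ) ≤ s → s ≤ δ →
      Real.exp (-((n : ℝ) ^ (1 + ε) * s ^ (6 / 5 : ℝ))) ≤ (disorder n).real {g |
        ∫ h, freeEnergy n β h ∂(disorder n) + n * s ≤ freeEnergy n β g} ∧
      (disorder n).real {g | ∫ h, freeEnergy n β h ∂(disorder n) + n * s ≤ freeEnergy n β g} ≤
        Real.exp (-((n : ℝ) ^ (1 - ε) * s ^ (6 / 5 : ℝ))) := by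
  obtain ⟨δ, hδ, h⟩ := tail_low hβ (fun _ hε' => up_all hβ ha0 ha hU hε')
    (fun _ hε' => moments_low hβ hL _ hε')
  refine ⟨min δ 1, lt_min hδ one_pos, fun ε hε => ?_⟩
  filter_upwards [h ε hε, right_tail_up hβ ha0 ha hU ε hε] with n g1 g2 s hs hs1
  exact ⟨g1 s hs (hs1.trans (min_le_left _ _)), g2 s hs (hs1.trans (min_le_right _ _))⟩

end Vale.Agent.P146.H260.Dev
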