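import Vale.Agent.P146.H260.Dev3

set_option linter.all false

/-!
# P146: the right tail of the free energy on a partial range of scales `x ≥ n ^ (-b)`
-/

open MeasureTheory ProbabilityTheory Filter Topology

namespace Vale.Agent.P146.H260.Dev

open Vale.Agent.P146 Vale.Agent.P146.H605

/-- The lower bound of the exponential moments for `n ^ (-b + ε) ≤ x ≤ n ^ (-a)`. -/
def LoB (β b a : ℝ) : Prop := ∀ ε : ℝ, 0 < ε → ∀ᶠ n : ℕ in atTop, ∀ x : ℝ,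
  (n : ℝ) ^ (-b + ε : ℝ) ≤ x → x ≤ (n : ℝ) ^ (-a) → (n : ℝ) ^ (1 - ε) * x ^ 6 ≤ cum β n x

/-- The lower bound of the exponential moments for `n ^ (-b + e) ≤ x ≤ δ`. -/
def Lob (β b : ℝ) : Prop := ∀ e : ℝ, 0 < e → ∃ δ : ℝ, 0 < δ ∧ ∀ᶠ n : ℕ in atTop, ∀ x : ℝ,
  (n : ℝ) ^ (-b + e) ≤ x → x ≤ δ → (n : ℝ) ^ (1 - e) * x ^ 6 ≤
    Real.log (∫ g, Real.exp (x * (freeEnergy n β g - ∫ h, freeEnergy n β h ∂(disorder n)))
      ∂(disorder n))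

/-- The lower bound at all scales. -/
theorem lo_allB {β : ℝ} (hβ : 1 < β) {a : ℝ} (ha0 : 0 < a) (ha : a < 1 / 15) {b : ℝ} (h : LoB β b a)
    {ε : ℝ} (hε : 0 < ε) : ∀ᶠ n : ℕ in atTop, ∀ x : ℝ,
      (n : ℝ) ^ (-b + ε : ℝ) ≤ x → x ≤ 1 → (n : ℝ) ^ (1 - ε) * x ^ 6 ≤ cum β n x := by
  obtain ⟨c, C, hc, hC, hmid⟩ := mid hβ ha0 ha
  have hev := ((tendsto_rpow_atTop hε).comp
    (tendsto_natCast_atTop_atTop (R := ℝ))).eventually_ge_atTop (1 / c)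
  filter_upwards [h ε hε, hmid, hev, eventually_ge_atTop 1] with n g1 g2 g3 g4 x hx hx1
  simp only [Function.comp] at g3
  have hn1 : (1 : ℝ) ≤ n := by exact_mod_cast g4
  have hn0 : (0 : ℝ) < n := by linarith
  have hx0 : 0 < x := (Real.rpow_pos_of_pos hn0 _).trans_le hx
  rcases le_total x ((n : ℝ) ^ (-a)) with h1 | h1
  · exact g1 x hx h1
  · refine le_trans ?_ (g2 x h1 hx1).1
    have h2 : (n : ℝ) ^ (1 - ε) = n * (1 / (n : ℝ) ^ ε) := by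
      rw [Real.rpow_sub hn0, Real.rpow_one]
      ring
    have h3 : 1 / (n : ℝ) ^ ε ≤ c := by
      rw [div_le_iff₀ (Real.rpow_pos_of_pos hn0 _)]
      rw [div_le_iff₀ hc] at g3
      linarith
    rw [h2]
    have := mul_le_mul_of_nonneg_right h3 (by positivity : 0 ≤ n * x ^ 6)
    linarith

/-- the small deviations -/
lemma low_smallB {β : ℝ} {n : ℕ} {b e ε s : ℝ} (hn1 : (1 : ℝ) ≤ n) (he0 : 0 < e) (he : e = ε / 4)
    (hb : b ≤ 1 / 6) (hs0 : 0 < s) (g1 : ∀ x : ℝ, (n : ℝ) ^ (-(1 / 6) : ℝ) ≤ x → x ≤ 1 →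
      cum β n x ≤ (n : ℝ) ^ (1 + e) * x ^ 6)
    (g2 : ∀ x : ℝ, (n : ℝ) ^ (-b + e : ℝ) ≤ x → x ≤ 1 →
      (n : ℝ) ^ (1 - e) * x ^ 6 ≤ cum β n x) (g4 : 260 ≤ (n : ℝ) ^ e)
    (hs : (n : ℝ) ^ (-(5 * b) + ε : ℝ) ≤ s) (hnS : 1 ≤ n * s ^ (6 / 5 : ℝ))
    (hne : (n : ℝ) ^ (1 + ε) * s ^ (6 / 5 : ℝ) =
      (n : ℝ) ^ (3 * e) * ((n : ℝ) ^ e * (n * s ^ (6 / 5 : ℝ))))
    (hcase : 32 * (2 * (n : ℝ) ^ e * s) ≤ 1) :
    Real.exp (-((n : ℝ) ^ (1 + ε) * s ^ (6 / 5 : ℝ))) ≤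
      (disorder n).real {g | ∫ h, freeEnergy n β h ∂(disorder n) + n * s ≤ freeEnergy n β g} := by
  have hn0 : (0 : ℝ) < n := by linarith
  obtain ⟨S, hS⟩ : ∃ S, S = s ^ (6 / 5 : ℝ) := ⟨_, rfl⟩
  have hS0 : 0 < S := by rw [hS]; exact Real.rpow_pos_of_pos hs0 _
  rw [← hS] at hnS hne ⊢
  obtain ⟨w, hw⟩ : ∃ w, w = 2 * (n : ℝ) ^ e * s := ⟨_, rfl⟩
  have hw0 : 0 < w := by rw [hw]; positivity
  rw [← hw] at hcase
  obtain ⟨x, hx0, hx5, hx6, hx2, hx⟩ := root5 hw0 hcase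
  have hxl : (n : ℝ) ^ (-b + e : ℝ) ≤ x := by
    refine root_low hn0 hx ?_
    rw [hw]
    have h2 : (n : ℝ) ^ ((-b + e) * 5 : ℝ) ≤ (n : ℝ) ^ e * (n : ℝ) ^ (-(5 * b) + ε : ℝ) := by
      rw [← Real.rpow_add hn0]
      exact Real.rpow_le_rpow_of_exponent_le hn1 (by linarith)
    have h3 := mul_le_mul_of_nonneg_left hs (Real.rpow_pos_of_pos hn0 e).le
    have h4 : 0 < (n : ℝ) ^ e * s := by positivity
    linarith
  have hx1 : x ≤ 1 := by linarith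
  have q1 := g2 x hxl hx1
  have q2 := g1 (2 * x) (le_trans (Real.rpow_le_rpow_of_exponent_le hn1 (by linarith))
    (hxl.trans (by linarith))) hx2
  have q3 : (n : ℝ) ^ (1 + e) * (2 * x) ^ 6 = 64 * (n : ℝ) ^ (1 + e) * x ^ 6 := by ring
  rw [q3] at q2
  have hwS : w ^ (6 / 5 : ℝ) = 2 ^ (6 / 5 : ℝ) * (n : ℝ) ^ (e * (6 / 5)) * S := by
    rw [hw, Real.mul_rpow (by positivity) hs0.le, Real.mul_rpow (by norm_num) (by positivity),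
      ← Real.rpow_mul hn0.le, hS]
  have h26 : (2 : ℝ) ≤ 2 ^ (6 / 5 : ℝ) := by
    have := Real.rpow_le_rpow_of_exponent_le (by norm_num : (1 : ℝ) ≤ 2)
      (by norm_num : (1 : ℝ) ≤ 6 / 5)
    rwa [Real.rpow_one] at this
  have h26' : (2 : ℝ) ^ (6 / 5 : ℝ) ≤ 4 := by
    have := Real.rpow_le_rpow_of_exponent_le (by norm_num : (1 : ℝ) ≤ 2)
      (by norm_num : (6 / 5 : ℝ) ≤ (2 : ℕ))
    rw [Real.rpow_natCast] at this
    linarith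
  have q4 := low_gen hx0 q1 q2 (s := s) ?_ ?_
  · refine le_trans (fin_exp (N := (n : ℝ) ^ e) (Q := (n : ℝ) ^ (3 * e)) (V := n * S)
      (Real.one_le_rpow hn1 (by positivity)) hnS g4 ?_ hne) q4
    rw [hx6, hwS]
    have r2 : (n : ℝ) ^ (1 + e) * (n : ℝ) ^ (e * (6 / 5)) ≤ n * (n : ℝ) ^ (3 * e) := by
      rw [← Real.rpow_add hn0]
      calc (n : ℝ) ^ (1 + e + e * (6 / 5)) ≤ (n : ℝ) ^ (1 + 3 * e) :=
            Real.rpow_le_rpow_of_exponent_le hn1 (by linarith)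
        _ = n * (n : ℝ) ^ (3 * e) := by rw [Real.rpow_add hn0, Real.rpow_one]
    calc 64 * (n : ℝ) ^ (1 + e) * (2 ^ (6 / 5 : ℝ) * (n : ℝ) ^ (e * (6 / 5)) * S) =
          64 * 2 ^ (6 / 5 : ℝ) * ((n : ℝ) ^ (1 + e) * (n : ℝ) ^ (e * (6 / 5))) * S := by ring
      _ ≤ 64 * 4 * (n * (n : ℝ) ^ (3 * e)) * S := by gcongr
      _ = 256 * ((n : ℝ) ^ (3 * e) * (n * S)) := by ring
  · rw [hx5, hw, show (n : ℝ) ^ (1 - e) = n * (n : ℝ) ^ (-e) by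
      rw [show 1 - e = 1 + -e by ring, Real.rpow_add hn0, Real.rpow_one]]
    have : (n : ℝ) ^ (-e) * (n : ℝ) ^ e = 1 := by
      rw [← Real.rpow_add hn0]
      simp
    calc (n : ℝ) * s = n * ((n : ℝ) ^ (-e) * (n : ℝ) ^ e) * s := by rw [this]; ring
      _ = n * (n : ℝ) ^ (-e) * (2 * (n : ℝ) ^ e * s) / 2 := by ring
  · rw [hx6, hwS]
    have r1 : (n : ℝ) ≤ (n : ℝ) ^ (1 - e) * (n : ℝ) ^ (e * (6 / 5)) := by
      rw [← Real.rpow_add hn0]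
      calc (n : ℝ) = (n : ℝ) ^ (1 : ℝ) := (Real.rpow_one _).symm
        _ ≤ _ := Real.rpow_le_rpow_of_exponent_le hn1 (by linarith)
    calc (2 : ℝ) ≤ 2 ^ (6 / 5 : ℝ) * (n * S) := by nlinarith
      _ ≤ 2 ^ (6 / 5 : ℝ) * ((n : ℝ) ^ (1 - e) * (n : ℝ) ^ (e * (6 / 5)) * S) := by gcongr
      _ = (n : ℝ) ^ (1 - e) * (2 ^ (6 / 5 : ℝ) * (n : ℝ) ^ (e * (6 / 5)) * S) := by ring

/-- **The upper tail, lower bound.** -/
theorem tail_lowB {β : ℝ} (hβ : 1 < β) {b : ℝ} (hb : b ≤ 1 / 6) (hU : ∀ ε : ℝ, 0 < ε → ∀ᶠ n : ℕ in atTop, ∀ x : ℝ,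
      (n : ℝ) ^ (-(1 / 6) : ℝ) ≤ x → x ≤ 1 → cum β n x ≤ (n : ℝ) ^ (1 + ε) * x ^ 6)
    (hL : ∀ ε : ℝ, 0 < ε → ∀ᶠ n : ℕ in atTop, ∀ x : ℝ,
      (n : ℝ) ^ (-b + ε : ℝ) ≤ x → x ≤ 1 → (n : ℝ) ^ (1 - ε) * x ^ 6 ≤ cum β n x) :
    ∃ δ : ℝ, 0 < δ ∧ ∀ ε : ℝ, 0 < ε → ∀ᶠ n : ℕ in atTop, ∀ s : ℝ,
      (n : ℝ) ^ (-(5 * b) + ε : ℝ) ≤ s → s ≤ δ →
      Real.exp (-((n : ℝ) ^ (1 + ε) * s ^ (6 / 5 : ℝ))) ≤
      (disorder n).real {g | ∫ h, freeEnergy n β h ∂(disorder n) + n * s ≤ freeEnergy n β g} := by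
  obtain ⟨c₀, C, hc₀, hC, hmid⟩ := mid hβ (show (0 : ℝ) < 1 / 16 by norm_num) (by norm_num)
  obtain ⟨c, hc⟩ : ∃ c, c = min c₀ 1 := ⟨_, rfl⟩
  have hc0 : 0 < c := by rw [hc]; exact lt_min hc₀ one_pos
  have hcc : c ≤ c₀ := by rw [hc]; exact min_le_left _ _
  have hc1 : c ≤ 1 := by rw [hc]; exact min_le_right _ _
  refine ⟨c / 64, by positivity, ?_⟩
  suffices H : ∀ ε : ℝ, 0 < ε → ε ≤ 1 / 10 → ∀ᶠ n : ℕ in atTop, ∀ s : ℝ,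
      (n : ℝ) ^ (-(5 * b) + ε : ℝ) ≤ s → s ≤ c / 64 →
      Real.exp (-((n : ℝ) ^ (1 + ε) * s ^ (6 / 5 : ℝ))) ≤
      (disorder n).real {g | ∫ h, freeEnergy n β h ∂(disorder n) + n * s ≤ freeEnergy n β g} by
    intro ε hε
    filter_upwards [H (min ε (1 / 10)) (lt_min hε (by norm_num)) (min_le_right _ _),
      eventually_ge_atTop 1] with n g1 g2 s hs hsδ
    have hn1 : (1 : ℝ) ≤ n := by exact_mod_cast g2
    have hn0 : (0 : ℝ) < n := by linarith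
    have hs0 : 0 < s := (Real.rpow_pos_of_pos hn0 _).trans_le hs
    have hm := min_le_left ε (1 / 10 : ℝ)
    refine le_trans (Real.exp_le_exp.2 (neg_le_neg ?_)) (g1 s ((Real.rpow_le_rpow_of_exponent_le
      hn1 (by linarith)).trans hs) hsδ)
    exact mul_le_mul_of_nonneg_right (Real.rpow_le_rpow_of_exponent_le hn1 (by linarith))
      (Real.rpow_pos_of_pos hs0 _).le
  intro ε hε hε1
  obtain ⟨e, he⟩ : ∃ e, e = ε / 4 := ⟨_, rfl⟩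
  have he0 : 0 < e := by rw [he]; positivity
  have ht := (tendsto_rpow_atTop he0).comp (tendsto_natCast_atTop_atTop (R := ℝ))
  have hev1 := ht.eventually_ge_atTop 260
  have hev2 := ht.eventually_ge_atTop (64 * C * (2 / c) ^ (6 / 5 : ℝ))
  have hev3 := ((tendsto_rpow_atTop (show (0 : ℝ) < 1 / 2 by norm_num)).comp
    (tendsto_natCast_atTop_atTop (R := ℝ))).eventually_ge_atTop (2 / c)
  filter_upwards [hU e he0, hL e he0, hmid, hev1, hev2, hev3, eventually_ge_atTop 1] with n g1 g2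
    g3 g4 g5 g6 g7 s hs hsδ
  simp only [Function.comp] at g4 g5 g6
  have hn1 : (1 : ℝ) ≤ n := by exact_mod_cast g7
  have hn0 : (0 : ℝ) < n := by linarith
  have hs0 : 0 < s := (Real.rpow_pos_of_pos hn0 _).trans_le hs
  have hS0 : 0 < s ^ (6 / 5 : ℝ) := Real.rpow_pos_of_pos hs0 _
  have hnS : 1 ≤ n * s ^ (6 / 5 : ℝ) := by
    have h1 := Real.rpow_le_rpow (Real.rpow_pos_of_pos hn0 _).le hs (by norm_num : (0 : ℝ) ≤ 6 / 5)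
    rw [← Real.rpow_mul hn0.le] at h1
    calc (1 : ℝ) ≤ (n : ℝ) ^ (1 + (-(5 * b) + ε) * (6 / 5)) :=
          Real.one_le_rpow hn1 (by linarith)
      _ = n * (n : ℝ) ^ ((-(5 * b) + ε) * (6 / 5) : ℝ) := by
          rw [Real.rpow_add hn0, Real.rpow_one]
      _ ≤ n * s ^ (6 / 5 : ℝ) := mul_le_mul_of_nonneg_left h1 hn0.le
  have hne : (n : ℝ) ^ (1 + ε) * s ^ (6 / 5 : ℝ) =
      (n : ℝ) ^ (3 * e) * ((n : ℝ) ^ e * (n * s ^ (6 / 5 : ℝ))) := by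
    have : (n : ℝ) ^ (1 + ε) = n * ((n : ℝ) ^ (3 * e) * (n : ℝ) ^ e) := by
      rw [← Real.rpow_add hn0, show 1 + ε = 1 + (3 * e + e) by rw [he]; ring, Real.rpow_add hn0,
        Real.rpow_one]
    rw [this]
    ring
  by_cases hcase : 32 * (2 * (n : ℝ) ^ e * s) ≤ 1
  · exact low_smallB hn1 he0 he hb hs0 g1 g2 g4 hs hnS hne hcase
  · push Not at hcase
    refine low_large hn1 he0 he (by rw [he]; linarith) hc0 hc1 hC hs0 (fun x hx hx1 => ?_) g4 g5 g6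
      hnS hne hsδ hcase
    have hx0 : 0 < x := (Real.rpow_pos_of_pos hn0 _).trans_le hx
    obtain ⟨k1, k2⟩ := g3 x hx hx1
    exact ⟨le_trans (by gcongr) k1, k2⟩

/-- **The exponential moments above the mean, lower bound for `x ≥ n ^ (-b)`.** -/
theorem moments_lowB {β : ℝ} (hβ : 1 < β) {b : ℝ} (h : Lob β b) : ∀ ε : ℝ, 0 < ε →
    ∀ᶠ n : ℕ in atTop, ∀ x : ℝ, (n : ℝ) ^ (-b + ε : ℝ) ≤ x → x ≤ 1 →
      (n : ℝ) ^ (1 - ε) * x ^ 6 ≤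
      Real.log (∫ g, Real.exp (x * (freeEnergy n β g - ∫ h, freeEnergy n β h ∂(disorder n)))
        ∂(disorder n)) := by
  intro ε hε
  refine lo_allB hβ (show (0 : ℝ) < 1 / 16 by norm_num) (by norm_num) (fun e he => ?_) hε
  obtain ⟨δ, hδ, hn⟩ := h e he
  have hev := ((tendsto_rpow_neg_atTop (show (0 : ℝ) < 1 / 16 by norm_num)).comp
    (tendsto_natCast_atTop_atTop (R := ℝ))).eventually_le_const hδ
  filter_upwards [hn, hev] with n g1 g2 x hx hx1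
  exact g1 x hx (hx1.trans g2)

/-- **The right tail for `s ≥ n ^ (-5 b)`.** -/
theorem right_tailB {β : ℝ} (hβ : 1 < β) {a : ℝ} (ha0 : 0 < a) (ha : a < 1 / 15)
    (hU : H695.UpM β a) {b : ℝ} (hb : b ≤ 1 / 6) (hL : Lob β b) : ∃ δ : ℝ, 0 < δ ∧
      ∀ ε : ℝ, 0 < ε → ∀ᶠ n : ℕ in atTop,
      ∀ s : ℝ, (n : ℝ) ^ (-(5 * b) + ε : ℝ) ≤ s → s ≤ δ →
      Real.exp (-((n : ℝ) ^ (1 + ε) * s ^ (6 / 5 : ℝ))) ≤ (disorder n).real {g |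
        ∫ h, freeEnergy n β h ∂(disorder n) + n * s ≤ freeEnergy n β g} ∧
      (disorder n).real {g | ∫ h, freeEnergy n β h ∂(disorder n) + n * s ≤ freeEnergy n β g} ≤
        Real.exp (-((n : ℝ) ^ (1 - ε) * s ^ (6 / 5 : ℝ))) := by
  obtain ⟨δ, hδ, h⟩ := tail_lowB hβ hb (fun _ hε' => up_all hβ ha0 ha hU hε')
    (fun _ hε' => moments_lowB hβ hL _ hε')
  refine ⟨min δ 1, lt_min hδ one_pos, fun ε hε => ?_⟩
  filter_upwards [h ε hε, right_tail_up hβ ha0 ha hU ε hε, eventually_ge_atTop 1] with n g1 g2 g3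
    s hs hs1
  refine ⟨g1 s hs (hs1.trans (min_le_left _ _)), g2 s (le_trans ?_ hs)
    (hs1.trans (min_le_right _ _))⟩
  exact Real.rpow_le_rpow_of_exponent_le (by exact_mod_cast g3) (by linarith)

end Vale.Agent.P146.H260.Dev
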