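import Vale.Agent.P146.H432.XLo
import Vale.Agent.P146.H260.Dev4
import Vale.Agent.P146.H695.Top

set_option linter.all false

/-!
# P146: consequences of the lower bound of the exponential moments, any exponent

`Lob β b`: `E exp (x (F - E F)) ≥ exp (n ^ (1 - ε) x ^ 6)` for `n ^ (-b + ε) ≤ x ≤ δ`.
-/

open MeasureTheory ProbabilityTheory Filter Topology

namespace Vale.Agent.P146.H260.FinT

open Vale.Agent.P146 Vale.Agent.P146.H605 Vale.Agent.P146.H432

/-- **The variance from the exponential moments for `x ≥ n ^ (-b + ε)`.** -/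
theorem var_of_lob {β b : ℝ} (hb0 : 0 < b) (hb : b ≤ 1 / 6) (h : Dev.Lob β b) :
    H695.LowV β (2 * b) := by
  intro γ hγ
  obtain ⟨m, hm⟩ : ∃ m, m = min ((2 * b - γ) / 4) (b / 2) := ⟨_, rfl⟩
  have hm1 : m ≤ (2 * b - γ) / 4 := by rw [hm]; exact min_le_left _ _
  have hm2 : m ≤ b / 2 := by rw [hm]; exact min_le_right _ _
  have hm0 : 0 < m := by rw [hm]; exact lt_min (by linarith) (by positivity)
  obtain ⟨δ, hδ, hn⟩ := h m hm0
  filter_upwards [hn, ev_small (a := b - m) (δ := δ) (by linarith) hδ,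
    ev_big (a := 5 * m) (C := 2) (by linarith),
    ev_big (a := b - m) (C := 36) (by linarith),
    ev_big (a := 2 * b - 2 * m - γ) (C := 36 ^ 2) (by linarith), eventually_ge_atTop 1]
    with n k1 k2 k3 k4 k5 k6
  have hn1 : (1 : ℝ) ≤ n := by exact_mod_cast k6
  have hn0 : (0 : ℝ) < n := by linarith
  obtain ⟨x, hx⟩ : ∃ x, x = (n : ℝ) ^ (-b + m) := ⟨_, rfl⟩
  have hx0 : 0 < x := by rw [hx]; exact Real.rpow_pos_of_pos hn0 _
  have h1 := k1 x (by rw [hx]) (by
    rw [hx]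
    have e1 : (-b + m : ℝ) = -(b - m) := by ring
    rw [e1]
    exact k2.le)
  have h2 : (n : ℝ) ^ (5 * m) ≤ (n : ℝ) ^ (1 - m) * x ^ 6 := by
    have e2 : (n : ℝ) ^ (1 - m) * x ^ 6 = (n : ℝ) ^ (1 - 6 * b + 5 * m) := by
      rw [hx, ← Real.rpow_natCast, ← Real.rpow_mul hn0.le, ← Real.rpow_add hn0]
      congr 1
      push_cast
      ring
    rw [e2]
    exact Real.rpow_le_rpow_of_exponent_le hn1 (by linarith)
  have h3 := H641.sd_of_tail n β hx0 (show 3 / 2 < _ from lt_of_lt_of_le (by linarith) (h2.trans h1))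
  have e4 : 1 / (18 * x) = (n : ℝ) ^ (b - m) / 18 := by
    have e5 : (-b + m : ℝ) = -(b - m) := by ring
    rw [hx, e5, Real.rpow_neg hn0.le]
    field_simp
  rw [e4] at h3
  have key : (n : ℝ) ^ (b - m) / 36 ≤ √(Var[freeEnergy n β; disorder n]) := by linarith
  have h7 : ((n : ℝ) ^ (b - m) / 36) ^ 2 ≤ Var[freeEnergy n β; disorder n] := by
    have := pow_le_pow_left₀ (by positivity) key 2
    rwa [Real.sq_sqrt (variance_nonneg _ _)] at this
  refine le_trans ?_ h7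
  rw [div_pow, le_div_iff₀ (by norm_num), ← Real.rpow_natCast ((n : ℝ) ^ (b - m)),
    ← Real.rpow_mul hn0.le]
  have e1 : ((b - m) * ((2 : ℕ) : ℝ) : ℝ) = γ + (2 * b - 2 * m - γ) := by
    push_cast; ring
  rw [e1, Real.rpow_add hn0]
  exact mul_le_mul_of_nonneg_left k5.le (by positivity)

/-- The lower bound of the moment generating function, exponential form. -/
theorem mgf_low {β : ℝ} (hβ : 1 < β) {b : ℝ} (h : Dev.Lob β b) : ∀ ε : ℝ, 0 < ε →
    ∀ᶠ n : ℕ in atTop, ∀ x : ℝ, (n : ℝ) ^ (-b + ε : ℝ) ≤ x → x ≤ 1 →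
      Integrable (fun g => Real.exp (x * (freeEnergy n β g -
        ∫ h, freeEnergy n β h ∂(disorder n)))) (disorder n) ∧
      Real.exp ((n : ℝ) ^ (1 - ε) * x ^ 6) ≤
      ∫ g, Real.exp (x * (freeEnergy n β g - ∫ h, freeEnergy n β h ∂(disorder n)))
        ∂(disorder n) := by
  intro ε hε
  filter_upwards [Dev.moments_lowB hβ h ε hε] with n h1 x hx hx1
  have hi : Integrable (fun g => Real.exp (x * (freeEnergy n β g -
      ∫ h, freeEnergy n β h ∂(disorder n)))) (disorder n) := by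
    have e : (fun g => Real.exp (x * (freeEnergy n β g - ∫ h, freeEnergy n β h ∂(disorder n)))) =
        fun g => Real.exp (x * freeEnergy n β g) *
          Real.exp (-(x * ∫ h, freeEnergy n β h ∂(disorder n))) := by
      funext g
      rw [← Real.exp_add]
      congr 1
      ring
    rw [e]
    exact (H260.V13.int_exp_sk n β x).mul_const _
  refine ⟨hi, ?_⟩
  have hp : IsProbabilityMeasure (disorder n) := by
    unfold disorder
    infer_instance
  rw [← Real.exp_log (integral_exp_pos hi)]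
  exact Real.exp_le_exp.2 (h1 x hx hx1)

/-- **The final statement.**  `θ = 2 b` is the exponent of the variance, `τ = 5 b` the exponent of
the smallest deviation in the right tail. -/
theorem final {b θ τ : ℝ} (hb0 : 0 < b) (hb : b ≤ 1 / 6) (hθ : θ = 2 * b) (hτ : τ = 5 * b)
    {a : ℝ} (ha0 : 0 < a) (ha : a < 1 / 15) (hU : ∀ β : ℝ, 1 < β → H695.UpM β a)
    (h : ∀ β : ℝ, 1 < β → Dev.Lob β b) :
    (∀ β : ℝ, 1 < β →
      -- the variance and the chaos profile
      (∀ γ : ℝ, γ < θ → ∀ᶠ n : ℕ in atTop,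
        (n : ℝ) ^ γ ≤ Var[freeEnergy n β; disorder n] ∧
        ∃ t : ℝ, 0 ≤ t ∧ t < 1 ∧ (n : ℝ) ^ γ ≤ n * (1 - t) * crossOverlap n β t) ∧
      -- small balls
      (∀ κ c : ℝ, 0 ≤ κ → κ + c < b → ∀ᶠ n : ℕ in atTop, ∀ y : ℝ,
        (disorder n).real {g | |freeEnergy n β g - y| ≤ (n : ℝ) ^ κ} ≤ (n : ℝ) ^ (-c)) ∧
      -- the exponential moments above the mean
      (∀ ε : ℝ, 0 < ε → ∀ᶠ n : ℕ in atTop, ∀ x : ℝ, (n : ℝ) ^ (-b + ε : ℝ) ≤ x → x ≤ 1 →
        Integrable (fun g => Real.exp (x * (freeEnergy n β g -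
          ∫ h, freeEnergy n β h ∂(disorder n)))) (disorder n) ∧
        Real.exp ((n : ℝ) ^ (1 - ε) * x ^ 6) ≤
          ∫ g, Real.exp (x * (freeEnergy n β g - ∫ h, freeEnergy n β h ∂(disorder n)))
            ∂(disorder n)) ∧
      -- the right tail
      (∃ δ : ℝ, 0 < δ ∧ ∀ ε : ℝ, 0 < ε → ∀ᶠ n : ℕ in atTop, ∀ s : ℝ,
        (n : ℝ) ^ (-τ + ε : ℝ) ≤ s → s ≤ δ →
        Real.exp (-((n : ℝ) ^ (1 + ε) * s ^ (6 / 5 : ℝ))) ≤ (disorder n).real {g |
          ∫ h, freeEnergy n β h ∂(disorder n) + n * s ≤ freeEnergy n β g}) ∧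
      -- the limit laws have a log-concave density
      (∀ N : ℕ → ℕ, Tendsto N atTop atTop → ∃ (φ : ℕ → ℕ) (p : ℝ → ℝ), StrictMono φ ∧
        (∀ x, 0 ≤ p x ∧ p x ≤ 145) ∧
        (∀ s t : ℝ, 0 < s → 0 < t → s + t = 1 → ∀ x y : ℝ,
          p x ^ s * p y ^ t ≤ p (s * x + t * y)) ∧
        ∫ x, p x = 1 ∧ ∫ x, x * p x = 0 ∧ ∫ x, x ^ 2 * p x = 1 ∧
        ∀ f : ℝ → ℝ, Continuous f → (∃ C, ∀ x, |f x| ≤ C) →
          Tendsto (fun k => ∫ g, f ((freeEnergy (N (φ k)) β g -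
            ∫ h, freeEnergy (N (φ k)) β h ∂(disorder (N (φ k)))) /
              √Var[freeEnergy (N (φ k)) β; disorder (N (φ k))]) ∂(disorder (N (φ k))))
            atTop (𝓝 (∫ x, f x * p x)))) ∧
    (∀ (n : ℕ) (β : ℝ),
      -- anticoncentration at the scale of the standard deviation
      (∀ y u : ℝ, 0 ≤ u → (disorder n).real {g | |freeEnergy n β g - y| ≤ u} ≤
        2610 * (u + 1) / (1 + √Var[freeEnergy n β; disorder n])) ∧
      -- two-sided exponential moment at the scale of the standard deviation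
      (∀ x : ℝ, 0 ≤ x → x * (18 * (1 + √Var[freeEnergy n β; disorder n])) ≤ 1 →
        Integrable (fun g => Real.exp (x * |freeEnergy n β g -
          ∫ h, freeEnergy n β h ∂(disorder n)|)) (disorder n) ∧
        ∫ g, Real.exp (x * |freeEnergy n β g - ∫ h, freeEnergy n β h ∂(disorder n)|)
          ∂(disorder n) ≤ 7) ∧
      -- the free energy plus a Gumbel variable has a log-concave density
      ConcaveOn ℝ Set.univ (fun y => Real.log (∫ g, Real.exp (freeEnergy n β g - y -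
        Real.exp (freeEnergy n β g - y)) ∂(disorder n)))) := by
  have hV : ∀ β : ℝ, 1 < β → H695.LowV β θ := fun β hβ => by
    rw [hθ]
    exact var_of_lob hb0 hb (h β hβ)
  have hθ0 : 0 < θ := by rw [hθ]; positivity
  refine ⟨fun β hβ => ⟨fun γ hγ => ?_, fun κ c hκ0 hκ => ?_, mgf_low hβ (h β hβ), ?_,
    fun N hN => ?_⟩,
    fun n β => ⟨fun y u hu => H655.anticoncentration n β y hu,
      fun x hx hx1 => H695.exp_abs n β hx hx1, H863.p_logconc n β⟩⟩
  · filter_upwards [hV β hβ γ hγ, H695.chaos_gen hθ0 (hV β hβ) hγ] with n h1 h2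
    exact ⟨h1, h2⟩
  · exact H695.small_gen (hV β hβ) hκ0 (by rw [hθ]; linarith)
  · obtain ⟨δ, hδ, hn⟩ := Dev.right_tailB hβ ha0 ha (hU β hβ) hb (h β hβ)
    rw [hτ]
    refine ⟨δ, hδ, fun ε hε => ?_⟩
    filter_upwards [hn ε hε] with n h1 s hs hs1
    exact (h1 s hs hs1).1
  · exact H695.limit_low hβ hN

end Vale.Agent.P146.H260.FinT
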