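import Vale.Agent.P146.H522.TwoRow
import Vale.Agent.P146.H260.FinT

set_option linter.all false

/-!
# P146: from the rows to the lower bound of the exponential moments, every `e`
-/

open MeasureTheory ProbabilityTheory Filter Topology

namespace Vale.Agent.P146.H260.FinT

open Vale.Agent.P146 Vale.Agent.P146.H605 Vale.Agent.P146.H432 Vale.Agent.P146.H522

/-- **The lower bound of the exponential moment from the rows**, for `σ` small enough. -/
theorem loE_of_rows' {β : ℝ} (hβ : 1 < β) (hA : ∀ᶠ n : ℕ in atTop, AntiN n β) {e : ℝ} (he : 0 < e)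
    {σ₀ : ℝ} (hσ₀ : 0 < σ₀)
    (hr : ∀ σ, 0 < σ → σ ≤ e / 1000 → σ ≤ σ₀ → NoN β e σ (100 * σ) (52 * σ) ∧
      NoN β e σ (278 * σ) (141 * σ) ∧ NoK β e σ) : LoE β e := by
  intro ε hε
  obtain ⟨σ, hσe⟩ : ∃ σ, σ = min (min (e / 1000) σ₀) (min (ε / 1000) (1 / 12000)) := ⟨_, rfl⟩
  have hσ1 : σ ≤ e / 1000 := by
    rw [hσe]; exact (min_le_left _ _).trans (min_le_left _ _)
  have hσ3 : σ ≤ σ₀ := by
    rw [hσe]; exact (min_le_left _ _).trans (min_le_right _ _)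
  have hσ2 : σ ≤ ε / 1000 := by
    rw [hσe]; exact (min_le_right _ _).trans (min_le_left _ _)
  have hσ4 : σ ≤ 1 / 12000 := by
    rw [hσe]; exact (min_le_right _ _).trans (min_le_right _ _)
  have hσ : 0 < σ := by
    rw [hσe]; exact lt_min (lt_min (by positivity) hσ₀) (lt_min (by positivity) (by norm_num))
  obtain ⟨r1, r2, r3⟩ := hr σ hσ hσ1 hσ3
  obtain ⟨c, δ, hc, hδ, hup⟩ := Lg_up hβ (a := 138 * σ) (by linarith)
  refine ⟨δ, hδ, ?_⟩
  filter_upwards [top_two hβ hA he.le hσ hσ4 r1 r2 r3, hup,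
    ev_small (a := ε) (δ := c) hε hc, ev_big (a := ε - 419 * σ) (C := 8) (by linarith),
    eventually_ge_atTop 1] with n k1 k4 k5 k6 k7 x hx hxδ
  have hn1 : (1 : ℝ) ≤ n := by exact_mod_cast k7
  have hn0 : (0 : ℝ) < n := by linarith
  have hx0 : 0 < x := (Real.rpow_pos_of_pos hn0 _).trans_le hx
  rcases le_or_gt x ((n : ℝ) ^ (-(138 * σ))) with hxa | hxa
  · have hx1 : x ≤ 1 :=
      hxa.trans (Real.rpow_le_one_of_one_le_of_nonpos hn1 (by linarith))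
    have main : ∀ d w : ℝ, 0 ≤ w → d + w ≤ 419 * σ →
        (n : ℝ) ^ (1 - d) * ((n : ℝ) ^ (-w) * x ^ 2) * x ^ 3 / 8 ≤
          Dn n β x ((n : ℝ) ^ (-w) * x ^ 2) → (n : ℝ) ^ (1 - ε) * x ^ 6 ≤ Lg n β x := by
      intro d w hw hdw key
      have hw0 : 0 < (n : ℝ) ^ (-w) := Real.rpow_pos_of_pos hn0 _
      have hw1 : (n : ℝ) ^ (-w) ≤ 1 := Real.rpow_le_one_of_one_le_of_nonpos hn1 (by linarith)
      have hs1 : (n : ℝ) ^ (-w) * x ^ 2 ≤ 1 := by
        have c3 : x ^ 2 ≤ 1 := pow_le_one₀ hx0.le hx1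
        calc (n : ℝ) ^ (-w) * x ^ 2 ≤ 1 * 1 := mul_le_mul hw1 c3 (by positivity) (by norm_num)
          _ = 1 := by norm_num
      have h7 := log_ge_Dn n β hx0 (s := (n : ℝ) ^ (-w) * x ^ 2) (by positivity) hs1
      have h8 := mul_le_mul_of_nonneg_left key hx0.le
      refine le_trans ?_ (h8.trans h7)
      have e1 : x * ((n : ℝ) ^ (1 - d) * ((n : ℝ) ^ (-w) * x ^ 2) * x ^ 3 / 8) =
          (n : ℝ) ^ (1 - d) * (n : ℝ) ^ (-w) / 8 * x ^ 6 := by ring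
      rw [e1]
      refine mul_le_mul_of_nonneg_right ?_ (by positivity)
      rw [le_div_iff₀ (by norm_num), ← Real.rpow_add hn0]
      have e2 : (1 - 419 * σ : ℝ) = (1 - ε) + (ε - 419 * σ) := by ring
      have e3 : (n : ℝ) ^ (1 - 419 * σ) ≤ (n : ℝ) ^ (1 - d + -w) :=
        Real.rpow_le_rpow_of_exponent_le hn1 (by linarith)
      refine le_trans ?_ e3
      rw [e2, Real.rpow_add hn0]
      exact mul_le_mul_of_nonneg_left k6.le (Real.rpow_nonneg hn0.le _)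
    rcases k1 x hx hxa with h | h
    · exact main (100 * σ) (52 * σ) (by positivity) (by linarith) h
    · exact main (278 * σ) (141 * σ) (by positivity) (by linarith) h
  · refine le_trans ?_ (k4 x hxa.le hxδ)
    have e1 : (n : ℝ) ^ (1 - ε) = (n : ℝ) ^ (-ε) * n := by
      nth_rewrite 3 [← Real.rpow_one (n : ℝ)]
      rw [← Real.rpow_add hn0]
      congr 1
      ring
    rw [e1]
    have h9 : (n : ℝ) ^ (-ε) * n * x ^ 6 ≤ c * n * x ^ 6 := by
      refine mul_le_mul_of_nonneg_right (mul_le_mul_of_nonneg_right k5.le hn0.le) (by positivity)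
    exact h9

/-- `LoE` for all `e > e0` is `Lob` with `b = 1 / 6 - e0`. -/
theorem lob_of_loE {β e0 b : ℝ} (hb : b = 1 / 6 - e0) {e1 : ℝ} (he : e0 < e1)
    (h : ∀ e, e0 < e → e ≤ e1 → LoE β e) : Dev.Lob β b := by
  intro e he'
  obtain ⟨m, hm⟩ : ∃ m, m = min e (e1 - e0) := ⟨_, rfl⟩
  have hm0 : 0 < m := by rw [hm]; exact lt_min he' (by linarith)
  have hm1 : m ≤ e := by rw [hm]; exact min_le_left _ _
  have hm2 : m ≤ e1 - e0 := by rw [hm]; exact min_le_right _ _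
  obtain ⟨δ, hδ, hn⟩ := h (e0 + m) (by linarith) (by linarith) e he'
  refine ⟨δ, hδ, ?_⟩
  filter_upwards [hn, eventually_ge_atTop 1] with n h1 h2 x hx hxδ
  have hn1 : (1 : ℝ) ≤ n := by exact_mod_cast h2
  exact h1 x ((Real.rpow_le_rpow_of_exponent_le hn1 (by linarith)).trans hx) hxδ

/-- **The assembly**, any `e0 < e1`: the rows for `e0 < e ≤ e1` and small `σ` give `Lob`. -/
theorem lob_of_rows {β : ℝ} (hβ : 1 < β) (hA : ∀ᶠ n : ℕ in atTop, AntiN n β) {e0 e1 σ₀ b : ℝ}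
    (hb : b = 1 / 6 - e0) (he0 : 0 ≤ e0) (he1 : e0 < e1) (hσ₀ : 0 < σ₀)
    (hr : ∀ e σ : ℝ, e0 < e → e ≤ e1 → 0 < σ → σ ≤ e / 1000 → σ ≤ σ₀ →
      (RowN2 β e σ (100 * σ) (52 * σ) ∨ RowN1 β e σ (100 * σ) (52 * σ)) ∧
      (RowN2 β e σ (278 * σ) (141 * σ) ∨ RowN1 β e σ (278 * σ) (141 * σ)) ∧
      (RowK2 β e σ ∨ RowK1 β e σ)) : Dev.Lob β b := by
  have hβ0 : 0 < β := by linarith
  refine lob_of_loE hb he1 fun e h1 h2 => loE_of_rows' hβ hA (by linarith) hσ₀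
    fun σ h3 h4 h5 => ?_
  obtain ⟨a, b, c⟩ := hr e σ h1 h2 h3 h4 h5
  exact ⟨a.elim (noN_of_two hβ0 h3) (noN_of_one hβ0 h3),
    b.elim (noN_of_two hβ0 h3) (noN_of_one hβ0 h3),
    c.elim (noK_of_two hβ0 h3) (noK_of_one hβ0 h3)⟩

end Vale.Agent.P146.H260.FinT
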