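import Vale.Agent.P146.H260.V13R

/-!
# P146: consequences of the bound of the entropy at the scale `κ n ^ (-(1 / 6))`
-/

open MeasureTheory ProbabilityTheory Filter Topology

namespace Vale.Agent.P146.H260.V14

open Vale.Agent.P146 Vale.Agent.P146.H605 Vale.Agent.P146.H260.V13

section

open Vale.Agent.P157.Lv Vale.Agent.P146.H425 Vale.Agent.P146.H332 Vale.Agent.P146.H325
open Vale.Agent.P146.R1 Vale.Agent.P146.H946

/-- The entropy of the SK free energy at the exponent `y`. -/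
noncomputable def VX (β : ℝ) (n : ℕ) (y : ℝ) : ℝ := VK (lz (β / √n) (SkS (n := n))) y

/-- the entropy is at most linear in `n` -/
lemma VX_le_lin {β : ℝ} {n : ℕ} (hn : 0 < n) {y : ℝ} (hy : 0 < y) : VX β n y ≤ β ^ 2 / 2 * n := by
  have h := c11_lz (β / √n) (SkS (n := n))
  refine (VK_le_GG h hy).trans ?_
  unfold GG
  have h1 : ∫ t in (0 : ℝ)..1, Phi y (lz (β / √n) (SkS (n := n)))
      (Dz (β / √n)) t ≤ ∫ _ in (0 : ℝ)..1, β ^ 2 / 2 * n :=
    intervalIntegral.integral_mono_on zero_le_one (Phi_int h hy) (by simp) fun t ht =>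
      Phi_le h hy (sk_grad hn β) ht
  simpa using h1

/-- The variance is at most the entropy. -/
lemma var_le_VX {β : ℝ} {n : ℕ} {y : ℝ} (hy : 0 < y) :
    Var[freeEnergy n β; disorder n] ≤ VX β n y := by
  rw [sk_var']
  exact var_le_VK (c11_lz (β / √n) SkS) (cv_lz _ _) hy

/-- the moment generating function above the mean -/
lemma mgf_sk {β : ℝ} {n : ℕ} {x y : ℝ} (hx : 0 ≤ x) (hy : 0 < y) (hx1 : x ≤ y) :
    ∫ g, Real.exp (x * (freeEnergy n β g - ∫ h, freeEnergy n β h ∂(disorder n)))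
      ∂(disorder n) ≤ Real.exp (x ^ 2 / 2 * VX β n y) := by
  have hd : disorder n = gI (Pair n) := rfl
  have hf : freeEnergy n β = lz (β / √n) (SkS (n := n)) := by
    funext g
    exact H332.freeEnergy_eq β g
  rw [hd, hf]
  exact mgf_up (c11_lz (β / √n) SkS) (cv_lz _ _) hx hy hx1

end

/-- The moment generating function on both sides. -/
lemma mgf_both {β : ℝ} {n : ℕ} (hn : 1 ≤ n) {x y : ℝ} (hy : 0 < y) (hx1 : x ≤ y) :
    ∫ g, Real.exp (x * (freeEnergy n β g - ∫ h, freeEnergy n β h ∂(disorder n)))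
      ∂(disorder n) ≤ Real.exp (x ^ 2 / 2 * VX β n y) := by
  rcases le_total 0 x with hx | hx
  · exact mgf_sk hx hy hx1
  · have h1 := R2.H453.Lo.sk_LB β hn zero_le_one le_rfl (neg_nonneg.2 hx)
    have e : ∀ g, Real.exp (-(-x * (freeEnergy n β g - ∫ h, freeEnergy n β h ∂(disorder n)))) =
        Real.exp (x * (freeEnergy n β g - ∫ h, freeEnergy n β h ∂(disorder n))) := by
      intro g
      congr 1
      ring
    simp only [e] at h1
    refine h1.trans (Real.exp_le_exp.2 ?_)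
    rw [crossCov_one n β hn]
    have h2 := mul_le_mul_of_nonneg_left (var_le_VX (β := β) (n := n) hy)
      (by positivity : 0 ≤ x ^ 2 / 2)
    have e2 : (-x) ^ 2 / 2 * Var[freeEnergy n β; disorder n] =
        x ^ 2 / 2 * Var[freeEnergy n β; disorder n] := by ring
    rw [e2, sub_self]
    linarith

/-- The conclusions at the rate `n ^ d`. -/
structure Fluct (β κ d D : ℝ) (n : ℕ) : Prop where
  var : Var[freeEnergy n β; disorder n] ≤ D * (n : ℝ) ^ (1 / 3 + d)
  mgf : ∀ x : ℝ, x ≤ κ * (n : ℝ) ^ (-(1 / 6) : ℝ) →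
    ∫ g, Real.exp (x * (freeEnergy n β g - ∫ h, freeEnergy n β h ∂(disorder n)))
      ∂(disorder n) ≤ Real.exp (D * (n : ℝ) ^ (1 / 3 + d) * x ^ 2)
  tail : ∀ u : ℝ, 0 ≤ u → (disorder n).real {g | u * (n : ℝ) ^ (1 / 6 + d) ≤
    |freeEnergy n β g - ∫ h, freeEnergy n β h ∂(disorder n)|} ≤ D * Real.exp (-u)
  low : ∀ u : ℝ, 0 ≤ u → (disorder n).real {g | freeEnergy n β g ≤
    ∫ h, freeEnergy n β h ∂(disorder n) - u * (n : ℝ) ^ (1 / 6 + d)} ≤ Real.exp (-(u ^ 2 / D))
  prof : ∀ t : ℝ, 0 ≤ t → t < 1 →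
    (1 - t) * (β ^ 2 / 2 * (n * crossOverlap n β t - 1)) ≤ D * (n : ℝ) ^ (1 / 3 + d)
  chaos : ∀ t : ℝ, 0 ≤ t → t < 1 →
    crossOverlap n β t ≤ D * (n : ℝ) ^ (-(2 / 3) + d) / (1 - t)

/-- **The consequences.** -/
theorem cons {β κ : ℝ} (hβ : 0 < β) (hκ : 0 < κ)
    (H : ∀ ε : ℝ, 0 < ε → ∀ᶠ n : ℕ in atTop,
      VX β n (κ * (n : ℝ) ^ (-(1 / 6) : ℝ)) < (n : ℝ) ^ (1 / 3 + ε : ℝ))
    (d : ℝ) (hd : 0 < d) : ∃ D : ℝ, 1 ≤ D ∧ ∀ n : ℕ, 1 ≤ n → Fluct β κ d D n := by
  obtain ⟨C, hC, hV⟩ := all_n (w := fun n => VX β n (κ * (n : ℝ) ^ (-(1 / 6) : ℝ)))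
    (c := β ^ 2 / 2) (fun n hn => VX_le_lin (by omega)
      (mul_pos hκ (Real.rpow_pos_of_pos (by exact_mod_cast hn) _)))
    (by positivity : (0 : ℝ) ≤ 1 / 3 + d) (H d hd)
  have hC0 : 0 < C := by linarith
  obtain ⟨N, hN⟩ : ∃ N : ℝ, N = (1 / κ) ^ (1 / d) := ⟨_, rfl⟩
  have hN0 : 0 < N := by rw [hN]; positivity
  obtain ⟨K, hK⟩ : ∃ K : ℝ, K = C + β ^ 2 * N := ⟨_, rfl⟩
  have hKC : C ≤ K := by rw [hK]; linarith [mul_pos (by positivity : 0 < β ^ 2) hN0]
  have hKN : β ^ 2 * N ≤ K := by rw [hK]; linarith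
  have hq : 0 ≤ 2 * C / β ^ 2 := by positivity
  obtain ⟨D, hD⟩ : ∃ D : ℝ, D = 2 * C + 2 * Real.exp K + (1 + 2 * C / β ^ 2) := ⟨_, rfl⟩
  have hexp : 0 < Real.exp K := Real.exp_pos K
  have hDC : 2 * C ≤ D := by rw [hD]; linarith
  have hDC' : C ≤ D := by linarith
  have hDe : 2 * Real.exp K ≤ D := by rw [hD]; linarith
  refine ⟨D, by linarith, fun n hn => ?_⟩
  have hn1 : (1 : ℝ) ≤ n := by exact_mod_cast hn
  have hn0 : (0 : ℝ) < n := by linarith
  obtain ⟨y, hy⟩ : ∃ y : ℝ, y = κ * (n : ℝ) ^ (-(1 / 6) : ℝ) := ⟨_, rfl⟩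
  have hy0 : 0 < y := by rw [hy]; positivity
  have hVn := hV n hn
  simp only [← hy] at hVn
  have hvar := var_le_VX (β := β) (n := n) hy0
  obtain ⟨Y, hY⟩ : ∃ Y : ℝ, Y = (n : ℝ) ^ (1 / 3 + d) := ⟨_, rfl⟩
  have hY0 : 0 < Y := by rw [hY]; positivity
  rw [← hY] at hVn
  have hprob : IsProbabilityMeasure (disorder n) := by
    unfold disorder
    infer_instance
  have hDY : C * Y ≤ D * Y := mul_le_mul_of_nonneg_right hDC' hY0.le
  -- the scale
  obtain ⟨s, hs⟩ : ∃ s : ℝ, s = (n : ℝ) ^ (1 / 6 + d) := ⟨_, rfl⟩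
  have hs0 : 0 < s := by rw [hs]; positivity
  have hs1 : 1 ≤ s := by rw [hs]; exact Real.one_le_rpow hn1 (by positivity)
  have hYs : Y ≤ s ^ 2 := by
    rw [hY, hs, ← Real.rpow_natCast, ← Real.rpow_mul hn0.le]
    refine Real.rpow_le_rpow_of_exponent_le hn1 ?_
    push_cast
    linarith
  -- the lower tail
  have hlow : ∀ u : ℝ, 0 ≤ u → (disorder n).real {g | freeEnergy n β g ≤
      ∫ h, freeEnergy n β h ∂(disorder n) - u * s} ≤ Real.exp (-(u ^ 2 / (2 * C))) := by
    intro u hu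
    have hx : 0 ≤ u / (C * s) := by positivity
    have h1 := mgf_both (β := β) (n := n) hn (x := -(u / (C * s))) hy0
      ((neg_nonpos.2 hx).trans hy0.le)
    have h2 := R2.H533.chernoff (n := n) (β := β) (x := u / (C * s)) (u := u * s)
      (B := (-(u / (C * s))) ^ 2 / 2 * VX β n y) (fun y => int_exp_sk n β y) hx (by
        refine le_trans (le_of_eq ?_) h1
        congr 1
        funext g
        congr 1
        ring)
    refine h2.trans (Real.exp_le_exp.2 ?_)
    have h3 : (-(u / (C * s))) ^ 2 / 2 * VX β n y ≤ (-(u / (C * s))) ^ 2 / 2 * (C * s ^ 2) := by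
      refine mul_le_mul_of_nonneg_left (hVn.trans ?_) (by positivity)
      exact mul_le_mul_of_nonneg_left hYs hC0.le
    have e1 : (-(u / (C * s))) ^ 2 / 2 * (C * s ^ 2) = u ^ 2 / (2 * C) := by
      field_simp
    have e2 : u / (C * s) * (u * s) = 2 * (u ^ 2 / (2 * C)) := by
      field_simp
    rw [e1] at h3
    rw [e2]
    linarith
  -- the upper tail
  have hup : ∀ u : ℝ, 0 ≤ u → (disorder n).real {g |
      ∫ h, freeEnergy n β h ∂(disorder n) + u * s ≤ freeEnergy n β g} ≤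
        Real.exp K * Real.exp (-u) := by
    intro u hu
    have hx : 0 < 1 / s := by positivity
    obtain ⟨w, hw0, hw1, hw2⟩ : ∃ w : ℝ, 0 < w ∧ 1 / s ≤ w ∧
        (1 / s) ^ 2 / 2 * VX β n w ≤ K := by
      by_cases hcase : 1 / s ≤ y
      · refine ⟨y, hy0, hcase, ?_⟩
        have h3 : (1 / s) ^ 2 / 2 * VX β n y ≤ (1 / s) ^ 2 / 2 * (C * s ^ 2) := by
          refine mul_le_mul_of_nonneg_left (hVn.trans ?_) (by positivity)
          exact mul_le_mul_of_nonneg_left hYs hC0.le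
        have e1 : (1 / s) ^ 2 / 2 * (C * s ^ 2) = C / 2 := by
          field_simp
        rw [e1] at h3
        linarith
      · push Not at hcase
        refine ⟨1 / s, hx, le_rfl, ?_⟩
        have hnN : (n : ℝ) ≤ N := by
          have h4 : κ * (n : ℝ) ^ d < 1 := by
            have h5 := (lt_div_iff₀ hs0).1 hcase
            have e6 : y * s = κ * (n : ℝ) ^ d := by
              rw [hy, hs, mul_assoc, ← Real.rpow_add hn0]
              congr 2
              ring
            rwa [e6] at h5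
          have h5 : (n : ℝ) ^ d ≤ 1 / κ := by
            rw [le_div_iff₀ hκ, mul_comm]
            exact h4.le
          have h6 := Real.rpow_le_rpow (by positivity) h5 (by positivity : 0 ≤ 1 / d)
          rw [← Real.rpow_mul hn0.le, mul_one_div_cancel hd.ne', Real.rpow_one] at h6
          rw [hN]
          exact h6
        have h7 := VX_le_lin (β := β) (n := n) (by omega) hx
        have h8 : (1 / s) ^ 2 ≤ 1 := by
          refine pow_le_one₀ hx.le ?_
          rw [div_le_one hs0]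
          exact hs1
        have h9 : (1 / s) ^ 2 / 2 * VX β n (1 / s) ≤ 1 / 2 * (β ^ 2 / 2 * n) :=
          mul_le_mul (by linarith) h7 (le_trans (variance_nonneg _ _) (var_le_VX hx))
            (by norm_num)
        have h10 : β ^ 2 * n ≤ β ^ 2 * N := mul_le_mul_of_nonneg_left hnN (by positivity)
        have h11 : 0 ≤ β ^ 2 * n := by positivity
        linarith
    have h1 := mgf_both (β := β) (n := n) hn hw0 hw1
    have h2 := chernoff_up (u := u * s) hx.le h1
    refine h2.trans ?_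
    rw [← Real.exp_add]
    refine Real.exp_le_exp.2 ?_
    have e2 : 1 / s * (u * s) = u := by
      field_simp
    rw [e2]
    linarith
  have hprof : ∀ t : ℝ, 0 ≤ t → t < 1 →
      (1 - t) * (β ^ 2 / 2 * (n * crossOverlap n β t - 1)) ≤ C * Y := by
    intro t ht ht1
    have h1 := var_ge_crossOverlap n β hn ht ht1.le
    linarith
  refine ⟨?_, fun x hx => (mgf_both hn hy0 (by rw [hy]; exact hx)).trans
    (Real.exp_le_exp.2 ?_), fun u hu => ?_, fun u hu => ?_, fun t ht ht1 => ?_,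
    fun t ht ht1 => ?_⟩
  · rw [← hY]
    exact (hvar.trans hVn).trans hDY
  · rw [← hY]
    have h1 := mul_le_mul_of_nonneg_left (hVn.trans hDY) (by positivity : 0 ≤ x ^ 2 / 2)
    have h2 : 0 ≤ D * Y * x ^ 2 := by
      have : 0 ≤ D := by linarith
      positivity
    linarith
  · rw [← hs]
    have h1 := hlow u hu
    have h2 := hup u hu
    have h3 : {g | u * s ≤ |freeEnergy n β g - ∫ h, freeEnergy n β h ∂(disorder n)|} ⊆
        {g | freeEnergy n β g ≤ ∫ h, freeEnergy n β h ∂(disorder n) - u * s} ∪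
        {g | ∫ h, freeEnergy n β h ∂(disorder n) + u * s ≤ freeEnergy n β g} := by
      intro g hg
      simp only [Set.mem_ofPred_eq, Set.mem_union] at hg ⊢
      rcases le_abs.1 hg with h | h
      · right; linarith
      · left; linarith
    have h4 := (measureReal_mono (μ := disorder n) h3 (measure_ne_top _ _)).trans
      (measureReal_union_le _ _)
    have h5 : Real.exp (-(u ^ 2 / (2 * C))) ≤ Real.exp K * Real.exp (-u) := by
      rw [← Real.exp_add]
      refine Real.exp_le_exp.2 ?_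
      have h6 : 0 ≤ (u - C) ^ 2 / (2 * C) := by positivity
      have e : (u - C) ^ 2 / (2 * C) = u ^ 2 / (2 * C) - u + C / 2 := by
        field_simp
        ring
      rw [e] at h6
      linarith
    have h7 := mul_le_mul_of_nonneg_right hDe (Real.exp_pos (-u)).le
    linarith
  · rw [← hs]
    refine (hlow u hu).trans (Real.exp_le_exp.2 ?_)
    have h1 : u ^ 2 / D ≤ u ^ 2 / (2 * C) := by gcongr
    linarith
  · rw [← hY]
    exact (hprof t ht ht1).trans hDY
  · have h6 := hprof t ht ht1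
    have ht' : 0 < 1 - t := by linarith
    rw [le_div_iff₀ ht']
    obtain ⟨Z, hZ⟩ : ∃ Z : ℝ, Z = (n : ℝ) ^ (-(2 / 3) + d) := ⟨_, rfl⟩
    have hZn : Z * n = Y := by
      rw [hZ, hY, ← Real.rpow_add_one hn0.ne']
      congr 1
      ring
    have hY1 : 1 ≤ Z * n := by rw [hZn, hY]; exact Real.one_le_rpow hn1 (by positivity)
    rw [← hZn] at h6
    rw [← hZ]
    have h7 : (1 - t) * (n * crossOverlap n β t - 1) ≤ 2 * C / β ^ 2 * (Z * n) := by
      have e : 2 * C / β ^ 2 * (Z * n) = 2 / β ^ 2 * (C * (Z * n)) := by ring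
      rw [e]
      have h8 := mul_le_mul_of_nonneg_left h6 (by positivity : 0 ≤ 2 / β ^ 2)
      refine le_trans (le_of_eq ?_) h8
      field_simp
    have h9 : n * (crossOverlap n β t * (1 - t)) ≤ n * (D * Z) := by
      have e : n * (crossOverlap n β t * (1 - t)) =
        (1 - t) * (n * crossOverlap n β t - 1) + (1 - t) := by ring
      have e2 : n * (D * Z) = (2 * C + 2 * Real.exp K) * (Z * n) + (Z * n) +
          2 * C / β ^ 2 * (Z * n) := by
        rw [hD]; ring
      have h10 : 0 ≤ (2 * C + 2 * Real.exp K) * (Z * n) := by positivity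
      rw [e, e2]
      linarith
    exact le_of_mul_le_mul_left h9 hn0

end Vale.Agent.P146.H260.V14
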