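import Vale.Agent.P146.H260.V13L
import Vale.Agent.P146.H260.V14R
import Vale.Agent.P146.H325.KapR

/-!
# P146: the conclusions for the SK model, `β < 3 / 2`
-/

open MeasureTheory ProbabilityTheory Filter

namespace Vale.Agent.P146.H260.V13

open Vale.Agent.P146 Vale.Agent.P146.H605

/-- **(KAP) for SK.** -/
theorem hK_sk {β : ℝ} (hβ : 0 < β) (hB : R1S.BadSk β) :
    ∃ C : ℝ, ∃ m : ℕ, ∃ c : ℝ, 0 < c ∧ ∀ α : ℝ, 0 < α → ∃ n₀ : ℕ, ∀ n : ℕ, n₀ ≤ n →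
      ∀ T ρ x : ℝ, PF β n ((n : ℝ) ^ α) T ρ x → T ≤ 1 / (n : ℝ) ^ α →
      2 * ρ / (β ^ 2 * n) ≤ C * ((n : ℝ) ^ α) ^ m * (√(1 / (n * T)) +
        x * √(2 * ρ / (β ^ 2 * n)) + ((1 / (x ^ 2 * ρ * T) + 1 / (n * T)) ^ c + x ^ c) *
          (2 * ρ / (β ^ 2 * n)) + 1 / n) := by
  obtain ⟨C, m, c, hc, h⟩ := R1S.kap_hK hβ hB
  refine ⟨C, m, c, hc, fun α hα => ?_⟩
  obtain ⟨n₀, h⟩ := h α hα
  refine ⟨n₀, fun n hn T ρ x hP hT => ?_⟩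
  obtain ⟨q, δ, hx, hf⟩ := hP
  subst hx
  exact h n hn δ T ρ q hf hT

/-- **The conclusions for SK**, from the rarity of the bad bulks. -/
theorem h2_of {β : ℝ} (hβ : 0 < β) (hB : R1S.BadSk β) (d : ℝ) (hd : 0 < d) :
    ∃ D : ℝ, 1 ≤ D ∧ ∀ n : ℕ, 1 ≤ n → V14.Fluct β 1 d D n := by
  refine V14.cons hβ one_pos (fun ε hε => ?_) d hd
  have h := var13_of hβ (hL_sk hβ) (hK_sk hβ hB) ε hε
  refine h.mono fun n hn => ?_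
  rw [one_mul]
  exact hn

/-- **The conclusions for SK, `β < 3 / 2`.** -/
theorem h2 {β : ℝ} (hβ : 0 < β) (hβ2 : β < 3 / 2) (d : ℝ) (hd : 0 < d) :
    ∃ D : ℝ, 1 ≤ D ∧ ∀ n : ℕ, 1 ≤ n → V14.Fluct β 1 d D n :=
  h2_of hβ (R1S.badSk hβ hβ2) d hd

end Vale.Agent.P146.H260.V13
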