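import Vale.Agent.P146.H260.Dblc17
import Vale.Agent.P146.H695.Sub2
import Vale.Agent.P146.H260.FinT

set_option linter.all false

/-!
The lower bound of the exponential moments down to `n^{-2/17}`.
-/

namespace Vale.Agent.P146.H260.D17

theorem lob17 {β : ℝ} (hβ : 1 < β) : Dev.Lob β (2 / 17) := H695.Sub.lob17 hβ

end Vale.Agent.P146.H260.D17
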