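import Vale.Agent.P146.H260.FOutK

/-!
The moment generating function above the mean, from the entropy at one scale.
-/

open MeasureTheory ProbabilityTheory

namespace Vale.Agent.P146.H260.V13

open Vale.Agent.P157.Lv Vale.Agent.P146.H425 Vale.Agent.P146.R1

set_option linter.unusedSectionVars false

variable {κ : Type} [Fintype κ] {F : (κ → ℝ) → ℝ} {D : κ → (κ → ℝ) → ℝ} {B L x x' : ℝ}

lemma W_le_mean (h : C11 F D B L) (hc : Cv F) (hx : 0 < x) :
    W x 1 F 0 ≤ ∫ z, F z ∂(gI κ) + x / 2 * VK F x := by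
  set E := ∫ z', F z' ∂(gI κ) with hE
  have hl := h.lip.lip h.B0
  have hY : Lip (fun z => F z - E) := by
    simpa [sub_eq_add_neg] using hl.add (Lip.const (-E))
  have hY0 : ∫ z, (F z - E) ∂(gI κ) = 0 := by
    rw [integral_sub hl.eg.integrable (integrable_const _), ← hE]
    simp
  obtain ⟨C2, hC2, hupp⟩ := small_upper hY hY0
  have hexp : ∀ b, ∫ z, Real.exp (b * F z) ∂(gI κ) =
      Real.exp (b * E) * ∫ z, Real.exp (b * (F z - E)) ∂(gI κ) := by
    intro b
    rw [← integral_const_mul]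
    refine integral_congr_ae (Filter.Eventually.of_forall fun z => ?_)
    simp only
    rw [← Real.exp_add]
    congr 1
    ring
  have hpos : ∀ b, 0 < ∫ z, Real.exp (b * (F z - E)) ∂(gI κ) := fun b =>
    integral_exp_pos (hY.exp_eg b).integrable
  have hWe : ∀ b, 0 < b → W b 1 F 0 = E + 1 / b *
      Real.log (∫ z, Real.exp (b * (F z - E)) ∂(gI κ)) := by
    intro b hb
    rw [W_one_zero, hexp, Real.log_mul (Real.exp_pos _).ne' (hpos b).ne', Real.log_exp]
    field_simp
  have hWu : ∀ b, 0 < b → b ≤ 1 → W b 1 F 0 ≤ E + C2 * b := by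
    intro b hb hbb
    rw [hWe b hb]
    have h1 := (Real.log_le_iff_le_exp (hpos b)).2 (hupp b hb hbb)
    have h2 := mul_le_mul_of_nonneg_left h1 (show 0 ≤ 1 / b by positivity)
    have e : 1 / b * (C2 * b ^ 2) = C2 * b := by
      field_simp
    linarith
  refine le_of_forall_pos_le_add fun ε hε => ?_
  set c := KL F x / x ^ 2 with hcdef
  have eV : x / 2 * VK F x = x * c := by unfold VK; rw [hcdef]; ring
  rw [eV]
  set b := min 1 (ε / (C2 + |c| + 1)) with hb
  have hden : 0 < C2 + |c| + 1 := by positivity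
  have hb0 : 0 < b := lt_min one_pos (by positivity)
  have hb1 : b ≤ 1 := min_le_left _ _
  have hb2 : b * (C2 + |c| + 1) ≤ ε := by
    have := min_le_right (1 : ℝ) (ε / (C2 + |c| + 1))
    rw [← hb, le_div_iff₀ hden] at this
    exact this
  have h1 := tangent h hc hx hb0
  have h2 := hWu b hb0 hb1
  have h3 := neg_abs_le c
  rw [← hcdef] at h1
  nlinarith

/-- **The moment generating function above the mean.** -/
theorem mgf_up (h : C11 F D B L) (hc : Cv F) (hx : 0 ≤ x) (hx' : 0 < x') (hxx : x ≤ x') :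
    ∫ z, Real.exp (x * (F z - ∫ z', F z' ∂(gI κ))) ∂(gI κ) ≤
      Real.exp (x ^ 2 / 2 * VK F x') := by
  rcases hx.eq_or_lt with rfl | hx
  · simp
  have h1 := W_le_mean h hc hx
  have h2 := VK_mono h hc hx hxx
  have h3 : 0 < ∫ z, Real.exp (x * F z) ∂(gI κ) :=
    integral_exp_pos ((h.lip.lip h.B0).exp_eg x).integrable
  have e : ∫ z, Real.exp (x * (F z - ∫ z', F z' ∂(gI κ))) ∂(gI κ) =
      Real.exp (-(x * ∫ z', F z' ∂(gI κ))) * ∫ z, Real.exp (x * F z) ∂(gI κ) := by
    rw [← integral_const_mul]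
    refine integral_congr_ae (Filter.Eventually.of_forall fun z => ?_)
    simp only
    rw [← Real.exp_add]
    congr 1
    ring
  rw [W_one_zero] at h1
  have h4 : Real.log (∫ z, Real.exp (x * F z) ∂(gI κ)) ≤
      x * (∫ z, F z ∂(gI κ)) + x ^ 2 / 2 * VK F x' := by
    have h5 := mul_le_mul_of_nonneg_left h1 hx.le
    have e2 : x * (1 / x * Real.log (∫ z, Real.exp (x * F z) ∂(gI κ))) =
        Real.log (∫ z, Real.exp (x * F z) ∂(gI κ)) := by field_simp
    rw [e2] at h5
    have h6 := mul_le_mul_of_nonneg_left h2 (by positivity : 0 ≤ x ^ 2 / 2)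
    nlinarith
  rw [Real.log_le_iff_le_exp h3] at h4
  rw [e]
  refine (mul_le_mul_of_nonneg_left h4 (Real.exp_pos _).le).trans (le_of_eq ?_)
  rw [← Real.exp_add]
  congr 1
  ring

end Vale.Agent.P146.H260.V13
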