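import Vale.Agent.P146.H260.Mgf
import Vale.Agent.P146.H260.V13
import Vale.Agent.P146.H946.FoI

/-!
# P146: the input of the contradiction for the SK model
-/

open MeasureTheory ProbabilityTheory Filter

namespace Vale.Agent.P146.H260.V13

open Vale.Agent.P157.Lv Vale.Agent.P146.H425 Vale.Agent.P146.H332 Vale.Agent.P146.H325
open Vale.Agent.P146.R1 Vale.Agent.P146.H946

set_option linter.unusedSectionVars false

/-- The data at the scale `(x, T, ρ)` for SK. -/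
def PF (β : ℝ) (n : ℕ) (A T ρ x : ℝ) : Prop :=
  ∃ (q : R1C.Par) (δ : ℝ), q.x = x ∧ R1C.Fo n β A δ T ρ q (lz (R1C.kk n β) (SkS (n := n)))
    (AA (R1C.kk n β) q.x) (R1C.DC (R1C.kk n β) q.x)

/-- The entropy of the SK free energy at the scale `n ^ (-(1 / 6))`. -/
noncomputable def VS (β : ℝ) (n : ℕ) : ℝ :=
  VK (lz (β / √n) (SkS (n := n))) ((n : ℝ) ^ (-(1 / 6) : ℝ))

/-- **(hF) for SK.** -/
theorem hF_sk {β : ℝ} (hβ : 0 < β) (ε α : ℝ) (hα : 0 < α) (hε : 100 * α ≤ ε)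
    (hε1 : ε ≤ 1 / 10) :
    ∃ n₀ : ℕ, ∀ n : ℕ, n₀ ≤ n →
      (n : ℝ) ^ (1 / 3 + ε : ℝ) ≤ VS β n → ∃ T ρ x : ℝ, PF β n ((n : ℝ) ^ α) T ρ x ∧ 0 < T ∧ T ≤ 1 ∧
        0 < ρ ∧ 2 * ρ ≤ β ^ 2 * n ∧ 0 < x ∧ x ≤ (n : ℝ) ^ (-(1 / 6) + α : ℝ) ∧
        (n : ℝ) ^ (ε - α) ≤ x ^ 2 * ρ * T ∧
        ((n : ℝ) ^ (-(1 / 100) : ℝ) ≤ T → 2 * ρ / (β ^ 2 * n) ≤ (n : ℝ) ^ (-(1 / 8) : ℝ)) := by
  have hα2 : 0 < α / 2 := by linarith
  have hb2 : 0 < β ^ 2 / 2 := by positivity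
  have hε2 : 0 < ε / 2 := by linarith
  obtain ⟨_, _, n₀, h2, hf⟩ := f_finK (ε := ε) hα2 (by linarith) hb2 hb2.le
  obtain ⟨n₂, hn₂, hcor⟩ := sk_corner hβ.ne' (a := α / 2) (c₀ := 1 / 100) (b := 1 / 8)
    (by linarith) (by linarith)
  obtain ⟨n₁, h1⟩ := Filter.eventually_atTop.1 ((pow_exp_le hε2).and
    ((gap_ev hα2 (by linarith : α / 2 < α) (β ^ 2 / 2)).and
      (Filter.eventually_ge_atTop (β ^ 2))))
  obtain ⟨m, hm⟩ := exists_nat_ge (max (max n₀ n₁) n₂)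
  refine ⟨m, fun n hn hV => ?_⟩
  have hnm : max (max n₀ n₁) n₂ ≤ (n : ℝ) := hm.trans (by exact_mod_cast hn)
  have hn0 : n₀ ≤ (n : ℝ) := ((le_max_left _ _).trans (le_max_left _ _)).trans hnm
  have hn1 : n₁ ≤ (n : ℝ) := ((le_max_right _ _).trans (le_max_left _ _)).trans hnm
  have hn2 : n₂ ≤ (n : ℝ) := (le_max_right _ _).trans hnm
  obtain ⟨g1, g2, g3⟩ := h1 n hn1
  have h2n : 2 ≤ n := by
    have : (2 : ℝ) ≤ n := h2.trans hn0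
    exact_mod_cast this
  have hnp : 0 < n := by omega
  have hnr : (1 : ℝ) ≤ n := by exact_mod_cast hnp
  obtain ⟨x, θ, T, ρ, s1, s2, _, hρ, hd⟩ := hf n hn0 (Pair n) _ _ _ _ _ _ _
    (sk_sm (β / √n)) (cv_lz _ _) (sk_grad hnp β) (sk_hK hnp β) hV
  have hd' : FData n (α / 2) ε (β ^ 2 / 2) (lz (R1C.kk n β) (SkS (n := n))) (Dz (R1C.kk n β))
          (fun x θ T s => Ht x θ (1 - T) (1 - T / 2) s (lz (R1C.kk n β) (SkS (n := n)))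
            (Dz (R1C.kk n β)) (Hz (R1C.kk n β))) x θ T ρ s1 s2 := hd
  have hFo := fo_of_fdata (al := α) h2n hβ hα2 (by linarith) (by linarith) (by linarith) g3 g2
    g1 hd'
  refine ⟨T, ρ, x, ⟨⟨x, θ, 1 - T, 1 - T / 2, s1, s2⟩, _, rfl, hFo⟩, hd.T_pos, hd.T_le, hd.ρ_pos,
    ?_, hFo.ok.x0, hd.x_up.trans ?_, le_trans ?_ hd.y_low, fun hT => ?_⟩
  · have := hd.ρ_le
    linarith
  · exact Real.rpow_le_rpow_of_exponent_le hnr (by linarith)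
  · exact Real.rpow_le_rpow_of_exponent_le hnr (by linarith)
  · rw [hρ]
    exact hcor n hn2 x hd.x_low hd.x_up T hd.T_pos hd.T_le hT

/-- The variance is at most `VS`. -/
lemma var_le_VS {β : ℝ} {n : ℕ} (hn : 0 < n) : Var[freeEnergy n β; disorder n] ≤ VS β n := by
  rw [sk_var']
  exact var_le_VK (c11_lz (β / √n) SkS) (cv_lz _ _)
    (Real.rpow_pos_of_pos (Nat.cast_pos.2 hn) _)

/-- the moment generating function above the mean -/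
lemma mgf_sk {β : ℝ} {n : ℕ} (hn : 0 < n) {x : ℝ} (hx : 0 ≤ x)
    (hx1 : x ≤ (n : ℝ) ^ (-(1 / 6) : ℝ)) :
    ∫ g, Real.exp (x * (freeEnergy n β g - ∫ h, freeEnergy n β h ∂(disorder n)))
      ∂(disorder n) ≤ Real.exp (x ^ 2 / 2 * VS β n) := by
  have hd : disorder n = gI (Pair n) := rfl
  have hf : freeEnergy n β = lz (β / √n) (SkS (n := n)) := by
    funext g
    exact H332.freeEnergy_eq β g
  rw [hd, hf]
  exact mgf_up (c11_lz (β / √n) SkS) (cv_lz _ _) hx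
    (Real.rpow_pos_of_pos (Nat.cast_pos.2 hn) _) hx1

/-- **The entropy from the two estimates.** -/
theorem var13_of {β : ℝ} (hβ : 0 < β)
    (hL : ∃ C : ℝ, ∃ m : ℕ, ∀ α : ℝ, 0 < α → ∃ n₀ : ℕ, ∀ n : ℕ, n₀ ≤ n → ∀ T ρ x : ℝ,
      PF β n ((n : ℝ) ^ α) T ρ x → T ≤ C * ((n : ℝ) ^ α) ^ m * (√(1 / (n * T)) +
        x * √(2 * ρ / (β ^ 2 * n)) + 2 * ρ / (β ^ 2 * n) + 1 / n))
    (hK : ∃ C : ℝ, ∃ m : ℕ, ∃ c : ℝ, 0 < c ∧ ∀ α : ℝ, 0 < α → ∃ n₀ : ℕ, ∀ n : ℕ, n₀ ≤ n →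
      ∀ T ρ x : ℝ, PF β n ((n : ℝ) ^ α) T ρ x → T ≤ 1 / (n : ℝ) ^ α →
      2 * ρ / (β ^ 2 * n) ≤ C * ((n : ℝ) ^ α) ^ m * (√(1 / (n * T)) +
        x * √(2 * ρ / (β ^ 2 * n)) + ((1 / (x ^ 2 * ρ * T) + 1 / (n * T)) ^ c + x ^ c) *
          (2 * ρ / (β ^ 2 * n)) + 1 / n)) :
    ∀ ε : ℝ, 0 < ε → ∀ᶠ n : ℕ in atTop, VS β n < (n : ℝ) ^ (1 / 3 + ε : ℝ) :=
  core hβ.ne' (V := VS β) (P := PF β) (fun ε α hα hε hε1 => hF_sk hβ ε α hα hε hε1) hL hK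

end Vale.Agent.P146.H260.V13
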