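import Vale.Agent.P146.H260.V13R
import Vale.Agent.P146.H640.LamHL

/-!
# P146: the bound of the entropy from the kappa estimate only
-/

open MeasureTheory ProbabilityTheory Filter

namespace Vale.Agent.P146.H260.V13

open Vale.Agent.P146 Vale.Agent.P146.H605

/-- **(LAM) for SK.** -/
theorem hL_sk {β : ℝ} (hβ : 0 < β) : ∃ C : ℝ, ∃ m : ℕ, ∀ α : ℝ, 0 < α → ∃ n₀ : ℕ, ∀ n : ℕ,
    n₀ ≤ n → ∀ T ρ x : ℝ, PF β n ((n : ℝ) ^ α) T ρ x →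
      T ≤ C * ((n : ℝ) ^ α) ^ m * (√(1 / (n * T)) +
        x * √(2 * ρ / (β ^ 2 * n)) + 2 * ρ / (β ^ 2 * n) + 1 / n) := by
  obtain ⟨C, m, h⟩ := R1C.lam_hL hβ
  refine ⟨C, m, fun α hα => ?_⟩
  obtain ⟨n₀, h⟩ := h α hα
  refine ⟨n₀, fun n hn T ρ x hP => ?_⟩
  obtain ⟨q, δ, hx, hf⟩ := hP
  subst hx
  exact h n hn δ T ρ q hf

/-- **The consequences of the kappa estimate.** -/
theorem cons_of_kap {β : ℝ} (hβ : 0 < β)
    (hK : ∃ C : ℝ, ∃ m : ℕ, ∃ c : ℝ, 0 < c ∧ ∀ α : ℝ, 0 < α → ∃ n₀ : ℕ, ∀ n : ℕ, n₀ ≤ n →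
      ∀ T ρ x : ℝ, PF β n ((n : ℝ) ^ α) T ρ x → T ≤ 1 / (n : ℝ) ^ α →
      2 * ρ / (β ^ 2 * n) ≤ C * ((n : ℝ) ^ α) ^ m * (√(1 / (n * T)) +
        x * √(2 * ρ / (β ^ 2 * n)) + ((1 / (x ^ 2 * ρ * T) + 1 / (n * T)) ^ c + x ^ c) *
          (2 * ρ / (β ^ 2 * n)) + 1 / n)) (d : ℝ) (hd : 0 < d) :
    ∃ D : ℝ, 1 ≤ D ∧ ∀ n : ℕ, 1 ≤ n →
      Var[freeEnergy n β; disorder n] ≤ D * (n : ℝ) ^ (1 / 3 + d) ∧
      (∀ x : ℝ, x ≤ (n : ℝ) ^ (-(1 / 6) : ℝ) →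
        ∫ g, Real.exp (x * (freeEnergy n β g - ∫ h, freeEnergy n β h ∂(disorder n)))
          ∂(disorder n) ≤ Real.exp (D * (n : ℝ) ^ (1 / 3 + d) * x ^ 2)) ∧
      (∀ u : ℝ, 0 ≤ u → (disorder n).real {g | u * (n : ℝ) ^ (1 / 6 + d) ≤
        |freeEnergy n β g - ∫ h, freeEnergy n β h ∂(disorder n)|} ≤ D * Real.exp (-u)) ∧
      (∀ u : ℝ, 0 ≤ u → (disorder n).real {g | freeEnergy n β g ≤
        ∫ h, freeEnergy n β h ∂(disorder n) - u * (n : ℝ) ^ (1 / 6 + d)} ≤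
          Real.exp (-(u ^ 2 / D))) ∧
      (∀ t : ℝ, 0 ≤ t → t < 1 →
        (1 - t) * (β ^ 2 / 2 * (n * crossOverlap n β t - 1)) ≤ D * (n : ℝ) ^ (1 / 3 + d) ∧
        crossOverlap n β t ≤ D * (n : ℝ) ^ (-(2 / 3) + d) / (1 - t)) := by
  obtain ⟨D, hD, h⟩ := cons (var13_of hβ (hL_sk hβ) hK) d hd
  have hb : 0 < β ^ 2 := by positivity
  obtain ⟨D', hD'⟩ : ∃ D' : ℝ, D' = D + (1 + 2 * D / β ^ 2) := ⟨_, rfl⟩
  have hq : 0 ≤ 2 * D / β ^ 2 := by positivity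
  have hDD : D ≤ D' := by rw [hD']; linarith
  refine ⟨D', by linarith, fun n hn => ?_⟩
  have hn1 : (1 : ℝ) ≤ n := by exact_mod_cast hn
  have hn0 : (0 : ℝ) < n := by linarith
  obtain ⟨h1, h2, h3, h4, h5⟩ := h n hn
  have hY : 0 ≤ (n : ℝ) ^ (1 / 3 + d) := by positivity
  refine ⟨h1.trans (mul_le_mul_of_nonneg_right hDD hY), fun x hx => (h2 x hx).trans
    (Real.exp_le_exp.2 ?_), fun u hu => (h3 u hu).trans ?_, fun u hu => (h4 u hu).trans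
    (Real.exp_le_exp.2 ?_), fun t ht ht1 => ⟨(h5 t ht ht1).trans
      (mul_le_mul_of_nonneg_right hDD hY), ?_⟩⟩
  · gcongr
  · gcongr
  · have : u ^ 2 / D' ≤ u ^ 2 / D := by gcongr
    linarith
  · have h6 := h5 t ht ht1
    have ht' : 0 < 1 - t := by linarith
    rw [le_div_iff₀ ht']
    obtain ⟨Z, hZ⟩ : ∃ Z : ℝ, Z = (n : ℝ) ^ (-(2 / 3) + d) := ⟨_, rfl⟩
    have hZn : Z * n = (n : ℝ) ^ (1 / 3 + d) := by
      rw [hZ, ← Real.rpow_add_one hn0.ne']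
      congr 1
      ring
    have hZ1 : 1 ≤ Z * n := by rw [hZn]; exact Real.one_le_rpow hn1 (by linarith)
    rw [← hZn] at h6
    rw [← hZ]
    have h7 : (1 - t) * (n * crossOverlap n β t - 1) ≤ 2 * D / β ^ 2 * (Z * n) := by
      have e : 2 * D / β ^ 2 * (Z * n) = 2 / β ^ 2 * (D * (Z * n)) := by ring
      rw [e]
      have h8 := mul_le_mul_of_nonneg_left h6 (by positivity : 0 ≤ 2 / β ^ 2)
      refine le_trans (le_of_eq ?_) h8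
      field_simp
    have h9 : n * (crossOverlap n β t * (1 - t)) ≤ n * (D' * Z) := by
      have e : n * (crossOverlap n β t * (1 - t)) =
        (1 - t) * (n * crossOverlap n β t - 1) + (1 - t) := by ring
      have e2 : n * (D' * Z) = D * (Z * n) + (Z * n) + 2 * D / β ^ 2 * (Z * n) := by
        rw [hD']; ring
      have h10 : 0 ≤ D * (Z * n) := by positivity
      rw [e, e2]
      linarith
    exact le_of_mul_le_mul_left h9 hn0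

end Vale.Agent.P146.H260.V13
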