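import Vale.Agent.P146.H260.V14R
import Vale.Agent.P146.H260.DeepK

/-!
# P146: all `β`: the conclusions from the two estimates for the deep systems
-/

open MeasureTheory ProbabilityTheory Filter Topology

namespace Vale.Agent.P146.H260.V14

open Vale.Agent.P146 Vale.Agent.P146.R1

/-- **The conclusions from the lambda and the kappa estimate of the deep systems.** -/
theorem fluct_of {β : ℝ} (hβ : 0 < β)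
    (Q : ℝ → ℝ → ℕ → ℝ → (ℕ → ℝ) → (ℕ → ℝ) → ℕ → Prop)
    (hQ : ∀ c α a : ℝ, 0 < α → 100 * α ≤ c → 8 * c ≤ 1 / 10 → 0 < a → ∃ n₀ : ℕ, ∀ n : ℕ, n₀ ≤ n →
      ∃ (m σ : ℕ → ℝ) (J : ℕ), Lay n β m σ J ∧ Exs m J ((n : ℝ) ^ (-(1 / 12) : ℝ)) ∧
        Q a c n ((n : ℝ) ^ α) m σ J)
    (hL : ∀ c : ℝ, 0 < c → ∃ C : ℝ, ∃ m : ℕ, ∃ α₀ : ℝ, 0 < α₀ ∧ ∀ α : ℝ, 0 < α → α ≤ α₀ →
      ∃ n₀ : ℕ, ∀ n : ℕ, n₀ ≤ n → ∀ T ρ x : ℝ,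
      PD β Q c n ((n : ℝ) ^ α) T ρ x → T ≤ C * ((n : ℝ) ^ α) ^ m * (√(1 / (n * T)) +
        x * √(2 * ρ / (β ^ 2 * n)) + 2 * ρ / (β ^ 2 * n) + 1 / n))
    (hK : ∀ c : ℝ, 0 < c → ∃ C : ℝ, ∃ m : ℕ, ∃ k α₀ : ℝ, 0 < k ∧ 0 < α₀ ∧ ∀ α : ℝ, 0 < α →
      α ≤ α₀ → ∃ n₀ : ℕ, ∀ n : ℕ, n₀ ≤ n → ∀ T ρ x : ℝ, PD β Q c n ((n : ℝ) ^ α) T ρ x →
      T ≤ 1 / (n : ℝ) ^ α → (n : ℝ) ^ (-(1 / 6) + c : ℝ) ≤ √(2 * ρ / (β ^ 2 * n)) →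
      2 * ρ / (β ^ 2 * n) ≤ C * ((n : ℝ) ^ α) ^ m * (√(1 / (n * T)) +
        x * √(2 * ρ / (β ^ 2 * n)) + ((1 / (x ^ 2 * ρ * T) + 1 / (n * T)) ^ k + x ^ k) *
          (2 * ρ / (β ^ 2 * n)) + 1 / n))
    (d : ℝ) (hd : 0 < d) : ∃ D : ℝ, 1 ≤ D ∧ ∀ n : ℕ, 1 ≤ n → Fluct β (1 / 2) d D n := by
  refine cons hβ (by norm_num) (fun ε hε => ?_) d hd
  have h := core hβ.ne' (V := VE β) (P := PD β Q) (deep_hF14K hβ Q hQ) hL hK ε hε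
  refine h.mono fun n hn => ?_
  have e : VX β n (1 / 2 * (n : ℝ) ^ (-(1 / 6) : ℝ)) = VE β n := by
    unfold VX VE
    congr 1
    ring
  rw [e]
  exact hn

end Vale.Agent.P146.H260.V14
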