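import Vale.Agent.P146.H260.V14A
import Vale.Agent.P146.H95.DeepP

/-!
# P146: all `β`: the conclusions from the kappa estimate of the deep systems with small second
differences
-/

open MeasureTheory ProbabilityTheory Filter Topology

namespace Vale.Agent.P146.H260.V14

open Vale.Agent.P146 Vale.Agent.P146.R1 Vale.Agent.P146.H95

/-- **The input `hF`.** -/
theorem hFX {β : ℝ} (hβ : 0 < β) (J0 : ℕ) :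
    ∀ ε α c : ℝ, 0 < α → 100 * α ≤ c → 8 * c = ε → ε ≤ 1 / 10 → ∃ n₀ : ℕ, ∀ n : ℕ, n₀ ≤ n →
      (n : ℝ) ^ (1 / 3 + ε : ℝ) ≤ VE β n →
      ∃ T ρ x : ℝ, PX β J0 c n ((n : ℝ) ^ α) T ρ x ∧ 0 < T ∧ T ≤ 1 ∧ 0 < ρ ∧
        2 * ρ ≤ β ^ 2 * n ∧ (n : ℝ) ^ (-(1 / 6) : ℝ) ≤ x ∧ x ≤ (n : ℝ) ^ (-(1 / 6) + α : ℝ) ∧
        (n : ℝ) ^ (ε - 3 * α) ≤ x ^ 2 * ρ * T ∧
        ((n : ℝ) ^ (-(1 / 100) : ℝ) ≤ T → 2 * ρ / (β ^ 2 * n) ≤ (n : ℝ) ^ (-(1 / 8) : ℝ)) := by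
  intro ε α c hα h100 h8 hε
  obtain ⟨n₀, h⟩ := deep_hF14K hβ (QD β J0) (fun c α a h1 h2 h3 _ => H95.hQ hβ J0 c α a h1 h2 h3)
    ε α c hα h100 h8 hε
  refine ⟨max 1 n₀, fun n hn hV => ?_⟩
  have hn1 : 1 ≤ n := (le_max_left _ _).trans hn
  have hnr : (0 : ℝ) < n := by exact_mod_cast hn1
  obtain ⟨T, ρ, x, hP, h1, h2, h3, h4, h5, h6, h7, h9⟩ := h n ((le_max_right _ _).trans hn) hV
  exact ⟨T, ρ, x, ⟨hP, by rwa [Real.rpow_add hnr] at h6⟩, h1, h2, h3, h4, h5, h6, h7, h9⟩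

/-- **The conclusions for all `β` from the kappa estimate.** -/
theorem fluctX_of {β : ℝ} (hβ : 0 < β) {J0 : ℕ}
    (hK : ∀ c : ℝ, 0 < c → ∃ C : ℝ, ∃ m : ℕ, ∃ k α₀ : ℝ, 0 < k ∧ 0 < α₀ ∧ ∀ α : ℝ, 0 < α →
      α ≤ α₀ → ∃ n₀ : ℕ, ∀ n : ℕ, n₀ ≤ n → ∀ T ρ x : ℝ, PX β J0 c n ((n : ℝ) ^ α) T ρ x →
      T ≤ 1 / (n : ℝ) ^ α → (n : ℝ) ^ (-(1 / 6) + c : ℝ) ≤ √(2 * ρ / (β ^ 2 * n)) →
      2 * ρ / (β ^ 2 * n) ≤ C * ((n : ℝ) ^ α) ^ m * (√(1 / (n * T)) +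
        x * √(2 * ρ / (β ^ 2 * n)) + ((1 / (x ^ 2 * ρ * T) + 1 / (n * T)) ^ k + x ^ k) *
          (2 * ρ / (β ^ 2 * n)) + 1 / n))
    (d : ℝ) (hd : 0 < d) : ∃ D : ℝ, 1 ≤ D ∧ ∀ n : ℕ, 1 ≤ n → Fluct β (1 / 2) d D n := by
  refine cons hβ (by norm_num) (fun ε hε => ?_) d hd
  have h := core hβ.ne' (V := VE β) (P := PX β J0) (hFX hβ J0) (H95.hL hβ J0) hK ε hε
  refine h.mono fun n hn => ?_
  have e : VX β n (1 / 2 * (n : ℝ) ^ (-(1 / 6) : ℝ)) = VE β n := by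
    unfold VX VE
    congr 1
    ring
  rw [e]
  exact hn

end Vale.Agent.P146.H260.V14
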