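import Vale.Agent.P146.H260.Mgf

/-!
Comparison of the entropies of two functions which are uniformly close.
-/

open MeasureTheory ProbabilityTheory

namespace Vale.Agent.P146.H260.V13

open Vale.Agent.P157.Lv Vale.Agent.P146.H425 Vale.Agent.P146.R1

set_option linter.unusedSectionVars false

variable {κ : Type} [Fintype κ] {F G : (κ → ℝ) → ℝ} {D D' : κ → (κ → ℝ) → ℝ}
  {B L B' L' x c : ℝ}

lemma W_one_mono (hF : C11 F D B L) (hG : C11 G D' B' L') (hx : 0 < x)
    (h : ∀ z, F z ≤ G z) : W x 1 F 0 ≤ W x 1 G 0 := by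
  rw [W_one_zero, W_one_zero]
  have h1 : 0 < ∫ z, Real.exp (x * F z) ∂(gI κ) := integral_exp_pos (hF.eg_exp x).integrable
  refine mul_le_mul_of_nonneg_left (Real.log_le_log h1 ?_) (by positivity)
  exact integral_mono (hF.eg_exp x).integrable (hG.eg_exp x).integrable fun z =>
    Real.exp_le_exp.2 (mul_le_mul_of_nonneg_left (h z) hx.le)

lemma W_one_add (hF : C11 F D B L) (hG : C11 G D' B' L') (hx : 0 < x)
    (h : ∀ z, G z ≤ F z + c) : W x 1 G 0 ≤ W x 1 F 0 + c := by
  rw [W_one_zero, W_one_zero]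
  have h1 : 0 < ∫ z, Real.exp (x * F z) ∂(gI κ) := integral_exp_pos (hF.eg_exp x).integrable
  have h2 : 0 < ∫ z, Real.exp (x * G z) ∂(gI κ) := integral_exp_pos (hG.eg_exp x).integrable
  have h3 : ∫ z, Real.exp (x * G z) ∂(gI κ) ≤
      Real.exp (x * c) * ∫ z, Real.exp (x * F z) ∂(gI κ) := by
    rw [← integral_const_mul]
    refine integral_mono (hG.eg_exp x).integrable ((hF.eg_exp x).integrable.const_mul _)
      fun z => ?_
    simp only
    rw [← Real.exp_add]
    refine Real.exp_le_exp.2 ?_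
    have := mul_le_mul_of_nonneg_left (h z) hx.le
    linarith
  have h4 := Real.log_le_log h2 h3
  rw [Real.log_mul (Real.exp_pos _).ne' h1.ne', Real.log_exp] at h4
  have h5 := mul_le_mul_of_nonneg_left h4 (by positivity : 0 ≤ 1 / x)
  refine h5.trans (le_of_eq ?_)
  field_simp
  ring

/-- **Comparison of the entropies.** -/
theorem VK_cmp (hF : C11 F D B L) (hcF : Cv F) (hG : C11 G D' B' L') (hcG : Cv G) (hx : 0 < x)
    (h1 : ∀ z, F z ≤ G z) (h2 : ∀ z, G z ≤ F z + c) : VK F (x / 2) ≤ VK G x + 4 * c / x := by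
  have hx2 : 0 < x / 2 := by positivity
  have t1 := tangent hF hcF hx2 hx
  have t2 := tangent hG hcG hx hx2
  have m1 := W_one_mono hF hG hx h1
  have m2 := W_one_add hF hG hx2 h2
  have e1 : (x - x / 2) * (KL F (x / 2) / (x / 2) ^ 2) = x / 4 * VK F (x / 2) := by
    unfold VK; ring
  have e2 : (x / 2 - x) * (KL G x / x ^ 2) = -(x / 4 * VK G x) := by
    unfold VK; ring
  rw [e1] at t1
  rw [e2] at t2
  have h3 : x / 4 * VK F (x / 2) ≤ x / 4 * (VK G x + 4 * c / x) := by
    have e3 : x / 4 * (VK G x + 4 * c / x) = x / 4 * VK G x + c := by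
      field_simp
    rw [e3]
    linarith
  exact le_of_mul_le_mul_left h3 (by positivity)

end Vale.Agent.P146.H260.V13
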