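import Vale.Agent.P146.Bdl.B40
import Vale.Agent.P146.R3.H732.LC5
import Vale.Agent.P146.H260.Low

set_option linter.all false

/-!
# P146: larger windows in the lemmas of the lower bound
-/

open MeasureTheory ProbabilityTheory Matrix Filter Topology Finset

namespace Vale.Agent.P146.H260.Win

open Vale.Agent.P157.Lv Vale.Agent.P146.Sk Vale.Agent.P146.Pw2

section sc

variable {N : ℕ} {y : ℝ}

/-- the self-consistent equation with the natural errors -/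
theorem self_cons2 (hN : 0 < N) (hy : 0 < y) :
    |(1 - mA N y) ^ 2 - (y / 2 + mB N y) ^ 2 + y ^ 2 / 4| ≤ 16 / (N ^ 2 * y ^ 4) + 1 / (N * y ^ 2) ∧
    |2 * (1 - mA N y) * (y / 2 + mB N y) - y| ≤ 16 / (N ^ 2 * y ^ 4) + 1 / (N * y ^ 2) := by
  have hN' : (0 : ℝ) < N := by exact_mod_cast hN
  have hN1 : (1 : ℝ) ≤ N := by exact_mod_cast hN
  obtain ⟨vA, vB⟩ := var_tr' hN hy
  set VA := ∫ g, (tA N y g - mA N y) ^ 2 ∂(gI (Ix N)) with hVA
  set VB := ∫ g, (tB N y g - mB N y) ^ 2 ∂(gI (Ix N)) with hVB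
  have hVA0 : 0 ≤ VA := integral_nonneg fun g => sq_nonneg _
  have hVB0 : 0 ≤ VB := integral_nonneg fun g => sq_nonneg _
  have eA := eg_tA (N := N) hy
  have eB := eg_tB (N := N) hy
  have k3 : (16 : ℝ) / (N ^ 2 * y ^ 4) = 8 / (N ^ 2 * y ^ 4) + 8 / (N ^ 2 * y ^ 4) := by ring
  constructor
  · -- real part
    have h1 := ibp_A (N := N) hy
    set ρ := ∫ g, ((Ay y (Wm N g) * Ay y (Wm N g)).trace - (By y (Wm N g) * By y (Wm N g)).trace)
        ∂(gI (Ix N)) with hρ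
    have hρb : |ρ| ≤ N / y ^ 2 := by
      refine abs_integral_le_integral_abs.trans ?_
      have eAA := ((egm_Ay (N := N) hy).mul (egm_Ay hy)).trace
      have eBB := ((egm_By (N := N) hy).mul (egm_By hy)).trace
      calc _ ≤ ∫ _g : Ix N → ℝ, (N : ℝ) / y ^ 2 ∂(gI (Ix N)) :=
            integral_mono (eAA.sub eBB).abs.integrable (integrable_const _)
              fun g => abs_tr_sub_le hy g
        _ = _ := by simp
    have h2 : ∫ g, (1 / (N : ℝ)) * (Wm N g * Ay y (Wm N g)).trace ∂(gI (Ix N)) =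
        2 * mA N y + y * mB N y - 1 := by
      simp only [tr_WA hN hy]
      rw [integral_sub ((eA.const_mul 2).add (eB.const_mul y)).integrable (integrable_const _),
        integral_add (eA.const_mul 2).integrable (eB.const_mul y).integrable,
        integral_const_mul, integral_const_mul]
      simp [mA, mB]
    have h3 : ∫ g, ((Ay y (Wm N g)).trace * (Ay y (Wm N g)).trace -
        (By y (Wm N g)).trace * (By y (Wm N g)).trace) ∂(gI (Ix N)) =
        N ^ 2 * (∫ g, tA N y g ^ 2 ∂(gI (Ix N)) - ∫ g, tB N y g ^ 2 ∂(gI (Ix N))) := by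
      rw [← integral_sub (eA.pow 2).integrable (eB.pow 2).integrable, ← integral_const_mul]
      congr 1
      funext g
      unfold tA tB
      field_simp
    rw [integral_const_mul, h1, h3, int_tA_sq hy, int_tB_sq hy, ← hVA, ← hVB] at h2
    have h4 : 1 / (N : ℝ) * (1 / N * (N ^ 2 * (mA N y ^ 2 + VA - (mB N y ^ 2 + VB)) + ρ)) =
        (mA N y ^ 2 + VA - (mB N y ^ 2 + VB)) + ρ / N ^ 2 := by
      field_simp
    rw [h4] at h2
    have h5 : (1 - mA N y) ^ 2 - (y / 2 + mB N y) ^ 2 + y ^ 2 / 4 = VB - VA - ρ / N ^ 2 := by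
      linear_combination h2
    rw [h5, k3]
    have h6 : |ρ / N ^ 2| ≤ 1 / (N * y ^ 2) := by
      rw [abs_div, abs_of_pos (by positivity : (0 : ℝ) < (N : ℝ) ^ 2)]
      calc |ρ| / (N : ℝ) ^ 2 ≤ (N / y ^ 2) / N ^ 2 := by gcongr
        _ = _ := by field_simp
    have h7 := abs_le.1 h6
    rw [abs_le]
    constructor <;> linarith [h7.1, h7.2]
  · have h1 := ibp_B (N := N) hy
    set ρ := ∫ g, (2 * (Ay y (Wm N g) * By y (Wm N g)).trace) ∂(gI (Ix N)) with hρ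
    have hρb : |ρ| ≤ N / y ^ 2 := by
      refine abs_integral_le_integral_abs.trans ?_
      have eAB := ((egm_Ay (N := N) hy).mul (egm_By hy)).trace
      calc _ ≤ ∫ _g : Ix N → ℝ, (N : ℝ) / y ^ 2 ∂(gI (Ix N)) :=
            integral_mono (eAB.const_mul 2).abs.integrable (integrable_const _)
              fun g => abs_tr_AB_le hy g
        _ = _ := by simp
    have h2 : ∫ g, (1 / (N : ℝ)) * (Wm N g * By y (Wm N g)).trace ∂(gI (Ix N)) =
        2 * mB N y - y * mA N y := by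
      simp only [tr_WB hN hy]
      rw [integral_sub (eB.const_mul 2).integrable (eA.const_mul y).integrable,
        integral_const_mul, integral_const_mul]
      rfl
    have h3 : ∫ g, ((Ay y (Wm N g)).trace * (By y (Wm N g)).trace) ∂(gI (Ix N)) =
        N ^ 2 * ∫ g, tA N y g * tB N y g ∂(gI (Ix N)) := by
      rw [← integral_const_mul]
      congr 1
      funext g
      unfold tA tB
      field_simp
    set Cv := ∫ g, (tA N y g - mA N y) * (tB N y g - mB N y) ∂(gI (Ix N)) with hCv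
    have hC : |2 * Cv| ≤ VA + VB := by
      rw [hCv, ← integral_const_mul, hVA, hVB, ← integral_add ((eA.sub (EG.const _)).pow 2).integrable
        ((eB.sub (EG.const _)).pow 2).integrable]
      refine abs_integral_le_integral_abs.trans (integral_mono
        (((eA.sub (EG.const _)).mul (eB.sub (EG.const _))).const_mul 2).abs.integrable
        (((eA.sub (EG.const _)).pow 2).add ((eB.sub (EG.const _)).pow 2)).integrable fun g => ?_)
      simp only
      rw [abs_le]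
      constructor <;> nlinarith [sq_nonneg ((tA N y g - mA N y) - (tB N y g - mB N y)),
        sq_nonneg ((tA N y g - mA N y) + (tB N y g - mB N y))]
    rw [integral_const_mul, h1, h3, int_tAB hy, ← hCv] at h2
    have h4 : 1 / (N : ℝ) * (1 / N * (2 * (N ^ 2 * (mA N y * mB N y + Cv)) + ρ)) =
        2 * (mA N y * mB N y + Cv) + ρ / N ^ 2 := by
      field_simp
    rw [h4] at h2
    have h5 : 2 * (1 - mA N y) * (y / 2 + mB N y) - y = 2 * Cv + ρ / N ^ 2 := by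
      linear_combination -h2
    rw [h5, k3]
    have h6 : |ρ / N ^ 2| ≤ 1 / (N * y ^ 2) := by
      rw [abs_div, abs_of_pos (by positivity : (0 : ℝ) < (N : ℝ) ^ 2)]
      calc |ρ| / (N : ℝ) ^ 2 ≤ (N / y ^ 2) / N ^ 2 := by gcongr
        _ = _ := by field_simp
    have h7 := abs_le.1 h6
    have h8 := abs_le.1 hC
    rw [abs_le]
    constructor <;> linarith [h7.1, h7.2, h8.1, h8.2]

/-- the solution of the quadratic equation, relative errors -/
lemma quad_sol2 {p q t e1 e2 : ℝ} (ht : 0 < t) (ht4 : t ≤ 1 / 16) (hq : 0 < q)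
    (h1 : p ^ 2 - q ^ 2 + t ^ 4 / 4 = e1) (h2 : 2 * p * q - t ^ 2 = e2)
    (he1 : |e1| ≤ t ^ 2 / 64) (he2 : |e2| ≤ t ^ 2 / 64) :
    t / 2 ≤ p ∧ p ≤ t ∧ t / 2 ≤ q - t ^ 2 / 2 ∧ q ≤ t := by
  obtain ⟨a1, a2⟩ := abs_le.1 he1
  obtain ⟨b1, b2⟩ := abs_le.1 he2
  have ht2 : t ^ 2 ≤ 1 / 256 := by
    have := mul_le_mul ht4 ht4 ht.le (by norm_num)
    nlinarith
  have ht0 : 0 < t ^ 2 := by positivity
  have ht44 : t ^ 4 ≤ t ^ 2 / 256 := by
    have := mul_le_mul_of_nonneg_left ht2 ht0.le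
    nlinarith
  have ht40 : 0 < t ^ 4 := by positivity
  have hpq : 0 < 2 * p * q := by linarith
  have hp : 0 < p := by
    by_contra hp
    push Not at hp
    nlinarith [mul_nonneg (neg_nonneg.2 hp) hq.le]
  have s1 : 2 * p * q ≤ p ^ 2 + q ^ 2 := by linarith only [sq_nonneg (p - q)]
  have s2 : (p ^ 2 + q ^ 2) ^ 2 = (p ^ 2 - q ^ 2) ^ 2 + (2 * p * q) ^ 2 := by ring
  have d1 : |p ^ 2 - q ^ 2| ≤ t ^ 2 / 32 := by
    rw [abs_le]; constructor <;> linarith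
  have d2 : (p ^ 2 - q ^ 2) ^ 2 ≤ (t ^ 2 / 32) ^ 2 := by
    rw [← sq_abs (p ^ 2 - q ^ 2)]
    exact pow_le_pow_left₀ (abs_nonneg _) d1 2
  have d3 : (2 * p * q) ^ 2 ≤ (t ^ 2 + t ^ 2 / 64) ^ 2 :=
    pow_le_pow_left₀ hpq.le (by linarith only [b2, h2]) 2
  have s3 : p ^ 2 + q ^ 2 ≤ t ^ 2 + t ^ 2 / 32 := by
    refine sc_le_of_sq ?_ (by positivity)
    rw [s2]
    nlinarith [mul_pos ht0 ht0]
  have s4 : t ^ 2 - t ^ 2 / 64 ≤ p ^ 2 + q ^ 2 := by linarith only [s1, b1, h2]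
  obtain ⟨c1, c2⟩ := abs_le.1 d1
  refine ⟨?_, ?_, ?_, ?_⟩
  · refine sc_le_of_sq ?_ hp.le
    nlinarith
  · refine sc_le_of_sq ?_ ht.le
    nlinarith
  · have h3 : t / 2 + t ^ 2 / 2 ≤ q := by
      refine sc_le_of_sq ?_ hq.le
      have h4 : t ^ 2 * t ≤ t ^ 2 * (1 / 16) := mul_le_mul_of_nonneg_left ht4 ht0.le
      nlinarith
    linarith only [h3]
  · refine sc_le_of_sq ?_ ht.le
    nlinarith

/-- consequences for `ζ = z - E τ = 1 + w + i y / 2`, in the window `C ≤ N y ^ 3` -/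
theorem zeta_facts3 : ∃ C : ℝ, 1 ≤ C ∧ ∀ (N : ℕ) (y : ℝ), 0 < N → 0 < y → y ≤ 1 / C →
    C ≤ N * y ^ 3 →
    √y / 2 ≤ 1 - mA N y ∧ 1 - mA N y ≤ √y ∧ √y / 2 ≤ mB N y ∧ y / 2 + mB N y ≤ √y ∧
    mB N y ≤ √y ∧ ∫ g, tB N y g ^ 2 ∂(gI (Ix N)) ≤ 2 * y ∧
    1 + √y / 2 ≤ (zt N y).re ∧ (zt N y).re ≤ 1 + √y ∧ √y / 2 ≤ (zt N y).im ∧
    (zt N y).im ≤ 2 * √y := by
  refine ⟨512, by norm_num, fun N y hN hy hyC hNy => ?_⟩
  have hN' : (0 : ℝ) < N := by exact_mod_cast hN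
  have hN1 : (1 : ℝ) ≤ N := by exact_mod_cast hN
  have hy1 : y ≤ 1 := by linarith only [hyC, hy]
  obtain ⟨h1, h2⟩ := self_cons2 hN hy
  obtain ⟨-, vB⟩ := var_tr' hN hy
  have hmB := mB_nonneg (N := N) hy
  obtain ⟨t, ht⟩ : ∃ t, t = √y := ⟨_, rfl⟩
  have ht0 : 0 < t := by rw [ht]; exact Real.sqrt_pos.2 hy
  have hty : y = t ^ 2 := by rw [ht, Real.sq_sqrt hy.le]
  have ht4 : t ≤ 1 / 16 := by
    refine sc_le_of_sq ?_ (by norm_num)
    rw [← hty]
    linarith only [hyC, hy]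
  have hy3 : 0 < y ^ 3 := by positivity
  have n2 : 512 * 512 ≤ (N : ℝ) ^ 2 * y ^ 6 := by
    calc (512 : ℝ) * 512 ≤ (N * y ^ 3) * (N * y ^ 3) :=
          mul_le_mul hNy hNy (by norm_num) (by positivity)
      _ = _ := by ring
  have n3 : (N : ℝ) ^ 2 * y ^ 6 ≤ (N : ℝ) ^ 2 * y ^ 5 :=
    mul_le_mul_of_nonneg_left (pow_le_pow_of_le_one hy.le hy1 (by norm_num)) (by positivity)
  have k1 : 16 / ((N : ℝ) ^ 2 * y ^ 4) + 1 / (N * y ^ 2) ≤ y / 64 := by
    have e1 : 16 / ((N : ℝ) ^ 2 * y ^ 4) ≤ y / 128 := by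
      rw [div_le_div_iff₀ (by positivity) (by norm_num)]
      calc (16 : ℝ) * 128 ≤ (N : ℝ) ^ 2 * y ^ 5 := by linarith only [n2, n3]
        _ = y * (N ^ 2 * y ^ 4) := by ring
    have e2 : 1 / ((N : ℝ) * y ^ 2) ≤ y / 128 := by
      rw [div_le_div_iff₀ (by positivity) (by norm_num)]
      calc (1 : ℝ) * 128 ≤ N * y ^ 3 := by linarith only [hNy]
        _ = y * (N * y ^ 2) := by ring
    linarith only [e1, e2]
  have k2 : (8 : ℝ) / (N ^ 2 * y ^ 4) ≤ y := by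
    rw [div_le_iff₀ (by positivity)]
    calc (8 : ℝ) ≤ (N : ℝ) ^ 2 * y ^ 5 := by linarith only [n2, n3]
      _ = y * (N ^ 2 * y ^ 4) := by ring
  have hq : 0 < y / 2 + mB N y := by linarith only [hmB, hy]
  obtain ⟨r1, r2, r3, r4⟩ := quad_sol2 (p := 1 - mA N y) (q := y / 2 + mB N y) (t := t)
    (e1 := (1 - mA N y) ^ 2 - (y / 2 + mB N y) ^ 2 + t ^ 4 / 4)
    (e2 := 2 * (1 - mA N y) * (y / 2 + mB N y) - t ^ 2) ht0 ht4 hq rfl rfl
    (by
      have e3 : y ^ 2 = t ^ 4 := by rw [hty]; ring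
      rw [← e3, ← hty]
      exact h1.trans k1)
    (by
      rw [← hty]
      exact h2.trans k1)
  have e4 : y / 2 + mB N y - t ^ 2 / 2 = mB N y := by rw [hty]; ring
  rw [e4] at r3
  rw [← ht]
  have hyt : y ≤ t := by rw [hty]; linarith only [e4, r4, r3]
  refine ⟨r1, r2, r3, r4, by linarith only [r4, hy], ?_, ?_, ?_, ?_, ?_⟩
  · rw [int_tB_sq hy]
    have h5 : mB N y ^ 2 ≤ y :=
      calc mB N y ^ 2 ≤ t ^ 2 := pow_le_pow_left₀ hmB (by linarith only [r4, hy]) 2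
        _ = y := hty.symm
    linarith only [h5, k2, vB]
  · show 1 + t / 2 ≤ 2 - mA N y
    linarith only [r1]
  · show 2 - mA N y ≤ 1 + t
    linarith only [r2]
  · show t / 2 ≤ y + mB N y
    linarith only [r3, hy]
  · show y + mB N y ≤ 2 * t
    linarith only [r4, hyt, hy]

end sc

section spread

open Vale.Agent.P157 (spin)
open Vale.Agent.P157.Par (Path Exponents topN lw spinPart)
open Vale.Agent.P166.F (Lam)
open Vale.Agent.P146.Sk.Gen (GI gz gl r0 gS gF gOb gIsOpt GD gV)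

/-- **The spreading lemma in the window `C ≤ N y ^ 3`.** -/
theorem spreadq3 {β : ℝ} (hβ : 0 < β) : ∃ C : ℝ, 1 ≤ C ∧ ∀ (N n : ℕ) (m : ℕ → ℝ)
    (y b J K a : ℝ), 0 < N → Exponents n m → 0 < y → y ≤ 1 / C → C ≤ N * y ^ 3 → 0 < b →
    b ≤ y ^ 2 → 0 ≤ J → 0 < K →
    β * b / 2 * J ≤ pN β N - gF n m (Pw2.Ey N β y 1 b) (spin (N := N)) (fun _ => 0) →
    J * (disorder N).real {g | |freeEnergy N β g - a| ≤ K} ≤
      C * (K / √y + 1 / (b * √(N : ℝ)) + 1) := by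
  obtain ⟨C₀, hC₀, hz⟩ := zeta_facts3
  have hp1 : 0 ≤ 20 / β := by positivity
  have hp2 : 0 ≤ 8 * (1 + 5 * β ^ 2) / β := by positivity
  refine ⟨C₀ + 8 + 20 / β + 8 * (1 + 5 * β ^ 2) / β, by linarith,
    fun N n m y b J K a hN hm' hy hyC hNy hb hby hJ hK hdiff => ?_⟩
  have hN' : (0 : ℝ) < N := by exact_mod_cast hN
  have hN1 : (1 : ℝ) ≤ N := by exact_mod_cast hN
  have hCpos : 0 < C₀ + 8 + 20 / β + 8 * (1 + 5 * β ^ 2) / β := by positivity
  have hyC0 : y ≤ 1 / C₀ := hyC.trans (by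
    apply one_div_le_one_div_of_le (by linarith only [hC₀]); linarith only [hp2, hp1])
  have hy1 : y ≤ 1 := hyC.trans (by rw [div_le_one hCpos]; linarith only [hp2, hp1, hC₀])
  obtain ⟨z1, z2, z3, z4, z5, z6, -⟩ := hz N y hN hy hyC0 (by linarith only [hNy, hp2, hp1])
  have hA0 : 0 ≤ 1 - mA N y := le_trans (by positivity) z1
  have p1 : (8 : ℝ) ≤ N * y ^ 3 := by linarith only [hNy, hp2, hp1, hC₀]
  have p2 : (8 : ℝ) ≤ (N : ℝ) ^ 2 * y ^ 5 := by
    have h1 : (1 : ℝ) ≤ N * y ^ 2 := by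
      have h2 : (N : ℝ) * y ^ 3 ≤ N * y ^ 2 :=
        mul_le_mul_of_nonneg_left (pow_le_pow_of_le_one hy.le hy1 (by norm_num)) hN'.le
      linarith only [h2, p1]
    calc (8 : ℝ) ≤ N * y ^ 3 := p1
      _ = (N * y ^ 3) * 1 := (mul_one _).symm
      _ ≤ (N * y ^ 3) * (N * y ^ 2) := mul_le_mul_of_nonneg_left h1 (by positivity)
      _ = _ := by ring
  have hsq := int_dq_sq hN hy hy1 p1 p2 hA0 z2 z5 z6
  have hsy : 0 < √y := Real.sqrt_pos.2 hy
  have hsN : 0 < √(14 * (N : ℝ)) := Real.sqrt_pos.2 (by positivity)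
  have hsq' : ∫ g, dq N y g * dq N y g ∂(gI (Ix N)) ≤ (√(14 * (N : ℝ)) / √y) ^ 2 := by
    rw [div_pow, Real.sq_sqrt (by positivity), Real.sq_sqrt hy.le]
    exact hsq
  have hb1 := small_ball_q hN hy hβ hK hJ (by positivity : 0 < √(14 * (N : ℝ)) / √y) hsq' a
  have hb2 := Jg_lower hN hy hm' hβ hb hby hdiff
  have hm1 : mB N y ≤ 1 := z5.trans (by rw [← Real.sqrt_one]; exact Real.sqrt_le_sqrt hy1)
  set P := (disorder N).real {g | |freeEnergy N β g - a| ≤ K} with hP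
  set E := ∫ z, max (J - Jg β y z) 0 ∂(gI (Ix N)) with hE
  have h1 : √(2 * (N : ℝ)) * √(14 * (N : ℝ)) ≤ 6 * N := by
    rw [← Real.sqrt_mul (by positivity)]
    apply Real.sqrt_le_iff.2
    refine ⟨by positivity, ?_⟩
    linarith only [sq_nonneg (N : ℝ)]
  have h2 : √(2 * (N : ℝ)) / (β * N) * (Real.pi / 2 * (√(14 * (N : ℝ)) / √y)) ≤
      10 / (β * √y) := by
    have hpi : Real.pi ≤ 10 / 3 := by linarith only [Real.pi_lt_d2]
    calc _ = (√(2 * (N : ℝ)) * √(14 * (N : ℝ))) * (Real.pi / 2) / (β * N * √y) := by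
          field_simp
      _ ≤ (6 * N) * (10 / 3 / 2) / (β * N * √y) := by gcongr
      _ = _ := by field_simp; norm_num
  have h3 : J / (2 * K) * P ≤ 10 / (β * √y) + 1 / K * (E + 1) := by
    have : 1 / K * (E + mB N y) ≤ 1 / K * (E + 1) := by gcongr
    linarith only [this, h2, hb1]
  have h4 : J * P ≤ 20 / β * (K / √y) + 2 * E + 2 := by
    have h5 := mul_le_mul_of_nonneg_left h3 (by positivity : 0 ≤ 2 * K)
    have h6 : 2 * K * (J / (2 * K) * P) = J * P := by field_simp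
    have h7 : 2 * K * (10 / (β * √y) + 1 / K * (E + 1)) = 20 / β * (K / √y) + 2 * E + 2 := by
      field_simp
      ring
    rwa [h6, h7] at h5
  have h5 : 0 ≤ K / √y := by positivity
  have h6 : 0 ≤ 1 / (b * √(N : ℝ)) := by positivity
  have h7 : 2 * E ≤ 8 * (1 + 5 * β ^ 2) / β * (1 / (b * √(N : ℝ))) := by
    have : 8 * (1 + 5 * β ^ 2) / β * (1 / (b * √(N : ℝ))) =
        2 * (4 * (1 + 5 * β ^ 2) / β * (1 / (b * √(N : ℝ)))) := by ring
    linarith only [this, hb2]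
  have h8 : 20 / β * (K / √y) ≤ (C₀ + 8 + 20 / β + 8 * (1 + 5 * β ^ 2) / β) * (K / √y) :=
    mul_le_mul_of_nonneg_right (by linarith only [hp2, hC₀]) h5
  have h9 : 8 * (1 + 5 * β ^ 2) / β * (1 / (b * √(N : ℝ))) ≤
      (C₀ + 8 + 20 / β + 8 * (1 + 5 * β ^ 2) / β) * (1 / (b * √(N : ℝ))) :=
    mul_le_mul_of_nonneg_right (by linarith only [hp1, hC₀]) h6
  rw [mul_add, mul_add, mul_one]
  linarith only [h9, h8, h7, h4, hp2, hp1, hC₀]


end spread

end Vale.Agent.P146.H260.Win
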