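import Vale.Agent.P146.H260.XQ
import Vale.Agent.P146.H326.Tb7
import Vale.Agent.P146.H706.Lam4

set_option linter.all false

/-!
# P146: the growth relation with exponents `7` and `10`, in the window `C ≤ N t ^ 16`
-/

open MeasureTheory ProbabilityTheory Matrix Filter Topology

namespace Vale.Agent.P146.H260.XQ7

open Vale.Agent.P157 (spin)
open Vale.Agent.P157.Lv
open Vale.Agent.P157.Lv.Sy
open Vale.Agent.P157.Par (Path Exponents topN lw spinPart incr incr_zero_def incr_succ_def)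
open Vale.Agent.P146.Sk
open Vale.Agent.P146.Pw2
open Vale.Agent.P166.F (Lam)
open Vale.Agent.P146.R3.H732.LB
open Vale.Agent.P146.R3.H732.LC
open Vale.Agent.P146.R3.H729.TbLow (Qd)
open Vale.Agent.P146.Sk.Gen (GI gz gl r0 gS gF gOb gIsOpt GD gV)
open Vale.Agent.P146.H260.Low (XQF SpF)
open Vale.Agent.P146.H326.B7 (TB7)

/-- the fourth-order tail of the largest eigenvalue -/
def LamMax4 (C : ℝ) : Prop := ∀ (N : ℕ) (s : ℝ), 0 < N → 0 < s →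
  (gI (Ix N)).real (bad N s) ≤ C / (N ^ 2 * s ^ 4)

theorem lamMax4 : LamMax4 320 := fun N s hN hs => Vale.Agent.P146.H706.lam_max4 hN hs

/-- the one-sided bound from the tail of the largest eigenvalue -/
lemma upT_of4 {C CL : ℝ} {N K : ℕ} {m q : ℕ → ℝ} {β t b : ℝ} (hL : LamMax4 CL) (hβ : 0 ≤ β)
    (hN : 0 < N) (ht : 0 < t) (ht1 : t ≤ 1) (hb : 0 ≤ b) (hm' : Exponents K m) (hC1 : 1 ≤ C)
    (hCL : CL ≤ C) (hNt : C ≤ N * t ^ 16) :
    UpT N K m q β (t ^ 4) b (3 * b / t ^ 5) := by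
  intro a s
  have hN' : (0 : ℝ) < N := by exact_mod_cast hN
  have hy : 0 < t ^ 4 := by positivity
  have h1 := Vale.Agent.P146.R3.H732.LC.tw_up (β := β) (m := m) (a := a) (s := sg β q s) hβ hN hy
    hb hm' (σ := t ^ 7) (by positivity) (hL N (t ^ 7) hN (by positivity))
  refine h1.trans (add_le_add le_rfl ?_)
  refine mul_le_mul_of_nonneg_left ?_ (by positivity)
  have e1 : t ^ 7 / (t ^ 4) ^ 3 = 1 / t ^ 5 := by
    field_simp
  have h2 : CL / (N ^ 2 * (t ^ 7) ^ 4) ≤ t ^ 3 := by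
    rw [div_le_iff₀ (by positivity)]
    have h3 : C ≤ (N * t ^ 16) ^ 2 := by
      have h4 : 1 ≤ N * t ^ 16 := hC1.trans hNt
      nlinarith
    have h5 : t ^ 32 ≤ t ^ 31 := pow_le_pow_of_le_one ht.le ht1 (by norm_num)
    calc CL ≤ C := hCL
      _ ≤ (N * t ^ 16) ^ 2 := h3
      _ = (N : ℝ) ^ 2 * t ^ 32 := by ring
      _ ≤ (N : ℝ) ^ 2 * t ^ 31 := mul_le_mul_of_nonneg_left h5 (by positivity)
      _ = t ^ 3 * (N ^ 2 * (t ^ 7) ^ 4) := by ring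
  have h3 : 2 * (CL / (N ^ 2 * (t ^ 7) ^ 4)) / (t ^ 4) ^ 2 ≤ 2 / t ^ 5 := by
    rw [div_le_div_iff₀ (by positivity) (by positivity)]
    have h4 := mul_le_mul_of_nonneg_right h2 (show 0 ≤ 2 * t ^ 5 by positivity)
    have e2 : t ^ 3 * (2 * t ^ 5) = 2 * (t ^ 4) ^ 2 := by ring
    linarith
  rw [e1]
  calc b * (1 / t ^ 5 + 2 * (CL / (N ^ 2 * (t ^ 7) ^ 4)) / (t ^ 4) ^ 2) ≤
        b * (1 / t ^ 5 + 2 / t ^ 5) := mul_le_mul_of_nonneg_left (by linarith only [h3]) hb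
    _ = 3 * b / t ^ 5 := by ring

/-- the numbers of the deviation -/
lemma num_Q7 {β c C Ct t X e b r Q : ℝ} (hβ : 0 < β) (hc : 0 < c) (hC : 1 ≤ C) (ht : 0 < t)
    (ht1 : t ≤ 1)
    (hr : c * t ^ 2 / 2 ≤ r) (hr0 : 0 < r) (hX : X ≤ β * t ^ 7 / (2 * C ^ 2))
    (he : e ≤ 3 * (t ^ 7 / C ^ 2)) (hb : b = t ^ 10 / C)
    (hCt : 0 < Ct) (hCC : Ct ^ 2 * (8 / (β ^ 2 * c) * (β / 2 + 3) + 24) ≤ C)
    (hQ : Q ≤ 4 / (β ^ 2 * r) * (X + (e + 2 * β ^ 2 * (3 * b / t ^ 5 * r)))) :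
    Ct ^ 2 * Q ≤ t ^ 5 := by
  have hC0 : 0 < C := by linarith
  have h1 : 4 / (β ^ 2 * r) * (X + (e + 2 * β ^ 2 * (3 * b / t ^ 5 * r))) =
      4 / (β ^ 2 * r) * (X + e) + 24 * (b / t ^ 5) := by
    field_simp
    ring
  have h2 : X + e ≤ (β / 2 + 3) * (t ^ 7 / C ^ 2) := by
    have e1 : β * t ^ 7 / (2 * C ^ 2) = β / 2 * (t ^ 7 / C ^ 2) := by
      field_simp
    rw [e1] at hX
    linarith
  have h3 : 4 / (β ^ 2 * r) * (X + e) ≤ 4 / (β ^ 2 * r) * ((β / 2 + 3) * (t ^ 7 / C ^ 2)) :=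
    mul_le_mul_of_nonneg_left h2 (by positivity)
  have h4 : 4 / (β ^ 2 * r) ≤ 4 / (β ^ 2 * (c * t ^ 2 / 2)) :=
    div_le_div_of_nonneg_left (by norm_num) (by positivity)
      (mul_le_mul_of_nonneg_left hr (by positivity))
  have h5 : 4 / (β ^ 2 * r) * ((β / 2 + 3) * (t ^ 7 / C ^ 2)) ≤
      4 / (β ^ 2 * (c * t ^ 2 / 2)) * ((β / 2 + 3) * (t ^ 7 / C ^ 2)) :=
    mul_le_mul_of_nonneg_right h4 (by positivity)
  have h6 : 4 / (β ^ 2 * (c * t ^ 2 / 2)) * ((β / 2 + 3) * (t ^ 7 / C ^ 2)) =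
      8 / (β ^ 2 * c) * (β / 2 + 3) * (t ^ 5 / C ^ 2) := by
    field_simp
    ring
  have h7 : t ^ 5 / C ^ 2 ≤ t ^ 5 / C := by
    refine div_le_div_of_nonneg_left (by positivity) hC0 ?_
    nlinarith
  have h8 : 8 / (β ^ 2 * c) * (β / 2 + 3) * (t ^ 5 / C ^ 2) ≤
      8 / (β ^ 2 * c) * (β / 2 + 3) * (t ^ 5 / C) :=
    mul_le_mul_of_nonneg_left h7 (by positivity)
  have h9 : b / t ^ 5 = t ^ 5 / C := by
    rw [hb]
    field_simp
  have h10 : Q ≤ (8 / (β ^ 2 * c) * (β / 2 + 3) + 24) * (t ^ 5 / C) := by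
    rw [h1, h9] at hQ
    linarith only [hQ, h3, h5, h6, h8]
  have h11 := mul_le_mul_of_nonneg_left h10 (show 0 ≤ Ct ^ 2 by positivity)
  refine h11.trans ?_
  have h12 := mul_le_mul_of_nonneg_right hCC (show 0 ≤ t ^ 5 / C by positivity)
  have e2 : C * (t ^ 5 / C) = t ^ 5 := by field_simp
  rw [e2] at h12
  linarith only [h12]

/-- the numbers of the decrease -/
lemma num_X7 {β c C Ct t X e b r T : ℝ} (hβ : 0 < β) (hC : 1 ≤ C) (ht : 0 < t) (ht1 : t ≤ 1)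
    (hc0 : 0 < c) (hc : c * (48 * β * Ct) ≤ 1) (hr : r ≤ c * t ^ 2)
    (he : e ≤ 3 * (t ^ 7 / C ^ 2)) (hb : b = t ^ 10 / C)
    (hCt : 1 ≤ Ct) (hC1 : 24 * Ct / β ≤ C) (hC2 : 2 * Ct ≤ C)
    (hT : 1 / (Ct * t ^ 3) ≤ T)
    (hX : β * b / 2 * T - (e + 2 * β ^ 2 * (3 * b / t ^ 5 * r)) ≤ X) :
    β * t ^ 7 / (2 * C ^ 2) ≤ X := by
  have hC0 : 0 < C := by linarith
  have hCt0 : 0 < Ct := by linarith
  refine le_trans ?_ hX
  have h1 : β * b / 2 * (1 / (Ct * t ^ 3)) ≤ β * b / 2 * T := by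
    refine mul_le_mul_of_nonneg_left hT ?_
    rw [hb]
    positivity
  have h2 : β * b / 2 * (1 / (Ct * t ^ 3)) = β / (2 * Ct) * (t ^ 7 / C) := by
    rw [hb]
    field_simp
  have h4 : 3 * b / t ^ 5 * r ≤ 3 * c * (t ^ 7 / C) := by
    have e0 : 3 * b / t ^ 5 = 3 * (t ^ 5 / C) := by
      rw [hb]
      field_simp
    rw [e0]
    calc 3 * (t ^ 5 / C) * r ≤ 3 * (t ^ 5 / C) * (c * t ^ 2) :=
          mul_le_mul_of_nonneg_left hr (by positivity)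
      _ = 3 * c * (t ^ 7 / C) := by ring
  have h5 : 2 * β ^ 2 * (3 * c) ≤ β / (8 * Ct) := by
    rw [le_div_iff₀ (by positivity)]
    have := mul_le_mul_of_nonneg_left hc hβ.le
    linarith only [this]
  have h6 : 3 * (t ^ 7 / C ^ 2) ≤ β / (8 * Ct) * (t ^ 7 / C) := by
    have h7 : 3 / C ≤ β / (8 * Ct) := by
      rw [div_le_iff₀ hβ] at hC1
      rw [div_le_div_iff₀ hC0 (by positivity)]
      linarith
    have e1 : 3 * (t ^ 7 / C ^ 2) = 3 / C * (t ^ 7 / C) := by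
      field_simp
    rw [e1]
    exact mul_le_mul_of_nonneg_right h7 (by positivity)
  have h8 : 2 * β ^ 2 * (3 * b / t ^ 5 * r) ≤ β / (8 * Ct) * (t ^ 7 / C) := by
    calc 2 * β ^ 2 * (3 * b / t ^ 5 * r) ≤ 2 * β ^ 2 * (3 * c * (t ^ 7 / C)) :=
          mul_le_mul_of_nonneg_left h4 (by positivity)
      _ = 2 * β ^ 2 * (3 * c) * (t ^ 7 / C) := by ring
      _ ≤ _ := mul_le_mul_of_nonneg_right h5 (by positivity)
  have h9 : β * t ^ 7 / (2 * C ^ 2) ≤ β / (4 * Ct) * (t ^ 7 / C) := by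
    have h10 : 1 / (2 * C) ≤ 1 / (4 * Ct) :=
      one_div_le_one_div_of_le (by positivity) (by linarith)
    have e2 : β * t ^ 7 / (2 * C ^ 2) = β * (1 / (2 * C)) * (t ^ 7 / C) := by
      field_simp
    have e3 : β / (4 * Ct) * (t ^ 7 / C) = β * (1 / (4 * Ct)) * (t ^ 7 / C) := by ring
    rw [e2, e3]
    exact mul_le_mul_of_nonneg_right (mul_le_mul_of_nonneg_left h10 hβ.le) (by positivity)
  have e4 : β / (2 * Ct) * (t ^ 7 / C) = β / (8 * Ct) * (t ^ 7 / C) +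
      β / (8 * Ct) * (t ^ 7 / C) + β / (4 * Ct) * (t ^ 7 / C) := by
    field_simp
    norm_num
  linarith only [h1, h2, h6, h8, h9, e4, he]

/-- **The decrease of the free energy, sharper.** -/
theorem xq7 {β P0 CL : ℝ} (hβ : 0 < β) (hP : ParU2 β P0) (hTB : TB7 β) (hLM : LamMax4 CL) :
    XQF 7 10 16 β P0 := by
  obtain ⟨C₄, hC₄, hpar⟩ := hP
  obtain ⟨Ct, hCt1, htb⟩ := hTB C₄ hC₄
  have hCt0 : 0 < Ct := by linarith
  obtain ⟨c, hc⟩ : ∃ c : ℝ, c = 1 / (2 + 48 * β * Ct + Ct) := ⟨_, rfl⟩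
  have hden : 0 < 2 + 48 * β * Ct + Ct := by positivity
  have hc0 : 0 < c := by rw [hc]; positivity
  have hc2 : c ≤ 1 / 2 := by
    rw [hc]
    exact one_div_le_one_div_of_le (by norm_num) (by
      have : 0 < 48 * β * Ct := by positivity
      linarith)
  have hc3 : c * (48 * β * Ct) ≤ 1 := by
    rw [hc, one_div_mul_eq_div, div_le_one hden]
    linarith
  have hc4 : c * Ct ≤ 1 := by
    rw [hc, one_div_mul_eq_div, div_le_one hden]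
    have : 0 < 48 * β * Ct := by positivity
    linarith
  obtain ⟨C, hC⟩ : ∃ C : ℝ, C = 1 + Ct + Ct ^ 2 * (8 / (β ^ 2 * c) * (β / 2 + 3) + 24) +
    24 * Ct / β + 2 * Ct + |CL| := ⟨_, rfl⟩
  have q1 : 0 ≤ Ct ^ 2 * (8 / (β ^ 2 * c) * (β / 2 + 3) + 24) := by positivity
  have q2 : 0 ≤ 24 * Ct / β := by positivity
  have q3 := abs_nonneg CL
  have q4 := le_abs_self CL
  have hC1 : 1 ≤ C := by rw [hC]; linarith
  have hCt : Ct ≤ C := by rw [hC]; linarith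
  have hCC : Ct ^ 2 * (8 / (β ^ 2 * c) * (β / 2 + 3) + 24) ≤ C := by rw [hC]; linarith
  have hCb : 24 * Ct / β ≤ C := by rw [hC]; linarith
  have hC2t : 2 * Ct ≤ C := by rw [hC]; linarith
  have hCL : CL ≤ C := by rw [hC]; linarith
  clear hC q1 q2 q3 q4
  have hC0 : 0 < C := by linarith
  refine ⟨C, hC1, fun N t ε hN ht htC hNt hε hεt hPN => ?_⟩
  have ht1 : t ≤ 1 := htC.trans (by rw [div_le_one hC0]; exact hC1)
  have hk : ∀ k, 0 < t ^ k := fun k => by positivity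
  have hk1 : ∀ k, t ^ k ≤ 1 := fun k => pow_le_one₀ ht.le ht1
  have hCsq : 1 ≤ C ^ 2 := one_le_pow₀ hC1
  obtain ⟨η, hη⟩ : ∃ η : ℝ, η = t ^ 7 / C ^ 2 := ⟨_, rfl⟩
  have hη0 : 0 < η := by rw [hη]; positivity
  have hη3 : η ≤ t ^ 3 := by
    rw [hη]
    calc t ^ 7 / C ^ 2 ≤ t ^ 7 / 1 := div_le_div_of_nonneg_left (hk 7).le one_pos hCsq
      _ = t ^ 7 := div_one _
      _ ≤ t ^ 3 := pow_le_pow_of_le_one ht.le ht1 (by norm_num)
  obtain ⟨K, m, q, hm', hq, hq1, hPS, hLu⟩ := hpar η hη0 (hη3.trans (hk1 3))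
  refine ⟨K, m, hm', ?_⟩
  by_contra hcon
  push Not at hcon
  have hbC : t ^ 10 / C ≤ 1 := by
    rw [div_le_one hC0]
    exact (hk1 10).trans hC1
  obtain ⟨b, hb⟩ : ∃ b : ℝ, b = t ^ 10 / C := ⟨_, rfl⟩
  rw [← hb] at hcon hbC
  have hb0 : 0 < b := by rw [hb]; positivity
  have hδ : c * t ^ 2 ≤ 1 / 2 := by
    calc c * t ^ 2 ≤ 1 / 2 * 1 := mul_le_mul hc2 (hk1 2) (hk 2).le (by norm_num)
      _ = 1 / 2 := mul_one _
  have hκ : 0 < t ^ 7 / C ^ 2 / (3 * β ^ 2) := by positivity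
  obtain ⟨M, i, hi0, hiM, hr1, hr2, hM⟩ := grid_ex (show 0 < c * t ^ 2 by positivity) hδ hκ
  have hM0 : 0 < M := by omega
  have hM' : (0 : ℝ) < M := by exact_mod_cast hM0
  have hi' : (0 : ℝ) < i := by exact_mod_cast hi0
  have hMe : 3 * (β ^ 2 / √(M : ℝ)) ≤ t ^ 7 / C ^ 2 := by
    have h1 := mul_le_mul_of_nonneg_left hM (show 0 ≤ 3 * β ^ 2 by positivity)
    have e1 : 3 * β ^ 2 * (1 / √(M : ℝ)) = 3 * (β ^ 2 / √(M : ℝ)) := by ring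
    have e2 : 3 * β ^ 2 * (t ^ 7 / C ^ 2 / (3 * β ^ 2)) = t ^ 7 / C ^ 2 := by
      field_simp
    rwa [e1, e2] at h1
  have hPP : PSK β K m q ≤ pN β N + (ε + η) := by linarith
  have hup : UpT N K m q β (t ^ 4) b (3 * b / t ^ 5) :=
    upT_of4 hLM hβ.le hN ht ht1 hb0.le hm' hC1 hCL hNt
  obtain ⟨j, hji, hQ, hX⟩ := win_up (y := t ^ 4) (b := b) hβ (hk 4) hN hm' hq hq1 hb0.le
    (show 0 ≤ 3 * b / t ^ 5 by positivity) hup hPP hi0 hiM
  obtain ⟨X, hXd⟩ : ∃ X : ℝ, X = pN β N -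
    gF K m (Ey N β (t ^ 4) 1 b) (spin (N := N)) (fun _ => 0) := ⟨_, rfl⟩
  rw [← hXd] at hQ hX hcon
  obtain ⟨r, hrd⟩ : ∃ r : ℝ, r = (i : ℝ) / M := ⟨_, rfl⟩
  have hr0 : 0 < r := by rw [hrd]; positivity
  rw [← hrd] at hQ hX hr1 hr2
  have hεe : ε ≤ t ^ 7 / C ^ 2 := by
    rw [le_div_iff₀ (by positivity)]
    linarith
  obtain ⟨e, he⟩ : ∃ e : ℝ, e = ε + η + 3 * (β ^ 2 / √(M : ℝ)) := ⟨_, rfl⟩
  have heb : e ≤ 3 * (t ^ 7 / C ^ 2) := by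
    rw [he]
    linarith [hη.le]
  rw [← he] at hQ hX
  have hXe : β * b / 2 * (1 / (C * t ^ 3)) = β * t ^ 7 / (2 * C ^ 2) := by
    rw [hb]
    field_simp
  have hXu : X ≤ β * t ^ 7 / (2 * C ^ 2) := by linarith
  have hQ' := num_Q7 (Ct := Ct) hβ hc0 hC1 ht ht1 hr1 hr0 hXu heb hb hCt0 hCC hQ
  have hga1 : ga M j ≤ 1 := ga_le M j
  have hga2 : Ct * (1 - ga M j) ≤ t ^ 2 := by
    have h1 := ga_ge hM0 (show j ≤ M by omega)
    have h2 : (j : ℝ) / M ≤ r := by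
      rw [hrd]
      have : (j : ℝ) ≤ i := by exact_mod_cast hji.le
      gcongr
    have h3 : 1 - ga M j ≤ c * t ^ 2 := by linarith
    calc Ct * (1 - ga M j) ≤ Ct * (c * t ^ 2) := mul_le_mul_of_nonneg_left h3 hCt0.le
      _ = c * Ct * t ^ 2 := by ring
      _ ≤ 1 * t ^ 2 := mul_le_mul_of_nonneg_right hc4 (hk 2).le
      _ = t ^ 2 := one_mul _
  have hT := htb N K m q t (ga M j) b (sg β q (gt M j)) hN hm' hq hq1 ht
    (htC.trans (one_div_le_one_div_of_le hCt0 hCt)) (hCt.trans hNt)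
    (fun u hu => ⟨by linarith [(hLu u hu).1], by linarith [(hLu u hu).2]⟩)
    ⟨ga_nonneg M j, hga1⟩ hga2 ⟨hb0.le, hbC⟩ (by
      rw [hb]
      calc Ct * (t ^ 10 / C) = Ct / C * t ^ 10 := by ring
        _ ≤ 1 * t ^ 10 := mul_le_mul_of_nonneg_right (by
            rw [div_le_one hC0]
            exact hCt) (hk 10).le
        _ = t ^ 10 := one_mul _
        _ ≤ t ^ 9 := pow_le_pow_of_le_one ht.le ht1 (by norm_num))
    (fun l _ => sg_nonneg hβ.le (gt_nonneg M j) l) hQ'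
  have hfin := num_X7 hβ hC1 ht ht1 hc0 hc3 hr2 heb hb hCt1 hCb hC2t hT hX
  linarith

/-- `XQF 7 10 16` from the deterministic lemma. -/
theorem xq7_of_det (hDet : Vale.Agent.P146.H326.B7.Det) {β : ℝ} (hβ : 1 < β) :
    XQF 7 10 16 β (Sh.P0 β) :=
  xq7 (by linarith) (Vale.Agent.P146.R3.H732.LC.parU2 hβ)
    (Vale.Agent.P146.H326.B7.tb7 hDet (by linarith)) lamMax4

/-- **Small balls and the variance against the error of the mean, `M ≥ n ^ (9 / 16)`.** -/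
theorem low7_of_det (hDet : Vale.Agent.P146.H326.B7.Det) {β : ℝ} (hβ : 1 < β) :
    ∃ c C : ℝ, 0 < c ∧ 1 ≤ C ∧
    (∀ n : ℕ, 1 ≤ n → ∀ M : ℝ, (n : ℝ) ^ (9 / 16 : ℝ) ≤ M →
      n * Sx.pv β - ∫ g, freeEnergy n β g ∂(disorder n) ≤ M → ∀ a K : ℝ, 0 < K →
      (disorder n).real {g | |freeEnergy n β g - a| ≤ K} ≤
        C * (K + 1) * (M / n) ^ (1 / 7 : ℝ)) ∧
    ∀ᶠ n : ℕ in atTop, ∀ M : ℝ, (n : ℝ) ^ (9 / 16 : ℝ) ≤ M →
      n * Sx.pv β - ∫ g, freeEnergy n β g ∂(disorder n) ≤ M →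
      c * (n / M) ^ (2 / 7 : ℝ) ≤ Var[freeEnergy n β; disorder n] := by
  have h := Vale.Agent.P146.H260.Low.low_ofF (D := 7) (E := 10) (F := 16) (k := 3) (by norm_num)
    (by norm_num) (by norm_num) (by norm_num) (by norm_num) hβ (xq7_of_det hDet hβ)
    (Vale.Agent.P146.H260.XQ.spF3 (by linarith))
  have e : (1 : ℝ) - ((7 : ℕ) : ℝ) / (16 : ℕ) = 9 / 16 := by norm_num
  rw [e] at h
  push_cast at h
  exact h

end Vale.Agent.P146.H260.XQ7
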