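import Vale.Agent.P146.H260.XQ7
import Vale.Agent.P146.H260.Asm4
import Vale.Agent.P146.H326.Tb7U

set_option linter.all false

/-!
# P146: the growth relation with exponents `7` and `10`, unconditional
-/

open MeasureTheory ProbabilityTheory Matrix Filter Topology

namespace Vale.Agent.P146.H260.XQ7

open Vale.Agent.P146.H260.Low (XQF SpF)

theorem xq7_unc {β : ℝ} (hβ : 1 < β) : XQF 7 10 16 β (Sh.P0 β) :=
  xq7 (by linarith) (Vale.Agent.P146.R3.H732.LC.parU2 hβ)
    (Vale.Agent.P146.H326.B7.tb7_unc (by linarith)) lamMax4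

/-- **Small balls and the variance against the error of the mean, `M ≥ n ^ (9 / 16)`.** -/
theorem lowD7 {β : ℝ} (hβ : 1 < β) : Vale.Agent.P146.H260.Asm.LowD β 7 (9 / 16) := by
  have h := Vale.Agent.P146.H260.Low.low_ofF (D := 7) (E := 10) (F := 16) (k := 3) (by norm_num)
    (by norm_num) (by norm_num) (by norm_num) (by norm_num) hβ (xq7_unc hβ)
    (Vale.Agent.P146.H260.XQ.spF3 (by linarith))
  have e : (1 : ℝ) - ((7 : ℕ) : ℝ) / (16 : ℕ) = 9 / 16 := by norm_num
  rw [e] at h
  exact h

end Vale.Agent.P146.H260.XQ7
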